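import Crest.Agent.R011.Defs

set_option autoImplicit false

namespace Crest.Agent.R011

open MvPolynomial Finset Filter Topology
open scoped ENNReal NNReal

instance neBot_lt_one : (𝓝[<] (1 : ℝ≥0)).NeBot :=
  nhdsWithin_Iio_neBot' ⟨0, Set.mem_Iio.2 zero_lt_one⟩ le_rfl

lemma abel_ev : ∀ᶠ x in 𝓝[<] (1 : ℝ≥0), x < 1 := self_mem_nhdsWithin

lemma abel_gen_mono {a b : ℕ → ℕ} (h : ∀ n, a n ≤ b n) (x : ℝ≥0) : gen a x ≤ gen b x :=
  ENNReal.tsum_le_tsum fun n => by gcongr; exact h n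

lemma abel_gen_add (a b : ℕ → ℕ) (x : ℝ≥0) :
    gen (fun n => a n + b n) x = gen a x + gen b x := by
  simp only [gen, Nat.cast_add, add_mul, ENNReal.tsum_add]

lemma abel_gen_mul (K : ℕ) (a : ℕ → ℕ) (x : ℝ≥0) : gen (fun n => K * a n) x = K * gen a x := by
  simp only [gen, Nat.cast_mul, mul_assoc, ENNReal.tsum_mul_left]

lemma abel_gen_sh (N : ℕ) (a : ℕ → ℕ) (x : ℝ≥0) :
    gen (sh N a) x = (x : ℝ≥0∞) ^ N * gen a x := by
  unfold gen
  rw [← (ENNReal.summable.sum_add_tsum_nat_add' (k := N)), sum_eq_zero fun n hn => by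
    simp [sh, (mem_range.1 hn).not_ge], zero_add, ← ENNReal.tsum_mul_left]
  refine tsum_congr fun n => ?_
  simp only [sh, le_add_iff_nonneg_left, zero_le, if_true, Nat.add_sub_cancel]
  ring

lemma abel_tendsto : Tendsto (fun x : ℝ≥0 => (x : ℝ≥0∞)) (𝓝[<] 1) (𝓝 1) :=
  (ENNReal.tendsto_coe.2 tendsto_id).mono_left nhdsWithin_le_nhds

lemma abel_tendsto_pow (N : ℕ) : Tendsto (fun x : ℝ≥0 => (x : ℝ≥0∞) ^ N) (𝓝[<] 1) (𝓝 1) := by
  simpa using ENNReal.Tendsto.pow (n := N) abel_tendsto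

lemma abel_tendsto_sub : Tendsto (fun x : ℝ≥0 => ((1 - x : ℝ≥0) : ℝ≥0∞)) (𝓝[<] 1) (𝓝 0) := by
  have : Tendsto (fun x : ℝ≥0 => (1 - x : ℝ≥0)) (𝓝 1) (𝓝 (1 - 1)) :=
    tendsto_const_nhds.sub tendsto_id
  rw [tsub_self] at this
  exact (ENNReal.tendsto_coe.2 this).mono_left nhdsWithin_le_nhds

lemma abel_liminf_pow (N : ℕ) (v : ℝ≥0 → ℝ≥0∞) :
    liminf v (𝓝[<] 1) ≤ liminf (fun x : ℝ≥0 => (x : ℝ≥0∞) ^ N * v x) (𝓝[<] 1) := by
  have := ENNReal.le_liminf_mul (f := 𝓝[<] 1) (u := fun x : ℝ≥0 => (x : ℝ≥0∞) ^ N) (v := v)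
  rwa [(abel_tendsto_pow N).liminf_eq, one_mul] at this

lemma abel_limsup_pow (N : ℕ) (v : ℝ≥0 → ℝ≥0∞) :
    limsup v (𝓝[<] 1) ≤ limsup (fun x => v x * (x : ℝ≥0∞) ^ N) (𝓝[<] 1) := by
  have := ENNReal.le_limsup_mul (f := 𝓝[<] 1) (v := fun x : ℝ≥0 => (x : ℝ≥0∞) ^ N) (u := v)
  rwa [(abel_tendsto_pow N).liminf_eq, mul_one] at this

lemma abel_liminf_add (u v : ℝ≥0 → ℝ≥0∞) :
    liminf u (𝓝[<] 1) + liminf v (𝓝[<] 1) ≤ liminf (u + v) (𝓝[<] 1) := by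
  rw [liminf_eq (u := u), liminf_eq (u := v), sSup_eq_iSup, sSup_eq_iSup]
  refine ENNReal.biSup_add_biSup_le ⟨0, by simp⟩ ⟨0, by simp⟩ fun a ha b hb => ?_
  refine le_liminf_of_le (h := ?_)
  filter_upwards [ha, hb] with x h1 h2 using add_le_add h1 h2

lemma abel_limsup_add (u v : ℝ≥0 → ℝ≥0∞) :
    limsup (u + v) (𝓝[<] 1) ≤ limsup u (𝓝[<] 1) + limsup v (𝓝[<] 1) := by
  rw [limsup_eq (u := u), limsup_eq (u := v), sInf_eq_iInf, sInf_eq_iInf]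
  refine ENNReal.le_iInf₂_add_iInf₂ fun a ha b hb => ?_
  refine limsup_le_of_le (h := ?_)
  filter_upwards [ha, hb] with x h1 h2 using add_le_add h1 h2

lemma abel_liminf_le_limsup (u : ℝ≥0 → ℝ≥0∞) : liminf u (𝓝[<] 1) ≤ limsup u (𝓝[<] 1) :=
  liminf_le_limsup

lemma abel_bern (N : ℕ) {x : ℝ≥0} (hx : x ≤ 1) : 1 ≤ N * (1 - x) + x ^ N := by
  have := one_add_mul_sub_le_pow (a := (x : ℝ)) (by linarith [x.2]) N
  rw [← NNReal.coe_le_coe]
  push_cast [NNReal.coe_sub hx]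
  linarith

lemma abel_bern' (k : ℕ) {x : ℝ≥0} (hx : x ≤ 1) : k * (1 - x) * x ^ k + x ^ k ≤ 1 := by
  rw [← NNReal.coe_le_coe]
  push_cast [NNReal.coe_sub hx]
  have h0 : (0 : ℝ) ≤ x := x.2
  have h1 : (x : ℝ) ≤ 1 := hx
  induction k with
  | zero => simp
  | succ k ih =>
    have a := mul_le_mul_of_nonneg_left ih h0
    have b := mul_le_mul_of_nonneg_left (pow_le_one₀ (n := k + 1) h0 h1) (sub_nonneg.2 h1)
    push_cast
    rw [pow_succ] at b ⊢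
    nlinarith

theorem Tame.mono {a b : ℕ → ℕ} (hb : Tame b) (h : ∀ n, a n ≤ b n) : Tame a :=
  fun x hx => ne_top_of_le_ne_top (hb x hx) (abel_gen_mono h x)

theorem Tame.const_mul {a : ℕ → ℕ} (ha : Tame a) (K : ℕ) : Tame fun n => K * a n :=
  fun x hx => by
    rw [abel_gen_mul]
    exact ENNReal.mul_ne_top (ENNReal.natCast_ne_top K) (ha x hx)

theorem Dl_mono (e : ℕ) {a b : ℕ → ℕ} (h : ∀ n, a n ≤ b n) : Dl e a ≤ Dl e b :=
  liminf_le_liminf (Eventually.of_forall fun x => mul_le_mul_right (abel_gen_mono h x) _)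

theorem Mu_mono (e : ℕ) {a b : ℕ → ℕ} (h : ∀ n, a n ≤ b n) : Mu e a ≤ Mu e b :=
  limsup_le_limsup (Eventually.of_forall fun x => mul_le_mul_right (abel_gen_mono h x) _)

theorem Dl_superadd (e N : ℕ) {a b c : ℕ → ℕ} (h : ∀ n, b n + sh N c n ≤ a n) :
    Dl e b + Dl e c ≤ Dl e a := by
  refine (add_le_add_right (abel_liminf_pow N _) _).trans ((abel_liminf_add _ _).trans
    (liminf_le_liminf (Eventually.of_forall fun x => ?_)))
  have := abel_gen_mono h x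
  rw [abel_gen_add, abel_gen_sh] at this
  refine le_trans (le_of_eq ?_) (mul_le_mul_right this _)
  simp only [Pi.add_apply, nrm]
  ring

theorem Dl_step (e N : ℕ) (hN : 1 ≤ N) {a b : ℕ → ℕ} (ha : Tame a)
    (h : ∀ n, b n + sh N a n ≤ a n) : Dl e b ≤ N * Dl (e + 1) a := by
  have _ := hN
  rw [Dl, Dl, ← ENNReal.liminf_const_mul_of_ne_top (ENNReal.natCast_ne_top N)]
  refine liminf_le_liminf (abel_ev.mono fun x hx => ?_)
  have h1 := abel_gen_mono h x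
  rw [abel_gen_add, abel_gen_sh] at h1
  have h2 : (1 : ℝ≥0∞) ≤ N * ((1 - x : ℝ≥0) : ℝ≥0∞) + (x : ℝ≥0∞) ^ N := by
    exact_mod_cast abel_bern N hx.le
  have h3 := h1.trans (le_mul_of_one_le_left' h2)
  rw [add_mul, ENNReal.add_le_add_iff_right
    (ENNReal.mul_ne_top (ENNReal.pow_ne_top ENNReal.coe_ne_top) (ha x hx))] at h3
  refine (mul_le_mul_right h3 _).trans (le_of_eq ?_)
  simp only [nrm]
  ring

theorem Mu_subadd (e : ℕ) {a b c : ℕ → ℕ} (h : ∀ n, a n ≤ b n + c n) :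
    Mu e a ≤ Mu e b + Mu e c := by
  refine le_trans (limsup_le_limsup (Eventually.of_forall fun x => ?_)) (abel_limsup_add _ _)
  have := abel_gen_mono h x
  rw [abel_gen_add] at this
  refine (mul_le_mul_right this _).trans (le_of_eq ?_)
  simp only [Pi.add_apply, nrm]
  ring

theorem Mu_step (e k : ℕ) {a b : ℕ → ℕ} (ha : Tame a) (h : ∀ n, a n ≤ b n + sh k a n) :
    k * Mu (e + 1) a ≤ Mu e b := by
  rw [Mu, Mu, ← ENNReal.limsup_const_mul_of_ne_top (ENNReal.natCast_ne_top k)]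
  refine (abel_limsup_pow k _).trans (limsup_le_limsup (abel_ev.mono fun x hx => ?_))
  have h1 := abel_gen_mono h x
  rw [abel_gen_add, abel_gen_sh] at h1
  have h2 : k * ((1 - x : ℝ≥0) : ℝ≥0∞) * (x : ℝ≥0∞) ^ k + (x : ℝ≥0∞) ^ k ≤ 1 := by
    exact_mod_cast abel_bern' k hx.le
  have h3 := (mul_le_of_le_one_left' h2).trans h1
  rw [add_mul, ENNReal.add_le_add_iff_right
    (ENNReal.mul_ne_top (ENNReal.pow_ne_top ENNReal.coe_ne_top) (ha x hx))] at h3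
  refine le_trans (le_of_eq ?_) (mul_le_mul_right h3 _)
  simp only [nrm]
  ring

theorem Dl_succ_eq_zero {e : ℕ} {a : ℕ → ℕ} (h : Dl e a ≠ ∞) : Dl (e + 1) a = 0 := by
  have := ENNReal.liminf_mul_le (f := 𝓝[<] 1) (u := fun x : ℝ≥0 => ((1 - x : ℝ≥0) : ℝ≥0∞))
    (v := nrm e a) (Or.inr h) (Or.inl (by rw [abel_tendsto_sub.limsup_eq]; exact ENNReal.zero_ne_top))
  rw [abel_tendsto_sub.limsup_eq, zero_mul] at this
  refine le_antisymm (le_trans (le_of_eq ?_) this) bot_le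
  unfold Dl
  congr 1
  funext x
  simp only [Pi.mul_apply, nrm]
  ring

theorem Mu_eq_zero (e : ℕ) {a : ℕ → ℕ} (h : ∀ n, a n = 0) : Mu e a = 0 := by
  have : nrm e a = fun _ => 0 := funext fun x => by simp [nrm, gen, h]
  rw [Mu, this, limsup_const]

lemma abel_gen_one (x : ℝ≥0) : gen (fun _ => 1) x = (((1 - x : ℝ≥0) : ℝ≥0∞))⁻¹ := by
  simp [gen]

lemma abel_nrm_le {a : ℕ → ℕ} (h : ∀ n, a n ≤ 1) (x : ℝ≥0) :
    ((1 - x : ℝ≥0) : ℝ≥0∞) * gen a x ≤ 1 := by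
  refine (mul_le_mul_right (abel_gen_mono h x) _).trans ?_
  rw [abel_gen_one]
  exact ENNReal.mul_inv_le_one _

theorem Mu_one_le {a : ℕ → ℕ} (h : ∀ n, a n ≤ 1) : Mu 1 a ≤ 1 :=
  limsup_le_of_le (h := Eventually.of_forall fun x => by
    rw [nrm, pow_one]; exact abel_nrm_le h x)

theorem Mu_add_two {a : ℕ → ℕ} (h : ∀ n, a n ≤ 1) (e : ℕ) : Mu (e + 2) a = 0 := by
  refine le_antisymm (le_trans (limsup_le_limsup (Eventually.of_forall fun x => ?_))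
    abel_tendsto_sub.limsup_eq.le) bot_le
  have h1 : ((1 - x : ℝ≥0) : ℝ≥0∞) ≤ 1 := by exact_mod_cast tsub_le_self
  calc nrm (e + 2) a x = ((1 - x : ℝ≥0) : ℝ≥0∞) * (((1 - x : ℝ≥0) : ℝ≥0∞) ^ e *
        (((1 - x : ℝ≥0) : ℝ≥0∞) * gen a x)) := by rw [nrm]; ring
    _ ≤ _ := mul_le_of_le_one_right' (mul_le_one' (pow_le_one' h1 e) (abel_nrm_le h x))

theorem one_le_Dl_one {a : ℕ → ℕ} (h : ∀ n, 1 ≤ a n) : 1 ≤ Dl 1 a := by
  refine le_liminf_of_le (h := abel_ev.mono fun x hx => ?_)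
  refine le_trans ?_ (mul_le_mul_right (abel_gen_mono h x) _)
  rw [abel_gen_one, pow_one, ENNReal.mul_inv_cancel _ ENNReal.coe_ne_top]
  exact_mod_cast (tsub_pos_of_lt hx).ne'

theorem Mu_const_mul (e K : ℕ) (a : ℕ → ℕ) : Mu e (fun n => K * a n) = K * Mu e a := by
  rw [Mu, Mu, ← ENNReal.limsup_const_mul_of_ne_top (ENNReal.natCast_ne_top K)]
  congr 1
  funext x
  rw [nrm, nrm, abel_gen_mul]
  ring

lemma abel_block (β : ℕ) (hβ : 0 < β) (f : ℕ → ℝ≥0∞) :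
    ∑' n, f n = ∑' k, ∑ r : Fin β, f (k * β + r) := by
  have : NeZero β := ⟨hβ.ne'⟩
  rw [← (Nat.divModEquiv β).symm.tsum_eq, ENNReal.tsum_prod']
  simp only [tsum_fintype]
  rfl

lemma abel_tendsto_self {α : ℕ} (hα : 0 < α) :
    Tendsto (fun x : ℝ≥0 => x ^ α) (𝓝[<] 1) (𝓝[<] 1) := by
  refine tendsto_nhdsWithin_iff.2 ⟨?_, abel_ev.mono fun x hx => pow_lt_one₀ zero_le hx hα.ne'⟩
  simpa using ((continuous_pow α).tendsto (1 : ℝ≥0)).mono_left nhdsWithin_le_nhds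

lemma abel_scale_gen {α β : ℕ} (hα : 0 < α) (hβ : 0 < β) {a l : ℕ → ℕ} (ha : Monotone a)
    (hl : Monotone l) (h : ∀ k, 1 ≤ k → a (β * k) ≤ l (α * k)) {x : ℝ≥0} (hx : x ≤ 1) :
    α * (x : ℝ≥0∞) ^ (α * β * 2) * gen a (x ^ α) ≤ β * gen l (x ^ β) := by
  have hx' : (x : ℝ≥0∞) ≤ 1 := by exact_mod_cast hx
  have h1 : gen a (x ^ α) ≤
      β * ∑' k, (l (α * (k + 1)) : ℝ≥0∞) * (x : ℝ≥0∞) ^ (α * β * k) := by
    rw [gen, abel_block β hβ, ← ENNReal.tsum_mul_left]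
    refine ENNReal.tsum_le_tsum fun k => (sum_le_card_nsmul _ _ _ fun r _ => ?_).trans
      (by rw [card_univ, Fintype.card_fin, nsmul_eq_mul])
    refine mul_le_mul' ?_ ?_
    · exact_mod_cast (ha (by have := r.2; nlinarith)).trans (h (k + 1) (by omega))
    · rw [ENNReal.coe_pow, ← pow_mul]
      exact pow_le_pow_right_of_le_one' hx' (by nlinarith [Nat.zero_le (α * r)])
  have h2 : α * ∑' k, (l (α * (k + 1)) : ℝ≥0∞) * (x : ℝ≥0∞) ^ (α * β * (k + 2)) ≤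
      gen l (x ^ β) := by
    rw [gen, abel_block α hα fun n => l n * _, ← ENNReal.tsum_mul_left]
    refine le_trans (ENNReal.tsum_le_tsum fun k => ?_)
      (ENNReal.tsum_comp_le_tsum_of_injective Nat.succ_injective _)
    refine le_trans (by rw [card_univ, Fintype.card_fin, nsmul_eq_mul])
      (card_nsmul_le_sum _ _ _ fun r _ => ?_)
    refine mul_le_mul' ?_ ?_
    · exact_mod_cast hl (by rw [Nat.succ_eq_add_one]; nlinarith [Nat.zero_le (r : ℕ)])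
    · rw [ENNReal.coe_pow, ← pow_mul]
      refine pow_le_pow_right_of_le_one' hx' ?_
      rw [Nat.succ_eq_add_one]
      nlinarith [Nat.mul_le_mul_left β r.2.le]
  refine (mul_le_mul_right h1 _).trans (le_trans (le_of_eq ?_) (mul_le_mul_right h2 _))
  have : ∑' k, (l (α * (k + 1)) : ℝ≥0∞) * (x : ℝ≥0∞) ^ (α * β * (k + 2)) =
      (x : ℝ≥0∞) ^ (α * β * 2) * ∑' k, (l (α * (k + 1)) : ℝ≥0∞) * (x : ℝ≥0∞) ^ (α * β * k) := by
    rw [← ENNReal.tsum_mul_left]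
    exact tsum_congr fun k => by ring
  rw [this]
  ring

lemma abel_scale_sub (α β : ℕ) {x : ℝ≥0} (hx : x ≤ 1) :
    β * x ^ β * (1 - x ^ α) ≤ α * (1 - x ^ β) := by
  have h1 : 1 - x ^ α ≤ α * (1 - x) := tsub_le_iff_right.2 (abel_bern α hx)
  have h2 : β * (1 - x) * x ^ β ≤ 1 - x ^ β := le_tsub_of_add_le_right (abel_bern' β hx)
  calc _ ≤ β * x ^ β * (α * (1 - x)) := by gcongr
    _ = α * (β * (1 - x) * x ^ β) := by ring
    _ ≤ _ := by gcongr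

theorem Dl_scale (e α β : ℕ) (hα : 0 < α) (hβ : 0 < β) {a l : ℕ → ℕ} (ha : Monotone a)
    (hl : Monotone l) (h : ∀ k, 1 ≤ k → a (β * k) ≤ l (α * k)) :
    (β : ℝ≥0∞) ^ e * Dl (e + 1) a ≤ (α : ℝ≥0∞) ^ e * Mu (e + 1) l := by
  have tα : (α : ℝ≥0∞) ≠ ∞ := ENNReal.natCast_ne_top α
  have tβ : (β : ℝ≥0∞) ≠ ∞ := ENNReal.natCast_ne_top β
  refine (mul_le_mul_right (abel_tendsto_self hα).liminf_le_liminf_comp _).trans
    (le_trans ?_ (mul_le_mul_right (abel_tendsto_self hβ).limsup_comp_le_limsup _))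
  rw [← ENNReal.liminf_const_mul_of_ne_top (ENNReal.pow_ne_top tβ),
    ← ENNReal.limsup_const_mul_of_ne_top (ENNReal.pow_ne_top tα)]
  refine (abel_liminf_pow (β * (e + 1) + α * β * 2) _).trans
    (le_trans (liminf_le_liminf (abel_ev.mono fun x hx => ?_)) (abel_liminf_le_limsup _))
  have h1 := abel_scale_gen hα hβ ha hl h hx.le
  have h2 : β * (x : ℝ≥0∞) ^ β * ((1 - x ^ α : ℝ≥0) : ℝ≥0∞) ≤ α * ((1 - x ^ β : ℝ≥0) : ℝ≥0∞) := by
    exact_mod_cast abel_scale_sub α β hx.le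
  have h3 := mul_le_mul' (pow_le_pow_left' h2 (e + 1)) h1
  refine (ENNReal.mul_le_mul_iff_right (a := α * β) (by simp [hα.ne', hβ.ne'])
    (ENNReal.mul_ne_top tα tβ)).1 (le_trans (le_of_eq ?_) (h3.trans (le_of_eq ?_)))
  · simp only [Function.comp_apply, nrm]; ring
  · simp only [Function.comp_apply, nrm]; ring

end Crest.Agent.R011
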