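import Crest.Agent.R011.Defs

set_option autoImplicit false

namespace Crest.Agent.R011

open MvPolynomial Finset Filter Topology
open scoped ENNReal NNReal

variable {m : ℕ}

/-! ### The exchange argument -/

/-- Elements of `N` are determined by their coordinates in `S`. -/
def AlgDet {κ : Type} [Field κ] (N : Submodule κ (Fin (m + 1) → κ)) (S : Finset (Fin (m + 1))) :
    Prop := ∀ y ∈ N, (∀ a ∈ S, y a = 0) → y = 0

lemma alg_exists_coord_aux {κ : Type} [Field κ] (N : Submodule κ (Fin (m + 1) → κ))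
    (ok : Finset (Fin (m + 1)) → Finset (Fin (m + 1)) → Prop)
    (hok : ∀ A B, Inj N A → Surj N B → A.card = B.card → ok A B)
    (h1 : ∀ (S : Finset (Fin (m + 1))) a b, a ∈ S → b ∉ S → b < a → ¬ ok S (insert b (S.erase a)))
    (h2 : ∀ (S : Finset (Fin (m + 1))) a b, a ∈ S → b ∉ S → a < b → ¬ ok (insert b (S.erase a)) S)
    (W : Finset (Fin (m + 1))) (hW : AlgDet N W) (hW0 : ∀ b, b ≠ 0 → b ∈ W)
    (hinj : ∀ S, S ⊆ W → AlgDet N S → Inj N S) :
    ∃ S, Inj N S ∧ Surj N S ∧ ∀ y ∈ N, ∀ b ∉ S, y b = 0 := by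
  classical
  obtain ⟨S, hS, hmin⟩ := Finset.exists_min_image
    (W.powerset.filter fun S => AlgDet N S) Finset.card ⟨W, by simp [hW]⟩
  obtain ⟨hSW, hSd⟩ := Finset.mem_filter.1 hS
  rw [Finset.mem_powerset] at hSW
  have hdual : ∀ a ∈ S, ∃ y ∈ N, ∀ b' ∈ S, y b' = if b' = a then 1 else 0 := by
    intro a ha
    have hnd : ¬ AlgDet N (S.erase a) := fun h => by
      have := hmin (S.erase a) (Finset.mem_filter.2
        ⟨Finset.mem_powerset.2 ((Finset.erase_subset _ _).trans hSW), h⟩)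
      have h3 := Finset.card_erase_lt_of_mem ha
      omega
    unfold AlgDet at hnd
    push Not at hnd
    obtain ⟨y, hy, hy0, hyne⟩ := hnd
    have hya : y a ≠ 0 := fun h => hyne (hSd y hy fun b hb => by
      by_cases hba : b = a
      · rw [hba, h]
      · exact hy0 b (Finset.mem_erase.2 ⟨hba, hb⟩))
    refine ⟨(y a)⁻¹ • y, N.smul_mem _ hy, fun b hb => ?_⟩
    by_cases hba : b = a
    · simp [hba, hya]
    · simp [hba, hy0 b (Finset.mem_erase.2 ⟨hba, hb⟩)]
  have hsurj : Surj N S := hdual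
  choose! f hfN hf using hdual
  have hzero : ∀ a ∈ S, ∀ b ∉ S, f a b = 0 := by
    intro a ha b hb
    by_contra hne
    have hab : a ≠ b := fun h => hb (h ▸ ha)
    have hcard : (insert b (S.erase a)).card = S.card := by
      rw [Finset.card_insert_of_notMem (fun h => hb (Finset.mem_of_mem_erase h)),
        Finset.card_erase_add_one ha]
    have hdet : AlgDet N (insert b (S.erase a)) := by
      intro y hy hy0
      have h3 : y - y a • f a = 0 := hSd _ (N.sub_mem hy (N.smul_mem _ (hfN a ha))) fun c hc => by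
        by_cases hca : c = a
        · simp [hca, hf a ha a ha]
        · simp [hf a ha c hc, hca,
            hy0 c (Finset.mem_insert_of_mem (Finset.mem_erase.2 ⟨hca, hc⟩))]
      have h4 : y = y a • f a := sub_eq_zero.1 h3
      have h5 : y a * f a b = 0 := by
        have := congrFun h4 b
        rw [hy0 b (Finset.mem_insert_self _ _)] at this
        simpa using this.symm
      rw [h4, (mul_eq_zero.1 h5).resolve_right hne, zero_smul]
    have hsur : Surj N (insert b (S.erase a)) := by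
      intro c hc
      rcases Finset.mem_insert.1 hc with rfl | hc
      · refine ⟨(f a c)⁻¹ • f a, N.smul_mem _ (hfN a ha), fun b' hb' => ?_⟩
        rcases Finset.mem_insert.1 hb' with rfl | hb'
        · simp [hne]
        · obtain ⟨h3, h4⟩ := Finset.mem_erase.1 hb'
          have h5 : b' ≠ c := fun h => hb (h ▸ h4)
          simp [hf a ha b' h4, h3, h5]
      · obtain ⟨hca, hcS⟩ := Finset.mem_erase.1 hc
        have hcb : b ≠ c := fun h => hb (h ▸ hcS)
        refine ⟨f c - (f c b * (f a b)⁻¹) • f a,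
          N.sub_mem (hfN c hcS) (N.smul_mem _ (hfN a ha)), fun b' hb' => ?_⟩
        rcases Finset.mem_insert.1 hb' with rfl | hb'
        · simp [hne, hcb]
        · obtain ⟨h3, h4⟩ := Finset.mem_erase.1 hb'
          simp [hf a ha b' h4, h3, hf c hcS b' h4]
    rcases lt_or_gt_of_ne hab with hlt | hlt
    · have hb0 : b ≠ 0 := fun h => by rw [h] at hlt; exact absurd hlt (Fin.not_lt_zero _)
      refine h2 S a b ha hb hlt (hok _ _ (hinj _ ?_ hdet) hsurj hcard)
      exact Finset.insert_subset (hW0 b hb0) ((Finset.erase_subset _ _).trans hSW)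
    · exact h1 S a b ha hb hlt (hok _ _ (hinj _ hSW hSd) hsur hcard.symm)
  refine ⟨S, hinj _ hSW hSd, hsurj, fun y hy b hb => ?_⟩
  have h3 : y - ∑ a ∈ S, y a • f a = 0 :=
    hSd _ (N.sub_mem hy (N.sum_mem fun a ha => N.smul_mem _ (hfN a ha))) fun c hc => by
      rw [Pi.sub_apply, Finset.sum_apply, Finset.sum_eq_single c]
      · simp [hf c hc c hc]
      · intro a ha hac
        simp [hf a ha c hc, hac.symm]
      · exact fun h => absurd hc h
  rw [sub_eq_zero.1 h3, Finset.sum_apply]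
  exact Finset.sum_eq_zero fun a ha => by simp [hzero a ha b hb]

/-- Exchange argument: if no weight-improving exchange is possible, `N` is a coordinate subspace. -/
theorem exists_coord {κ : Type} [Field κ] (N : Submodule κ (Fin (m + 1) → κ))
    (ok : Finset (Fin (m + 1)) → Finset (Fin (m + 1)) → Prop)
    (hok : ∀ A B, Inj N A → Surj N B → A.card = B.card → ok A B)
    (h1 : ∀ (S : Finset (Fin (m + 1))) a b, a ∈ S → b ∉ S → b < a → ¬ ok S (insert b (S.erase a)))
    (h2 : ∀ (S : Finset (Fin (m + 1))) a b, a ∈ S → b ∉ S → a < b → ¬ ok (insert b (S.erase a)) S) :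
    ∃ S, Inj N S ∧ Surj N S ∧ ∀ y ∈ N, ∀ b ∉ S, y b = 0 := by
  classical
  by_cases he : (Pi.single 0 1 : Fin (m + 1) → κ) ∈ N
  · refine alg_exists_coord_aux N ok hok h1 h2 univ (fun y _ hy => funext fun a => hy a (by simp))
      (by simp) fun S _ hS y hy hy0 => ?_
    have h3 : Lm y = y - (∑ i : Fin m, y i.succ) • (Pi.single 0 1 : Fin (m + 1) → κ) := by
      funext b
      by_cases hb : b = 0
      · simp [Lm, hb]
      · simp [Lm, hb]
    have h4 : Lm y = 0 := hS _ (h3 ▸ N.sub_mem hy (N.smul_mem _ he)) hy0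
    have h5 : ∀ i : Fin m, y i.succ = 0 := fun i => by
      simpa [Lm, Fin.succ_ne_zero] using congrFun h4 i.succ
    funext b
    refine Fin.cases ?_ (fun i => h5 i) b
    simpa [Lm, h5] using congrFun h4 0
  · refine alg_exists_coord_aux N ok hok h1 h2 (univ.erase 0) (fun y hy hy0 => ?_)
      (by simp) fun S hS0 hS y hy hy0 => hS y hy fun a ha => ?_
    · have h3 : y = y 0 • (Pi.single 0 1 : Fin (m + 1) → κ) := by
        funext b
        by_cases hb : b = 0
        · simp [hb]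
        · simp [hb, hy0 b (by simp [hb])]
      by_cases h0 : y 0 = 0
      · rw [h3, h0, zero_smul]
      · exact absurd ((N.smul_mem_iff h0).1 (h3 ▸ hy)) he
    · have h0 : a ≠ 0 := (Finset.mem_erase.1 (hS0 ha)).1
      simpa [Lm, h0] using hy0 a ha

/-! ### Derivatives of polynomials -/

lemma alg_mem_support_pderiv {b : Fin (m + 1)} {g : Rg m ℂ} {γ : Fin (m + 1) →₀ ℕ} :
    γ ∈ (pderiv b g).support ↔ γ + Finsupp.single b 1 ∈ g.support := by
  rw [mem_support_iff, mem_support_iff, coeff_pderiv, mul_ne_zero_iff]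
  exact ⟨fun h => h.1, fun h => ⟨h, Nat.cast_add_one_ne_zero _⟩⟩

lemma alg_vars_subset {g g' : Rg m ℂ} (h : ∀ γ ∈ g.support, ∃ γ' ∈ g'.support, γ ≤ γ') :
    g.vars ⊆ g'.vars := by
  intro i hi
  obtain ⟨γ, hγ, hi⟩ := (mem_vars_iff_mem_support i).1 hi
  obtain ⟨γ', hγ', hle⟩ := h γ hγ
  exact (mem_vars_iff_mem_support i).2 ⟨γ', hγ', Finsupp.support_mono hle hi⟩

lemma alg_vars_pderiv (b : Fin (m + 1)) (g : Rg m ℂ) : (pderiv b g).vars ⊆ g.vars :=
  alg_vars_subset fun _ hγ => ⟨_, alg_mem_support_pderiv.1 hγ, le_self_add⟩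

lemma alg_notMem_vars {b : Fin (m + 1)} {g : Rg m ℂ} (h : pderiv b g = 0) : b ∉ g.vars := by
  intro hb
  obtain ⟨γ, hγ, hi⟩ := (mem_vars_iff_mem_support b).1 hb
  have h1 : γ - Finsupp.single b 1 + Finsupp.single b 1 = γ :=
    Finsupp.sub_add_single_one_cancel (Finsupp.mem_support_iff.1 hi)
  have h2 : γ - Finsupp.single b 1 ∈ (pderiv b g).support :=
    alg_mem_support_pderiv.2 (h1.symm ▸ hγ)
  rw [h] at h2
  simp at h2

lemma alg_totalDegree_pderiv {b : Fin (m + 1)} {g : Rg m ℂ} (h : pderiv b g ≠ 0) :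
    (pderiv b g).totalDegree < g.totalDegree := by
  obtain ⟨γ, hγ, he⟩ := Finset.exists_mem_eq_sup _ (support_nonempty.2 h)
    fun s : Fin (m + 1) →₀ ℕ => s.sum fun _ e => e
  have h1 := le_totalDegree (alg_mem_support_pderiv.1 hγ)
  rw [Finsupp.sum_add_index' (fun _ => rfl) (fun _ _ _ => rfl), Finsupp.sum_single_index rfl] at h1
  rw [totalDegree, he]
  omega

/-- A family stable under the derivatives in `U` with a nonzero member has a nonzero member free
of the variables in `U`. -/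
lemma alg_exists_free (W : Rg m ℂ → Prop) (U : Finset (Fin (m + 1)))
    (hW : ∀ b ∈ U, ∀ g, W g → W (pderiv b g)) :
    ∀ g, W g → g ≠ 0 → ∃ g', W g' ∧ g' ≠ 0 ∧ ∀ b ∈ U, b ∉ g'.vars := by
  intro g
  induction hd : g.totalDegree using Nat.strong_induction_on generalizing g with
  | _ d ih =>
    intro hg hne
    by_cases h : ∀ b ∈ U, pderiv b g = 0
    · exact ⟨g, hg, hne, fun b hb => alg_notMem_vars (h b hb)⟩
    · push Not at h
      obtain ⟨b, hb, hb0⟩ := h
      exact ih _ (hd ▸ alg_totalDegree_pderiv hb0) _ rfl (hW b hb g hg) hb0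

lemma alg_exists_const (W : Rg m ℂ → Prop) (hW : ∀ b g, W g → W (pderiv b g)) {g : Rg m ℂ}
    (hg : W g) (hne : g ≠ 0) : ∃ c : ℂ, c ≠ 0 ∧ W (C c) := by
  obtain ⟨g', h1, h2, h3⟩ := alg_exists_free W univ (fun b _ => hW b) g hg hne
  have h4 : g'.vars = ∅ := Finset.eq_empty_of_forall_notMem fun b => h3 b (mem_univ b)
  rw [vars_eq_empty_iff_eq_C] at h4
  refine ⟨g'.coeff 0, fun h => h2 ?_, h4 ▸ h1⟩
  rw [h4, h, map_zero]

lemma alg_Dop_zero (g : Rg m ℂ) :
    Dop 0 g = X 0 * pderiv 0 g + ∑ i : Fin m, pderiv i.succ g := by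
  unfold Dop
  rw [if_pos rfl, Derivation.add_apply, Derivation.smul_apply, smul_eq_mul]
  congr 1
  have := map_sum (Derivation.coeFnAddMonoidHom (R := ℂ) (A := Rg m ℂ) (M := Rg m ℂ))
    (fun i : Fin m => pderiv i.succ) univ
  exact (congrFun this g).trans (Finset.sum_apply _ _ _)

lemma alg_Dop_ne {b : Fin (m + 1)} (hb : b ≠ 0) (g : Rg m ℂ) : Dop b g = pderiv b g := by
  unfold Dop
  rw [if_neg hb]

/-- One-to-one projection gives algebraic independence of the complementary variables. -/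
theorem indep_of_inj {κ : Type} [Field κ] [Algebra ℂ κ] {ξ : Fin (m + 1) → κ} (h0 : ξ 0 ≠ 0)
    {q : Ideal (Rg m ℂ)} (hq : ∀ g, g ∈ q ↔ aeval ξ g = 0) {A : Finset (Fin (m + 1))}
    (hA : Inj (conorm ξ q) A) : ∀ g ∈ q, g.vars ⊆ Aᶜ → g = 0 := by
  intro g hg hv
  by_contra hne
  obtain ⟨c, hc, h1, -⟩ := alg_exists_const (fun g => g ∈ q ∧ g.vars ⊆ Aᶜ) (fun b g hg => by
    refine ⟨?_, (alg_vars_pderiv b g).trans hg.2⟩
    have hL : ∀ a, Lm (fun b => aeval ξ (Dop b g)) a =
        (if a = 0 then ξ 0 else 1) * aeval ξ (pderiv a g) := by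
      intro a
      by_cases ha : a = 0
      · subst ha
        simp only [Lm, if_true, alg_Dop_zero, alg_Dop_ne (Fin.succ_ne_zero _), map_add, map_mul,
          map_sum, aeval_X]
        ring
      · simp only [Lm, if_neg ha, alg_Dop_ne ha, one_mul]
    have hy := hA (fun b => aeval ξ (Dop b g)) (Submodule.subset_span ⟨g, hg.1, rfl⟩)
      fun a ha => by
        rw [hL, pderiv_eq_zero_of_notMem_vars fun h => (Finset.mem_compl.1 (hg.2 h)) ha]
        simp
    have h2 := hL b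
    rw [hy] at h2
    have h3 : Lm (0 : Fin (m + 1) → κ) b = 0 := by simp [Lm]
    rw [h3] at h2
    rw [hq]
    refine (mul_eq_zero.1 h2.symm).resolve_left ?_
    split_ifs
    · exact h0
    · exact one_ne_zero) ⟨hg, hv⟩ hne
  rw [hq, aeval_C] at h1
  exact hc ((algebraMap ℂ κ).injective (by rw [h1, map_zero]))

theorem case_const {q : Ideal (Rg m ℂ)} (hq : q.IsPrime) {c : Fin (m + 1) → ℂ}
    (hc : ∀ g ∈ q, aeval c g = 0) {U : Finset (Fin (m + 1))} {a : Fin (m + 1)}
    (hU : ∀ b ∈ U, ∀ g ∈ q, pderiv b g ∈ q) (h : ∃ g ∈ q, g ≠ 0 ∧ g.vars ⊆ insert a U) :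
    (X a - C (c a) : Rg m ℂ) ∈ q := by
  obtain ⟨g, hg, hne, hv⟩ := h
  obtain ⟨g', ⟨h1, h2⟩, h3, h4⟩ := alg_exists_free (fun g => g ∈ q ∧ g.vars ⊆ insert a U) U
    (fun b hb g hg => ⟨hU b hb g hg.1, (alg_vars_pderiv b g).trans hg.2⟩) g ⟨hg, hv⟩ hne
  have h5 : g' ∈ supported ℂ ({a} : Set (Fin (m + 1))) := by
    rw [mem_supported]
    intro b hb
    exact (Finset.mem_insert.1 (h2 hb)).resolve_right fun hbU => h4 b hbU hb
  rw [supported_eq_adjoin_X, Set.image_singleton, Algebra.adjoin_singleton_eq_range_aeval] at h5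
  obtain ⟨p, hp⟩ := h5
  change Polynomial.aeval (X a : Rg m ℂ) p = g' at hp
  have hsp := (IsAlgClosed.splits p).eq_prod_roots
  rw [← hp, hsp, map_mul, Polynomial.aeval_C, map_multiset_prod, Multiset.map_map] at h1
  rcases hq.mem_or_mem h1 with h6 | h6
  · have h7 := hc _ h6
    rw [AlgHom.commutes, Algebra.algebraMap_self, RingHom.id_apply,
      Polynomial.leadingCoeff_eq_zero] at h7
    exact absurd (by rw [← hp, h7, map_zero]) h3
  · obtain ⟨x, hx, hxq⟩ := (hq.multiset_prod_mem_iff_exists_mem _).1 h6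
    obtain ⟨r, -, rfl⟩ := Multiset.mem_map.1 hx
    simp only [Function.comp, map_sub, Polynomial.aeval_X, Polynomial.aeval_C,
      algebraMap_eq] at hxq
    have h7 := hc _ hxq
    simp only [map_sub, aeval_X, aeval_C, Algebra.algebraMap_self, RingHom.id_apply] at h7
    rw [sub_eq_zero.1 h7]
    exact hxq

lemma alg_coeff_Dop_zero (g : Rg m ℂ) (γ : Fin (m + 1) →₀ ℕ) :
    coeff γ (Dop 0 g) = γ 0 * coeff γ g +
      ∑ i : Fin m, coeff (γ + Finsupp.single i.succ 1) g * (γ i.succ + 1) := by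
  rw [alg_Dop_zero, coeff_add, coeff_sum]
  simp only [coeff_pderiv]
  congr 1
  rw [coeff_X_mul']
  split_ifs with h
  · have h1 := Finsupp.mem_support_iff.1 h
    rw [coeff_pderiv, Finsupp.sub_add_single_one_cancel h1, mul_comm]
    congr 1
    simp only [Finsupp.coe_tsub, Pi.sub_apply, Finsupp.single_eq_same]
    obtain ⟨k, hk⟩ := Nat.exists_eq_succ_of_ne_zero h1
    rw [hk]
    simp
  · rw [Finsupp.notMem_support_iff.1 h]
    simp

/-- A nonzero element of an ideal stable under `Dop 0` yields a nonzero element, with fewer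
variables, all of whose monomials have the same exponent of `X 0`. -/
lemma alg_exists_homog {q : Ideal (Rg m ℂ)} {V : Finset (Fin (m + 1))}
    (hD : ∀ g ∈ q, Dop 0 g ∈ q) {g : Rg m ℂ} (hg : g ∈ q) (hv : g.vars ⊆ V) (hne : g ≠ 0) :
    ∃ g' ∈ q, g' ≠ 0 ∧ g'.vars ⊆ V ∧ ∃ h : ℕ, ∀ γ ∈ g'.support, γ 0 = h := by
  classical
  let s : Set (Fin (m + 1) →₀ ℕ) := ↑(g.support.biUnion fun γ => Finset.Iic γ)
  have hs : ∀ γ, γ ∈ s ↔ ∃ γ' ∈ g.support, γ ≤ γ' := fun γ => by simp [s]
  let W : Submodule ℂ (Rg m ℂ) := restrictSupport ℂ s ⊓ q.restrictScalars ℂ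
  have : Module.Finite ℂ (restrictSupport ℂ s) := Module.Finite.of_basis (basisRestrictSupport ℂ s)
  have : Module.Finite ℂ W := Submodule.finiteDimensional_of_le inf_le_left
  have hgW : g ∈ W := ⟨fun γ hγ => (hs γ).2 ⟨γ, hγ, le_rfl⟩, hg⟩
  have : Nontrivial W := ⟨⟨g, hgW⟩, 0, fun h => hne (congrArg Subtype.val h)⟩
  have hst : ∀ x ∈ W, (Dop (m := m) 0).toLinearMap x ∈ W := by
    intro x hx
    refine ⟨fun γ hγ => ?_, hD x hx.2⟩
    have h1 : coeff γ (Dop 0 x) ≠ 0 := mem_support_iff.1 hγ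
    by_contra hγs
    apply h1
    have h2 : ∀ γ', γ ≤ γ' → coeff γ' x = 0 := fun γ' hle => by
      by_contra h3
      obtain ⟨γ'', h4, h5⟩ := (hs γ').1 (hx.1 (mem_support_iff.2 h3))
      exact hγs ((hs γ).2 ⟨γ'', h4, hle.trans h5⟩)
    rw [alg_coeff_Dop_zero, h2 γ le_rfl, mul_zero, zero_add]
    exact Finset.sum_eq_zero fun i _ => by rw [h2 _ le_self_add, zero_mul]
  obtain ⟨lam, hlam⟩ := Module.End.exists_eigenvalue
    (((Dop (m := m) 0).toLinearMap.restrict hst : W →ₗ[ℂ] W) : Module.End ℂ W)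
  obtain ⟨x, hx⟩ := hlam.exists_hasEigenvector
  have hx0 : (x : Rg m ℂ) ≠ 0 := fun h => hx.2 (Subtype.ext h)
  have hxe : Dop 0 (x : Rg m ℂ) = lam • (x : Rg m ℂ) := congrArg Subtype.val hx.apply_eq_smul
  have hall : ∀ γ ∈ (x : Rg m ℂ).support, ((γ 0 : ℕ) : ℂ) = lam := by
    intro γ hγ
    obtain ⟨γ', hγ', hmax⟩ := Finset.exists_max_image
      ((x : Rg m ℂ).support.filter fun δ => δ 0 = γ 0) (fun δ => δ.degree) ⟨γ, by simp [hγ]⟩
    obtain ⟨h1, h2⟩ := Finset.mem_filter.1 hγ'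
    have h3 := congrArg (coeff γ') hxe
    rw [alg_coeff_Dop_zero, coeff_smul, smul_eq_mul, Finset.sum_eq_zero, add_zero] at h3
    · rw [← h2]
      exact mul_right_cancel₀ (mem_support_iff.1 h1) h3
    · intro i _
      have h4 : coeff (γ' + Finsupp.single i.succ 1) (x : Rg m ℂ) = 0 := by
        by_contra h5
        have := hmax _ (Finset.mem_filter.2 ⟨mem_support_iff.2 h5, by
          simp [h2, Fin.succ_ne_zero]⟩)
        simp at this
      rw [h4, zero_mul]
  obtain ⟨γ0, hγ0⟩ := support_nonempty.2 hx0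
  refine ⟨x, x.2.2, hx0, (alg_vars_subset fun γ hγ => (hs γ).1 (x.2.1 hγ)).trans hv, γ0 0,
    fun γ hγ => ?_⟩
  exact_mod_cast (hall γ hγ).trans (hall γ0 hγ0).symm

theorem case_log {q : Ideal (Rg m ℂ)} (hq : q.IsPrime) (hX : (X 0 : Rg m ℂ) ∉ q)
    {U : Finset (Fin (m + 1))} (h0 : 0 ∈ U) {a : Fin (m + 1)}
    (hU : ∀ b ∈ U, ∀ g ∈ q, Dop b g ∈ q) : ∀ g ∈ q, g.vars ⊆ insert a U → g = 0 := by
  classical
  intro g hg hv
  by_contra hne
  obtain ⟨g1, hg1, hne1, hv1, h, hh⟩ := alg_exists_homog (hU 0 h0) hg hv hne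
  set g2 := g1.divMonomial (Finsupp.single 0 h) with hg2
  have hmod : g1.modMonomial (Finsupp.single 0 h) = 0 := by
    ext γ
    by_cases hle : Finsupp.single 0 h ≤ γ
    · rw [coeff_modMonomial_of_le _ hle, coeff_zero]
    · rw [coeff_modMonomial_of_not_le _ hle, coeff_zero]
      by_contra hγ
      exact hle (Finsupp.single_le_iff.2 (hh γ (mem_support_iff.2 hγ)).ge)
  have hfac : (X 0 : Rg m ℂ) ^ h * g2 = g1 := by
    have := divMonomial_add_modMonomial g1 (Finsupp.single 0 h)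
    rwa [hmod, add_zero, ← X_pow_eq_monomial] at this
  have hg2q : g2 ∈ q := (hq.mem_or_mem (hfac ▸ hg1)).resolve_left fun h => hX (hq.mem_of_pow_mem _ h)
  have hne2 : g2 ≠ 0 := fun h => hne1 (by rw [← hfac, h, mul_zero])
  have hsup : ∀ γ ∈ g2.support, Finsupp.single 0 h + γ ∈ g1.support := fun γ hγ => by
    rw [mem_support_iff] at hγ ⊢
    rwa [hg2, coeff_divMonomial] at hγ
  have hv2 : g2.vars ⊆ (insert a U).erase 0 := by
    intro b hb
    refine Finset.mem_erase.2 ⟨?_, hv1 (alg_vars_subset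
      (fun γ hγ => ⟨_, hsup γ hγ, le_add_self⟩) hb)⟩
    rintro rfl
    obtain ⟨γ, hγ, hi⟩ := (mem_vars_iff_mem_support 0).1 hb
    have := hh _ (hsup γ hγ)
    simp only [Finsupp.coe_add, Pi.add_apply, Finsupp.single_eq_same, add_eq_left] at this
    exact Finsupp.mem_support_iff.1 hi this
  obtain ⟨c, hc, h1, -⟩ := alg_exists_const (fun g => g ∈ q ∧ g.vars ⊆ (insert a U).erase 0)
    (fun b g hg => by
      refine ⟨?_, (alg_vars_pderiv b g).trans hg.2⟩
      have hz : ∀ b, b ∉ (insert a U).erase 0 → pderiv b g = 0 := fun b hb =>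
        pderiv_eq_zero_of_notMem_vars fun h => hb (hg.2 h)
      have hother : ∀ b, b ≠ a → pderiv b g ∈ q := fun b hba => by
        by_cases hb : b ∈ (insert a U).erase 0
        · obtain ⟨hb0, hbU⟩ := Finset.mem_erase.1 hb
          rw [← alg_Dop_ne hb0]
          exact hU b ((Finset.mem_insert.1 hbU).resolve_left hba) g hg.1
        · rw [hz b hb]; exact q.zero_mem
      by_cases hba : b = a
      · subst hba
        rcases Fin.eq_zero_or_eq_succ b with rfl | ⟨i, rfl⟩
        · rw [hz 0 (by simp)]; exact q.zero_mem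
        · have h2 := hU 0 h0 g hg.1
          rw [alg_Dop_zero, hz 0 (by simp), mul_zero, zero_add,
            ← Finset.add_sum_erase _ _ (mem_univ i)] at h2
          exact (q.add_mem_iff_left (q.sum_mem fun j hj => hother _ fun h =>
            (Finset.mem_erase.1 hj).1 (Fin.succ_injective _ h))).1 h2
      · exact hother b hba) ⟨hg2q, hv2⟩ hne2
  exact hq.ne_top (q.eq_top_of_isUnit_mem h1 ((IsUnit.mk0 c hc).map C))

/-- The maximal ideal of a point is generated by the coordinates. -/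
theorem mem_of_coords {J : Ideal (Rg m ℂ)} {c : Fin (m + 1) → ℂ}
    (h : ∀ b, (X b - C (c b) : Rg m ℂ) ∈ J) : ∀ g, aeval c g = 0 → g ∈ J := by
  have key : ∀ g : Rg m ℂ, g - C (aeval c g) ∈ J := by
    intro g
    induction g using MvPolynomial.induction_on with
    | C a => simp
    | add p p' hp hp' =>
      have := J.add_mem hp hp'
      rw [map_add, map_add]
      convert this using 1
      ring
    | mul_X p b hp =>
      have := J.add_mem (J.mul_mem_right (X b) hp) (J.mul_mem_left (C (aeval c p)) (h b))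
      rw [map_mul, map_mul, aeval_X]
      convert this using 1
      ring
  intro g hg
  simpa [hg] using key g

end Crest.Agent.R011
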