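import Crest.Agent.R011.Defs

set_option autoImplicit false

namespace Crest.Agent.R011

open MvPolynomial Finset Filter Topology
open scoped ENNReal NNReal

/-- Dirichlet's box principle for real linear forms. -/
theorem auxFun_box {ι J : Type} [Fintype ι] [Fintype J] (c : J → ι → ℝ) {U : ℝ} (hU0 : 0 < U)
    (hc : ∀ j i, |c j i| ≤ U) (M N : ℕ) (hM : 0 < M)
    (h : (M + 1) ^ Fintype.card J < (N + 1) ^ Fintype.card ι) :
    ∃ n : ι → ℤ, n ≠ 0 ∧ (∀ i, |n i| ≤ N) ∧ ∀ j,
      |∑ i, (n i : ℝ) * c j i| ≤ 2 * (Fintype.card ι * U * N) / M := by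
  classical
  have h1 : 1 < (N + 1) ^ Fintype.card ι :=
    lt_of_le_of_lt (Nat.one_le_pow _ _ (by omega)) h
  have hN : 0 < N := by
    rcases Nat.eq_zero_or_pos N with h0 | h0
    · simp [h0] at h1
    · exact h0
  have hι : 0 < Fintype.card ι := by
    rcases Nat.eq_zero_or_pos (Fintype.card ι) with h0 | h0
    · simp [h0] at h1
    · exact h0
  set Om : ℝ := Fintype.card ι * U * N with hOm
  have hOm0 : 0 < Om := by
    have : (0 : ℝ) < Fintype.card ι := by exact_mod_cast hι
    have : (0 : ℝ) < N := by exact_mod_cast hN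
    positivity
  have hM0 : (0 : ℝ) < M := by exact_mod_cast hM
  let s : Finset (ι → ℤ) := Fintype.piFinset fun _ => Finset.Icc (0 : ℤ) N
  let t : Finset (J → ℤ) := Fintype.piFinset fun _ => Finset.Icc (0 : ℤ) M
  let y : (ι → ℤ) → J → ℝ := fun x j => ∑ i, (x i : ℝ) * c j i
  let f : (ι → ℤ) → J → ℤ := fun x j => ⌊(y x j + Om) * M / (2 * Om)⌋
  have hy : ∀ x ∈ s, ∀ j, |y x j| ≤ Om := by
    intro x hx j
    have hx' : ∀ i, 0 ≤ x i ∧ x i ≤ N := fun i =>
      Finset.mem_Icc.1 (Fintype.mem_piFinset.1 hx i)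
    calc |y x j| ≤ ∑ i, |(x i : ℝ) * c j i| := Finset.abs_sum_le_sum_abs _ _
      _ ≤ ∑ _i : ι, (N : ℝ) * U := by
          refine Finset.sum_le_sum fun i _ => ?_
          rw [abs_mul]
          have h0 : (0 : ℝ) ≤ x i := by exact_mod_cast (hx' i).1
          have h2 : (x i : ℝ) ≤ N := by exact_mod_cast (hx' i).2
          rw [abs_of_nonneg h0]
          exact mul_le_mul h2 (hc j i) (abs_nonneg _) (by positivity)
      _ = Om := by simp [hOm]; ring
  have hcard : t.card < s.card := by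
    simp only [s, t, Fintype.card_piFinset, Int.card_Icc, Finset.prod_const, Finset.card_univ]
    have e1 : ((M : ℤ) + 1 - 0).toNat = M + 1 := by omega
    have e2 : ((N : ℤ) + 1 - 0).toNat = N + 1 := by omega
    rw [e1, e2]; exact h
  have hmap : Set.MapsTo f s t := by
    intro x hx
    have hx : x ∈ s := hx
    change f x ∈ t
    refine Fintype.mem_piFinset.2 fun j => Finset.mem_Icc.2 ⟨?_, ?_⟩
    · refine Int.floor_nonneg.2 ?_
      have := (abs_le.1 (hy x hx j)).1
      have : 0 ≤ y x j + Om := by linarith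
      positivity
    · have := (abs_le.1 (hy x hx j)).2
      have h3 : (y x j + Om) * M / (2 * Om) ≤ ((M : ℤ) : ℝ) := by
        rw [div_le_iff₀ (by positivity)]
        push_cast
        nlinarith
      have := Int.floor_le_floor h3
      rwa [Int.floor_intCast] at this
  obtain ⟨x, hx, x', hx', hne, heq⟩ := Finset.exists_ne_map_eq_of_card_lt_of_maps_to hcard hmap
  refine ⟨x - x', sub_ne_zero.2 hne, fun i => ?_, fun j => ?_⟩
  · have a1 := Finset.mem_Icc.1 (Fintype.mem_piFinset.1 hx i)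
    have a2 := Finset.mem_Icc.1 (Fintype.mem_piFinset.1 hx' i)
    rw [abs_le]; simp only [Pi.sub_apply]; omega
  · have h4 := Int.abs_sub_lt_one_of_floor_eq_floor (congrFun heq j)
    have e : ∑ i, ((x - x') i : ℝ) * c j i = y x j - y x' j := by
      simp only [y, ← Finset.sum_sub_distrib, Pi.sub_apply]
      refine Finset.sum_congr rfl fun i _ => ?_
      push_cast; ring
    rw [e]
    have e2 : (y x j + Om) * M / (2 * Om) - (y x' j + Om) * M / (2 * Om)
        = (y x j - y x' j) * (M / (2 * Om)) := by ring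
    rw [e2, abs_mul, abs_of_pos (show (0 : ℝ) < M / (2 * Om) by positivity)] at h4
    rw [le_div_iff₀ hM0]
    have h5 : |y x j - y x' j| * (M / (2 * Om)) * (2 * Om) = |y x j - y x' j| * M := by
      field_simp
    nlinarith

/-- Auxiliary function lemma: Dirichlet's box principle on Taylor coefficients. -/
theorem exists_small {ι A : Type} [Fintype ι] [Fintype A] (φ : A → ι → ℂ → ℂ)
    (hφ : ∀ a i, Differentiable ℂ (φ a i)) {r U : ℝ} (hr : 0 < r) (hU0 : 0 < U)
    (hU : ∀ a i z, ‖z‖ ≤ 2 * r → ‖φ a i z‖ ≤ U) (S N : ℕ)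
    (h : (2 ^ (S + 1)) ^ (2 * Fintype.card A * S) < (N + 1) ^ Fintype.card ι) :
    ∃ n : ι → ℤ, n ≠ 0 ∧ (∀ i, |n i| ≤ N) ∧ ∀ a z, ‖z‖ ≤ r →
      ‖∑ i, (n i : ℂ) * φ a i z‖ ≤ 10 * Fintype.card ι * U * N / 2 ^ S := by
  classical
  -- scaled Taylor coefficients
  let cf : A → ℕ → ι → ℂ := fun a k i =>
    ((k.factorial : ℂ)⁻¹ * iteratedDeriv k (φ a i) 0) * ((2 * r : ℝ) : ℂ) ^ k
  have hcf : ∀ a k i, ‖cf a k i‖ ≤ U := by
    intro a k i
    have h1 := Complex.norm_iteratedDeriv_le_of_forall_mem_sphere_norm_le (c := 0) (R := 2 * r)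
      (C := U) (f := φ a i) k (by positivity) (hφ a i).diffContOnCl
      (fun z hz => hU a i z (by simpa using (mem_sphere_zero_iff_norm.1 hz).le))
    have hk : (0 : ℝ) < k.factorial := by exact_mod_cast k.factorial_pos
    have h2 : (0 : ℝ) < (2 * r) ^ k := by positivity
    have e : ‖((2 * r : ℝ) : ℂ)‖ = 2 * r := by
      rw [Complex.norm_real, Real.norm_eq_abs, abs_of_pos (show (0 : ℝ) < 2 * r by positivity)]
    simp only [cf]
    rw [norm_mul, norm_mul, norm_inv, norm_pow, Complex.norm_natCast, e]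
    rw [le_div_iff₀ h2] at h1
    calc (k.factorial : ℝ)⁻¹ * ‖iteratedDeriv k (φ a i) 0‖ * (2 * r) ^ k
        = (k.factorial : ℝ)⁻¹ * (‖iteratedDeriv k (φ a i) 0‖ * (2 * r) ^ k) := by ring
      _ ≤ (k.factorial : ℝ)⁻¹ * (k.factorial * U) := by gcongr
      _ = U := by field_simp
  let c : (Bool × A × Fin S) → ι → ℝ := fun j i =>
    if j.1 then (cf j.2.1 j.2.2 i).re else (cf j.2.1 j.2.2 i).im
  have hc : ∀ j i, |c j i| ≤ U := by
    rintro ⟨b, a, k⟩ i
    cases b
    · exact (Complex.abs_im_le_norm _).trans (hcf a k i)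
    · exact (Complex.abs_re_le_norm _).trans (hcf a k i)
  obtain ⟨n, hn0, hnN, hn⟩ := auxFun_box c hU0 hc (2 ^ S) N (by positivity) (by
    refine lt_of_le_of_lt ?_ h
    have e : Fintype.card (Bool × A × Fin S) = 2 * Fintype.card A * S := by
      simp [Fintype.card_prod, mul_assoc]
    rw [e]
    refine Nat.pow_le_pow_left ?_ _
    have : 0 < 2 ^ S := by positivity
    rw [pow_succ]; omega)
  refine ⟨n, hn0, hnN, fun a z hz => ?_⟩
  set Om : ℝ := Fintype.card ι * U * N with hOm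
  have hOm0 : 0 ≤ Om := by positivity
  let C : ℕ → ℂ := fun k => ∑ i, (n i : ℂ) * cf a k i
  have hhead : ∀ k, k < S → ‖C k‖ ≤ 4 * Om / 2 ^ S := by
    intro k hk
    have h1 := hn (true, a, ⟨k, hk⟩)
    have h2 := hn (false, a, ⟨k, hk⟩)
    have e1 : (C k).re = ∑ i, (n i : ℝ) * c (true, a, ⟨k, hk⟩) i := by
      simp [C, c, Complex.re_sum]
    have e2 : (C k).im = ∑ i, (n i : ℝ) * c (false, a, ⟨k, hk⟩) i := by
      simp [C, c, Complex.im_sum]
    have h3 := Complex.norm_le_abs_re_add_abs_im (C k)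
    rw [e1, e2] at h3
    push_cast at h1 h2
    have e3 : 4 * Om / 2 ^ S = 2 * Om / 2 ^ S + 2 * Om / 2 ^ S := by ring
    linarith
  have htail : ∀ k, ‖C k‖ ≤ Om := by
    intro k
    calc ‖C k‖ ≤ ∑ i, ‖(n i : ℂ) * cf a k i‖ := norm_sum_le _ _
      _ ≤ ∑ _i : ι, (N : ℝ) * U := by
          refine Finset.sum_le_sum fun i _ => ?_
          rw [norm_mul, Complex.norm_intCast]
          have h2 : |(n i : ℝ)| ≤ N := by exact_mod_cast hnN i
          exact mul_le_mul h2 (hcf a k i) (norm_nonneg _) (by positivity)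
      _ = Om := by simp [hOm]; ring
  set w : ℂ := z / ((2 * r : ℝ) : ℂ) with hw
  have hr' : ((2 * r : ℝ) : ℂ) ≠ 0 := by
    exact_mod_cast (show (2 * r : ℝ) ≠ 0 by positivity)
  have hwn : ‖w‖ ≤ 1 / 2 := by
    rw [hw, norm_div, Complex.norm_real, Real.norm_eq_abs,
      abs_of_pos (show (0 : ℝ) < 2 * r by positivity), div_le_iff₀ (by positivity)]
    linarith
  have hsum : HasSum (fun k => C k * w ^ k) (∑ i, (n i : ℂ) * φ a i z) := by
    have h1 : ∀ i ∈ (Finset.univ : Finset ι),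
        HasSum (fun k => (n i : ℂ) * cf a k i * w ^ k) ((n i : ℂ) * φ a i z) := by
      intro i _
      have h2 := (Complex.hasSum_taylorSeries_of_entire (hφ a i) 0 z).mul_left (n i : ℂ)
      have e : (fun k => (n i : ℂ) * cf a k i * w ^ k) = fun k : ℕ => (n i : ℂ) *
          ((k.factorial : ℂ)⁻¹ • (z - 0) ^ k • iteratedDeriv k (φ a i) 0) := by
        funext k
        simp only [cf, hw, sub_zero, smul_eq_mul, div_pow]
        have : ((2 * r : ℝ) : ℂ) ^ k ≠ 0 := pow_ne_zero _ hr'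
        field_simp
      rw [e]; exact h2
    have h3 := hasSum_sum h1
    simpa only [C, Finset.sum_mul] using h3
  -- the majorant
  let g : ℕ → ℝ := fun k => 4 * Om / 2 ^ S * (1 / 2) ^ k + if k < S then 0 else Om * (1 / 2) ^ k
  have hg1 : HasSum (fun k : ℕ => 4 * Om / 2 ^ S * (1 / 2 : ℝ) ^ k) (4 * Om / 2 ^ S * 2) :=
    hasSum_geometric_two.mul_left _
  have hg2 : HasSum (fun k : ℕ => if k < S then 0 else Om * (1 / 2 : ℝ) ^ k)
      (Om * (1 / 2) ^ S * 2) := by
    rw [← hasSum_nat_add_iff' S]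
    have e : ∑ i ∈ Finset.range S, (if i < S then 0 else Om * (1 / 2 : ℝ) ^ i) = 0 :=
      Finset.sum_eq_zero fun i hi => by simp [Finset.mem_range.1 hi]
    rw [e, sub_zero]
    have := hasSum_geometric_two.mul_left (Om * (1 / 2 : ℝ) ^ S)
    have e2 : (fun k : ℕ => if k + S < S then 0 else Om * (1 / 2 : ℝ) ^ (k + S))
        = fun k : ℕ => Om * (1 / 2 : ℝ) ^ S * (1 / 2) ^ k := by
      funext k
      rw [if_neg (by omega), pow_add]; ring
    rw [e2]; exact this
  have hle : ∀ k, ‖C k * w ^ k‖ ≤ g k := by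
    intro k
    have hwk : ‖w‖ ^ k ≤ (1 / 2) ^ k := pow_le_pow_left₀ (norm_nonneg _) hwn k
    rw [norm_mul, norm_pow]
    by_cases hk : k < S
    · simp only [g, if_pos hk, add_zero]
      exact mul_le_mul (hhead k hk) hwk (by positivity) (by positivity)
    · simp only [g, if_neg hk]
      have := mul_le_mul (htail k) hwk (by positivity) hOm0
      have : 0 ≤ 4 * Om / 2 ^ S * (1 / 2 : ℝ) ^ k := by positivity
      linarith
  have hfin := hsum.norm_le_of_bounded (hg1.add hg2) hle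
  refine hfin.trans (le_of_eq ?_)
  rw [hOm, one_div, inv_pow]
  field_simp
  ring

/-- Cauchy's inequality for polynomials. -/
theorem norm_coeff_le (P : Polynomial ℂ) {ρ M : ℝ} (hρ : 0 < ρ)
    (h : ∀ t : ℂ, ‖t‖ = ρ → ‖P.eval t‖ ≤ M) (k : ℕ) : ‖P.coeff k‖ ≤ M / ρ ^ k := by
  have h1 := Complex.norm_iteratedDeriv_le_of_forall_mem_sphere_norm_le (c := 0) (R := ρ)
    (C := M) (f := fun t => P.eval t) k hρ P.differentiable.diffContOnCl
    (fun z hz => h z (mem_sphere_zero_iff_norm.1 hz))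
  have h2 : ∀ (m : ℕ) (Q : Polynomial ℂ), iteratedDeriv m (fun t => Q.eval t)
      = fun t => (Polynomial.derivative^[m] Q).eval t := by
    intro m
    induction m with
    | zero => intro Q; simp
    | succ m ih =>
      intro Q
      rw [iteratedDeriv_succ', Function.iterate_succ_apply, ← ih]
      congr 1
      funext t
      exact Q.deriv
  rw [h2] at h1
  simp only [← Polynomial.coeff_zero_eq_eval_zero, Polynomial.coeff_iterate_derivative, zero_add,
    Nat.descFactorial_self, nsmul_eq_mul, norm_mul, Complex.norm_natCast] at h1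
  have hk : (0 : ℝ) < k.factorial := by exact_mod_cast k.factorial_pos
  rw [mul_div_assoc] at h1
  exact le_of_mul_le_mul_left h1 hk

end Crest.Agent.R011
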