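import Crest.Agent.R011.Induct
import Crest.Agent.R011.Alg

set_option autoImplicit false

namespace Crest.Agent.R011

open MvPolynomial Finset Filter Topology
open scoped ENNReal NNReal

variable {m : ℕ} {w v T : Fin (m + 1) → ℕ}

/-- Data of a persistent component. -/
structure Persist (w v : Fin (m + 1) → ℕ) (q : Ideal (Rg m ℂ)) (N e : ℕ) : Prop where
  prime : q.IsPrime
  ex : ∃ F : Set (Rg m ℂ), (∀ p : Ideal (Rg m ℂ), p.IsPrime → F ⊆ p → p ≤ q → p = q) ∧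
    (∀ f ∈ F, f ∈ Vdeg w N ∧ ∀ l, cost v l < e → Dw l f ∈ q)

theorem bezout_aux (hw : ∀ b, 1 ≤ w b) (hv : ∀ b, 1 ≤ v b) (hT : GoodT v T) {κ : Type} [Field κ]
    [Algebra ℂ κ] {ξ : Fin (m + 1) → κ} {q : Ideal (Rg m ℂ)} (hq : ∀ g, g ∈ q ↔ aeval ξ g = 0)
    {N e : ℕ} (hN : 1 ≤ N) (hP : Persist w v q N e) {B : Finset (Fin (m + 1))}
    (hB : Surj (conorm ξ q) B) (d i : ℕ) (J : Ideal (Rg m ℂ)) :
    ((e : ℝ≥0∞) ^ i * Dl (d + 1) (hilb w q)) * Mu (i + 1) (ell T ξ B v J) ≤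
      (N : ℝ≥0∞) ^ i * Dl (d + 1 + i) (hilb w J) := by
  obtain ⟨F, hF1, hF2⟩ := hP.ex
  have hone := ell_le_one (B := B) hv hT (fun g hg => (hq g).1 hg) hB
  have hout : ∀ (p : Ideal (Rg m ℂ)) (i : ℕ), ¬ p ≤ q → Mu i (ell T ξ B v p) = 0 := fun p i h => by
    obtain ⟨g, hg, hgq⟩ := SetLike.not_le_iff_exists.1 h
    exact Mu_eq_zero i (ell_eq_zero hv hg fun h0 => hgq ((hq g).2 h0))
  induction i generalizing J with
  | zero =>
    refine (ptSys T ξ B hv).ind hw _ _ _ _ (fun p hp => ?_) J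
    change _ * Mu _ (ell T ξ B v p) ≤ _
    by_cases h : p ≤ q
    · rcases h.eq_or_lt with rfl | hlt
      · simpa using mul_le_mul' le_rfl (Mu_one_le hone)
      · by_cases hD : Dl (d + 1) (hilb w p) = ∞
        · simp [hD]
        · simp [Dl_succ_eq_zero (Dl_drop hw d hp hlt hD)]
    · simp [hout p _ h]
  | succ i ih =>
    refine (ptSys T ξ B hv).ind hw _ _ _ _ (fun p hp => ?_) J
    change _ * Mu _ (ell T ξ B v p) ≤ _
    by_cases h : p ≤ q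
    · rcases h.eq_or_lt with rfl | hlt
      · simp [Mu_add_two hone i]
      · have : ¬ F ⊆ p := fun hFp => hlt.ne (hF1 p hp hFp h)
        obtain ⟨f, hfF, hfp⟩ := Set.not_subset.1 this
        have hord : (ptSys T ξ B hv).Ord p f e :=
          Ideal.mem_sup_right (Ilow_univ_le e (phi_mem_of_Dw hv hT fun l hl =>
            (hq _).1 ((hF2 f hfF).2 l hl)))
        have := (ptSys T ξ B hv).cut hw _ _ _ _ ih hp hfp hN (hF2 f hfF).1 hord
        refine le_trans (le_of_eq ?_) (this.trans (le_of_eq ?_))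
        · change _ = _ * Mu _ (ell T ξ B v p)
          rw [pow_succ]; ring
        · rw [pow_succ, add_assoc (d + 1)]
    · simp [hout p _ h]

theorem bezout (hw : ∀ b, 1 ≤ w b) (hv : ∀ b, 1 ≤ v b) (hT : GoodT v T) {κ : Type} [Field κ]
    [Algebra ℂ κ] {ξ : Fin (m + 1) → κ} {q : Ideal (Rg m ℂ)} (hq : ∀ g, g ∈ q ↔ aeval ξ g = 0)
    {N e : ℕ} (hN : 1 ≤ N) (hP : Persist w v q N e) {B : Finset (Fin (m + 1))}
    (hB : Surj (conorm ξ q) B) :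
    ((e : ℝ≥0∞) ^ B.card * Dl (Bᶜ.card + 1) (hilb w q)) * (((∏ b ∈ B, v b : ℕ) : ℝ≥0∞))⁻¹ ≤
      (N : ℝ≥0∞) ^ B.card * (((∏ b, w b : ℕ) : ℝ≥0∞))⁻¹ := by
  have := bezout_aux hw hv hT hq hN hP hB Bᶜ.card B.card ⊥
  have e1 : Bᶜ.card + 1 + B.card = m + 2 := by
    have := card_add_card_compl B
    rw [Fintype.card_fin] at this
    omega
  have e2 : ell T ξ B v ⊥ = cnt B v := funext fun n => ell_bot hv n
  rwa [e1, Dl_bot hw, e2, Mu_cnt B hv] at this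

theorem prod_ne_zero' {σ : Type} {w : σ → ℕ} (hw : ∀ b, 1 ≤ w b) (S : Finset σ) :
    ((∏ b ∈ S, w b : ℕ) : ℝ≥0∞) ≠ 0 := by
  exact_mod_cast (prod_pos fun b _ => hw b).ne'

theorem bezout_fin (hw : ∀ b, 1 ≤ w b) (hv : ∀ b, 1 ≤ v b) (hT : GoodT v T) {κ : Type} [Field κ]
    [Algebra ℂ κ] {ξ : Fin (m + 1) → κ} {q : Ideal (Rg m ℂ)} (hq : ∀ g, g ∈ q ↔ aeval ξ g = 0)
    {N e : ℕ} (hN : 1 ≤ N) (he : 1 ≤ e) (hP : Persist w v q N e) {B : Finset (Fin (m + 1))}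
    (hB : Surj (conorm ξ q) B) {a : Fin (m + 1)} (ha : a ∈ B) :
    ∃ g ∈ q, g ≠ 0 ∧ g.vars ⊆ insert a Bᶜ := by
  by_contra hc
  push Not at hc
  have h1 := bezout hw hv hT hq hN hP hB
  have h2 : Dl (Bᶜ.card + 1) (hilb w q) ≠ ∞ := by
    intro h
    rw [h, ENNReal.mul_top (pow_ne_zero _ (by exact_mod_cast (by omega : e ≠ 0))),
      ENNReal.top_mul (ENNReal.inv_ne_zero.2 (ENNReal.natCast_ne_top _)), top_le_iff] at h1
    exact ENNReal.mul_ne_top (ENNReal.pow_ne_top (ENNReal.natCast_ne_top N))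
      (ENNReal.inv_ne_top.2 (prod_ne_zero' hw _)) h1
  have h3 := Dl_succ_eq_zero h2
  have h4 := Dl_mono ((insert a Bᶜ).card + 1) (cnt_le_hilb hw (J := q) (insert a Bᶜ) fun g hg hgv => by
    by_contra h0; exact hc g hg h0 hgv)
  rw [Dl_cnt_succ _ hw, card_insert_of_notMem (by simpa using ha), h3, nonpos_iff_eq_zero] at h4
  exact ENNReal.inv_ne_zero.2 (ENNReal.natCast_ne_top _) h4

theorem bezout_ineq (hw : ∀ b, 1 ≤ w b) (hv : ∀ b, 1 ≤ v b) (hT : GoodT v T) {κ : Type} [Field κ]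
    [Algebra ℂ κ] {ξ : Fin (m + 1) → κ} (h0 : ξ 0 ≠ 0) {q : Ideal (Rg m ℂ)}
    (hq : ∀ g, g ∈ q ↔ aeval ξ g = 0) {N e : ℕ} (hN : 1 ≤ N) (hP : Persist w v q N e)
    {A B : Finset (Fin (m + 1))} (hA : Inj (conorm ξ q) A) (hB : Surj (conorm ξ q) B)
    (hAB : A.card = B.card) : e ^ A.card * ∏ a ∈ A, w a ≤ N ^ A.card * ∏ b ∈ B, v b := by
  have h1 := bezout hw hv hT hq hN hP hB
  have h2 := Dl_mono (Aᶜ.card + 1) (cnt_le_hilb hw (J := q) Aᶜ (indep_of_inj h0 hq hA))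
  rw [Dl_cnt_succ _ hw] at h2
  have h3 : Bᶜ.card = Aᶜ.card := by rw [card_compl, card_compl, hAB]
  rw [h3, ← hAB] at h1
  have h4 := (mul_le_mul' (mul_le_mul' le_rfl h2) le_rfl).trans h1
  rw [← prod_mul_prod_compl A w] at h4
  have a1 := prod_ne_zero' hw A
  have a2 := prod_ne_zero' hw Aᶜ
  have a3 := prod_ne_zero' hv B
  set x := ∏ a ∈ A, w a
  set y := ∏ a ∈ Aᶜ, w a
  set z := ∏ b ∈ B, v b
  have h5 := mul_le_mul' h4 (le_refl ((x : ℝ≥0∞) * y * z))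
  have e1 : (e : ℝ≥0∞) ^ A.card * (y : ℝ≥0∞)⁻¹ * (z : ℝ≥0∞)⁻¹ * ((x : ℝ≥0∞) * y * z) =
      (e : ℝ≥0∞) ^ A.card * x * ((y : ℝ≥0∞)⁻¹ * y) * ((z : ℝ≥0∞)⁻¹ * z) := by ring
  have e2 : (N : ℝ≥0∞) ^ A.card * (((x * y : ℕ) : ℝ≥0∞))⁻¹ * ((x : ℝ≥0∞) * y * z) =
      (N : ℝ≥0∞) ^ A.card * z * ((((x * y : ℕ) : ℝ≥0∞))⁻¹ * ((x * y : ℕ) : ℝ≥0∞)) := by
    rw [Nat.cast_mul]; ring
  rw [e1, e2, ENNReal.inv_mul_cancel a2 (ENNReal.natCast_ne_top _),
    ENNReal.inv_mul_cancel a3 (ENNReal.natCast_ne_top _),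
    ENNReal.inv_mul_cancel (by rw [Nat.cast_mul]; exact mul_ne_zero a1 a2)
      (ENNReal.natCast_ne_top _), mul_one, mul_one, mul_one] at h5
  exact_mod_cast h5

/-- Structure of a persistent component through a centre. -/
theorem product_thm (hw : ∀ b, 1 ≤ w b) (hv : ∀ b, 1 ≤ v b) (hT : GoodT v T) {q : Ideal (Rg m ℂ)}
    (hq0 : q ≠ ⊥) {N e : ℕ} (hN : 1 ≤ N) (he : 1 ≤ e) (hP : Persist w v q N e)
    {c : Fin (m + 1) → ℂ} (hc0 : c 0 = 1) (hc : ∀ g ∈ q, aeval c g = 0) {Γ : ℕ} (hΓ : 1 ≤ Γ)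
    (hNe : N ≤ Γ * e) {Θ : ℝ} (hΘ1 : 1 ≤ Θ) (hΘ : ∀ b, (v b : ℝ) ≤ Θ * w b) (h0 : Γ * v 0 < w 0)
    (hsep : ∀ a b : Fin (m + 1), b < a → (Θ * Γ) ^ (m + 1) * w b < w a) :
    (X 0 - 1 : Rg m ℂ) ∈ q ∧ ∃ a ≠ 0, (X a - C (c a) : Rg m ℂ) ∈ q := by
  haveI := hP.prime
  let κ := FractionRing (Rg m ℂ ⧸ q)
  let ev : Rg m ℂ →ₐ[ℂ] κ := (IsScalarTower.toAlgHom ℂ (Rg m ℂ ⧸ q) κ).comp (Ideal.Quotient.mkₐ ℂ q)
  let ξ : Fin (m + 1) → κ := fun b => ev (X b)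
  have hev : aeval ξ = ev := by
    apply MvPolynomial.algHom_ext
    intro b; simp [ξ]
  have hq : ∀ g, g ∈ q ↔ aeval ξ g = 0 := fun g => by
    rw [hev]
    change _ ↔ algebraMap (Rg m ℂ ⧸ q) κ (Ideal.Quotient.mk q g) = 0
    rw [IsFractionRing.to_map_eq_zero_iff, Ideal.Quotient.eq_zero_iff_mem]
  have hX : (X 0 : Rg m ℂ) ∉ q := fun h => by simpa [hc0] using hc _ h
  have hξ0 : ξ 0 ≠ 0 := fun h => hX ((hq _).2 (by simpa using h))
  have hok : ∀ A B, Inj (conorm ξ q) A → Surj (conorm ξ q) B → A.card = B.card →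
      (∏ a ∈ A, w a ≤ Γ ^ A.card * ∏ b ∈ B, v b) := fun A B hA hB hAB => by
    have h1 := bezout_ineq hw hv hT hξ0 hq hN hP hA hB hAB
    have h2 : N ^ A.card ≤ (Γ * e) ^ A.card := Nat.pow_le_pow_left hNe _
    have h3 := h1.trans (Nat.mul_le_mul_right _ h2)
    rw [mul_pow, mul_comm (Γ ^ A.card), mul_assoc] at h3
    exact Nat.le_of_mul_le_mul_left h3 (pow_pos he _)
  have hviol : ∀ (S : Finset (Fin (m + 1))) a b, a ∉ S → b ∉ S → b < a →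
      ¬ (∏ x ∈ insert a S, w x ≤ Γ ^ (S.card + 1) * ∏ x ∈ insert b S, v x) := by
    intro S a b ha hb hba h
    rw [prod_insert ha, prod_insert hb] at h
    have h1 : ((w a : ℝ) * ∏ x ∈ S, (w x : ℝ)) ≤ (Γ : ℝ) ^ (S.card + 1) * (v b * ∏ x ∈ S, (v x : ℝ)) := by
      exact_mod_cast h
    have h2 : ∏ x ∈ S, (v x : ℝ) ≤ Θ ^ S.card * ∏ x ∈ S, (w x : ℝ) := by
      rw [← prod_const, ← prod_mul_distrib]
      exact prod_le_prod (fun _ _ => by positivity) fun x _ => hΘ x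
    have h3 : (0 : ℝ) < ∏ x ∈ S, (w x : ℝ) := prod_pos fun x _ => by exact_mod_cast hw x
    have h4 : S.card + 1 ≤ m + 1 := by
      have := card_le_univ (insert a S)
      rwa [card_insert_of_notMem ha, Fintype.card_fin] at this
    have h5 : (Θ * Γ) ^ (S.card + 1) ≤ (Θ * Γ) ^ (m + 1) :=
      pow_le_pow_right₀ (one_le_mul_of_one_le_of_one_le hΘ1 (by exact_mod_cast hΓ)) h4
    have h6 := hsep a b hba
    have h7 : (w a : ℝ) * ∏ x ∈ S, (w x : ℝ) ≤ ((Θ * Γ) ^ (S.card + 1) * w b) * ∏ x ∈ S, (w x : ℝ) := by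
      refine h1.trans ?_
      have := mul_le_mul (hΘ b) h2 (by positivity) (by positivity)
      refine (mul_le_mul_of_nonneg_left this (by positivity)).trans (le_of_eq ?_)
      rw [mul_pow]; ring
    have h8 := le_of_mul_le_mul_right h7 h3
    have h9 : (Θ * Γ) ^ (S.card + 1) * w b ≤ (Θ * Γ) ^ (m + 1) * w b :=
      mul_le_mul_of_nonneg_right h5 (by positivity)
    linarith
  obtain ⟨S, hS1, hS2, hS3⟩ := exists_coord (conorm ξ q)
    (fun A B => ∏ a ∈ A, w a ≤ Γ ^ A.card * ∏ b ∈ B, v b) hok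
    (fun S a b ha hb hba h => by
      apply hviol (S.erase a) a b (notMem_erase a S) (fun h => hb (mem_of_mem_erase h)) hba
      rwa [insert_erase ha, card_erase_add_one ha])
    (fun S a b ha hb hab h => by
      have hb' : b ∉ S.erase a := fun h => hb (mem_of_mem_erase h)
      apply hviol (S.erase a) b a hb' (notMem_erase a S) hab
      rw [card_insert_of_notMem hb'] at h
      rwa [insert_erase ha])
  have hstab : ∀ b ∈ Sᶜ, ∀ g ∈ q, Dop b g ∈ q := fun b hb g hg =>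
    (hq _).2 (hS3 _ (Submodule.subset_span ⟨g, hg, rfl⟩) b (by simpa using hb))
  have hne : S.Nonempty := by
    rw [nonempty_iff_ne_empty]
    rintro rfl
    exact hq0 (eq_bot_iff.2 fun g hg => indep_of_inj hξ0 hq hS1 g hg (by simp))
  by_cases h0S : (0 : Fin (m + 1)) ∈ S
  · have hstab' : ∀ b ∈ Sᶜ, ∀ g ∈ q, pderiv b g ∈ q := fun b hb g hg => by
      have h1 := hstab b hb g hg
      have hb0 : b ≠ 0 := by rintro rfl; simp [h0S] at hb
      rwa [Dop, if_neg hb0] at h1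
    have hall : ∀ a ∈ S, (X a - C (c a) : Rg m ℂ) ∈ q := fun a ha =>
      case_const hP.prime hc hstab' (bezout_fin hw hv hT hq hN he hP hS2 ha)
    refine ⟨by simpa [hc0] using hall 0 h0S, ?_⟩
    by_contra hcon
    have hS : S = {0} := by
      refine eq_singleton_iff_unique_mem.2 ⟨h0S, fun a ha => ?_⟩
      by_contra ha0
      exact hcon ⟨a, ha0, hall a ha⟩
    have := hok S S hS1 hS2 rfl
    rw [hS] at this
    simp at this
    omega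
  · obtain ⟨a, ha⟩ := hne
    obtain ⟨g, hg, hg0, hgv⟩ := bezout_fin hw hv hT hq hN he hP hS2 ha
    exact absurd (case_log hP.prime hX (by simpa using h0S) hstab g hg hgv) hg0

end Crest.Agent.R011
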