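import Crest.Agent.R011.Defs

set_option autoImplicit false

namespace Crest.Agent.R011

open MvPolynomial Finset Filter Topology
open scoped ENNReal NNReal

variable {m : ℕ}

theorem coeff_aux_prod (a : Fin m → ℕ) (n : ℕ) (r : ℂ) :
    (C r * X 0 ^ n * ∏ i : Fin m, X i.succ ^ a i : Rg m ℂ) =
      monomial (Finsupp.single 0 n + ∑ i : Fin m, Finsupp.single i.succ (a i)) r := by
  have h1 : (∏ i : Fin m, X i.succ ^ a i : Rg m ℂ) =
      monomial (∑ i : Fin m, Finsupp.single i.succ (a i)) 1 := by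
    rw [monomial_sum_one]
    exact prod_congr rfl fun i _ => X_pow_eq_monomial
  rw [h1, C_mul_X_pow_eq_monomial, monomial_mul, mul_one]

theorem coeff_aux_eq_iff (a : Fin m → ℕ) (n : ℕ) (μ : Fin (m + 1) →₀ ℕ) :
    Finsupp.single 0 n + ∑ i : Fin m, Finsupp.single i.succ (a i) = μ ↔
      n = μ 0 ∧ ∀ i, a i = μ i.succ := by
  have h0 : (Finsupp.single (0 : Fin (m + 1)) n + ∑ i : Fin m, Finsupp.single i.succ (a i) :
      Fin (m + 1) →₀ ℕ) 0 = n := by
    simp [Finsupp.finset_sum_apply, Finsupp.single_apply, Fin.succ_ne_zero]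
  have h1 : ∀ j : Fin m, (Finsupp.single (0 : Fin (m + 1)) n +
      ∑ i : Fin m, Finsupp.single i.succ (a i) : Fin (m + 1) →₀ ℕ) j.succ = a j := by
    intro j
    simp [Finsupp.finset_sum_apply, Finsupp.single_apply, (Fin.succ_ne_zero j).symm]
  constructor
  · rintro rfl
    exact ⟨h0.symm, fun i => (h1 i).symm⟩
  · rintro ⟨hn, ha⟩
    ext b
    refine Fin.cases ?_ (fun j => ?_) b
    · rw [h0, hn]
    · rw [h1, ha]

theorem coeff_aux_aeval (a : Fin m → ℕ) (P : Polynomial ℂ) (μ : Fin (m + 1) →₀ ℕ) :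
    coeff μ (Polynomial.aeval (X 0 : Rg m ℂ) P * ∏ i : Fin m, X i.succ ^ a i) =
      if ∀ i, a i = μ i.succ then P.coeff (μ 0) else 0 := by
  induction P using Polynomial.induction_on' with
  | add p q hp hq =>
    rw [map_add, add_mul, coeff_add, hp, hq]
    split_ifs <;> simp
  | monomial n r =>
    rw [Polynomial.aeval_monomial, algebraMap_eq, coeff_aux_prod, coeff_monomial,
      Polynomial.coeff_monomial]
    simp only [coeff_aux_eq_iff]
    by_cases h1 : n = μ 0 <;> by_cases h2 : ∀ i, a i = μ i.succ <;> simp [h1, h2]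

theorem coeff_phi_monomial (T : Fin (m + 1) → ℕ) {c : Fin (m + 1) → ℂ} (hc : c 0 = 1)
    (γ μ : Fin (m + 1) →₀ ℕ) :
    coeff μ (phi T c (monomial γ 1)) = (Psi T c γ μ).coeff (μ 0) := by
  classical
  have h1 : phi T c (monomial γ 1) =
      ∑ a ∈ Fintype.piFinset fun i : Fin m => range (γ i.succ + 1),
        Polynomial.aeval (X 0 : Rg m ℂ) ((1 + Polynomial.X) ^ γ 0 *
          ∏ i : Fin m, (Polynomial.C ((γ i.succ).choose (a i) : ℂ) *
            (Polynomial.C (c i.succ) + logP ℂ (T i.succ)) ^ (γ i.succ - a i))) *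
          ∏ i : Fin m, X i.succ ^ a i := by
    rw [phi, aeval_monomial, map_one, one_mul, Finsupp.prod_fintype _ _ (by simp),
      Fin.prod_univ_succ]
    simp only [if_true, Fin.succ_ne_zero, if_false, hc, map_one, one_mul, map_mul, map_pow,
      map_add, Polynomial.aeval_X, map_prod, Polynomial.aeval_C, algebraMap_eq, mul_assoc,
      ← mul_sum]
    congr 1
    simp only [← prod_mul_distrib]
    rw [← prod_univ_sum (fun i : Fin m => range (γ i.succ + 1)) (fun i k =>
      (C ((γ i.succ).choose k : ℂ) * (C (c i.succ) +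
        Polynomial.aeval (X 0 : Rg m ℂ) (logP ℂ (T i.succ))) ^ (γ i.succ - k)) * X i.succ ^ k)]
    refine prod_congr rfl fun i _ => ?_
    rw [add_comm (_ + _), add_pow]
    refine sum_congr rfl fun k _ => ?_
    simp only [map_natCast]
    ring
  rw [h1, coeff_sum]
  simp only [coeff_aux_aeval]
  by_cases hμ : ∀ i : Fin m, μ i.succ ≤ γ i.succ
  · rw [sum_eq_single (fun i => μ i.succ)]
    · simp [Psi]
    · intro a _ ha
      rw [if_neg]
      intro h
      exact ha (funext h)
    · intro h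
      exact absurd (Fintype.mem_piFinset.2 fun i => mem_range.2 (Nat.lt_succ_of_le (hμ i))) h
  · push Not at hμ
    obtain ⟨i, hi⟩ := hμ
    rw [sum_eq_zero, Psi, prod_eq_zero (mem_univ i)]
    · simp
    · simp [Nat.choose_eq_zero_of_lt hi]
    · intro a ha
      rw [if_neg]
      intro h
      have := mem_range.1 (Fintype.mem_piFinset.1 ha i)
      rw [h i] at this
      omega

theorem coeff_aux_lifts (T : ℕ) (p : ℤ) (q j : ℕ) (hq : 1 ≤ q) :
    Polynomial.C ((q * Nat.lcmUpto T : ℕ) : ℂ) *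
      (Polynomial.C ((j : ℂ) * (2 * Complex.I * p / q)) + logP ℂ T) ∈
        Polynomial.lifts GaussianInt.toComplex := by
  have hq' : (q : ℂ) ≠ 0 := by exact_mod_cast (by omega : q ≠ 0)
  rw [mul_add]
  refine add_mem ?_ ?_
  · rw [← map_mul]
    refine Polynomial.C'_mem_lifts ⟨⟨0, Nat.lcmUpto T * j * 2 * p⟩, ?_⟩
    rw [GaussianInt.toComplex_def']
    push_cast
    field_simp
    ring
  · rw [logP, mul_sum]
    refine sum_mem fun k hk => ?_
    rw [Polynomial.C_mul_monomial]
    refine Polynomial.monomial_mem_lifts _ ?_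
    rcases Nat.eq_zero_or_pos k with rfl | hk0
    · exact ⟨0, by simp⟩
    · have hd : k ∣ Nat.lcmUpto T :=
        Finset.dvd_lcm (s := Icc 1 T) (f := id) (mem_Icc.2 ⟨hk0, by simpa [Nat.lt_succ_iff] using hk⟩)
      obtain ⟨d, hd⟩ := hd
      have hk' : (k : ℂ) ≠ 0 := by exact_mod_cast hk0.ne'
      refine ⟨(q * d * (-1) ^ (k + 1) : ℤ), ?_⟩
      rw [map_intCast, hd]
      push_cast
      field_simp

/-- After scaling `X_i` by `q_i lcm(1..T_i)` the coefficients are Gaussian integers. -/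
theorem Psi_integral (T : Fin (m + 1) → ℕ) (p : Fin (m + 1) → ℤ) (q : Fin (m + 1) → ℕ)
    (hq : ∀ b, 1 ≤ q b) (j : ℕ) (γ μ : Fin (m + 1) →₀ ℕ) (k : ℕ) :
    ∃ g : GaussianInt,
      (∏ i : Fin m, ((q i.succ * Nat.lcmUpto (T i.succ) : ℕ) : ℂ) ^ γ i.succ) *
          (Psi T (ctr p q j) γ μ).coeff k =
        (∏ i : Fin m, ((q i.succ * Nat.lcmUpto (T i.succ) : ℕ) : ℂ) ^ μ i.succ) * (g : ℂ) := by
  set D : Fin m → ℂ := fun i => ((q i.succ * Nat.lcmUpto (T i.succ) : ℕ) : ℂ) with hD
  set Q : Polynomial ℂ := (1 + Polynomial.X) ^ γ 0 * ∏ i : Fin m,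
    (Polynomial.C ((γ i.succ).choose (μ i.succ) : ℂ) *
      (Polynomial.C (D i) * (Polynomial.C (ctr p q j i.succ) + logP ℂ (T i.succ))) ^
        (γ i.succ - μ i.succ)) with hQ
  have hQl : Q ∈ Polynomial.lifts GaussianInt.toComplex := by
    refine mul_mem (pow_mem (add_mem (one_mem _) (Polynomial.X_mem_lifts _)) _)
      (prod_mem fun i _ => mul_mem ?_ (pow_mem ?_ _))
    · exact Polynomial.C'_mem_lifts ⟨((γ i.succ).choose (μ i.succ) : ℕ), map_natCast _ _⟩
    · have := coeff_aux_lifts (T i.succ) (p i.succ) (q i.succ) j (hq _)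
      simpa only [ctr, Fin.succ_ne_zero, if_false] using this
  obtain ⟨g, hg⟩ := (Polynomial.lifts_iff_coeff_lifts _).1 hQl k
  refine ⟨g, ?_⟩
  have key : Polynomial.C (∏ i : Fin m, D i ^ γ i.succ) * Psi T (ctr p q j) γ μ =
      Polynomial.C (∏ i : Fin m, D i ^ μ i.succ) * Q := by
    rw [hQ, Psi, mul_left_comm, mul_left_comm (Polynomial.C _), map_prod, map_prod,
      ← prod_mul_distrib, ← prod_mul_distrib]
    congr 1
    refine prod_congr rfl fun i _ => ?_
    rcases le_or_gt (μ i.succ) (γ i.succ) with h | h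
    · obtain ⟨d, hd⟩ := Nat.exists_eq_add_of_le h
      rw [hd, Nat.add_sub_cancel_left, mul_pow, pow_add, map_mul, map_pow, map_pow]
      ring
    · simp [Nat.choose_eq_zero_of_lt h]
  have := congrArg (fun P => Polynomial.coeff P k) key
  simp only [Polynomial.coeff_C_mul] at this
  rw [this, ← hg]

theorem coeff_aux_expand (n k H : ℕ) (hn : n ≤ H) (z ε : ℂ) :
    (n.choose k : ℂ) * (z + ε) ^ (n - k) =
      ∑ a ∈ range (H + 1), ((a.choose k : ℂ) * ε ^ (a - k)) * ((n.choose a : ℂ) * z ^ (n - a)) := by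
  rcases le_or_gt k n with h | h
  · obtain ⟨d, rfl⟩ := Nat.exists_eq_add_of_le h
    rw [Nat.add_sub_cancel_left, add_comm z, add_pow, mul_sum]
    symm
    rw [← sum_subset (s₁ := (range (d + 1)).map (addLeftEmbedding k)), sum_map]
    · refine sum_congr rfl fun a ha => ?_
      have ha' : a ≤ d := Nat.lt_succ_iff.1 (mem_range.1 ha)
      simp only [addLeftEmbedding_apply, Nat.add_sub_cancel_left, Nat.add_sub_add_left]
      have h2 : (k + d).choose (k + a) * (k + a).choose k = (k + d).choose k * d.choose a := by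
        have := Nat.choose_mul (n := k + d) (k := k + a) (s := k) (by omega)
        simpa using this
      have h3 : (((k + d).choose (k + a) : ℕ) : ℂ) * ((k + a).choose k : ℕ) =
          ((k + d).choose k : ℕ) * (d.choose a : ℕ) := by exact_mod_cast h2
      linear_combination (ε ^ a * z ^ (d - a)) * h3
    · intro x hx
      obtain ⟨a, ha, rfl⟩ := mem_map.1 hx
      have := mem_range.1 ha
      simp only [addLeftEmbedding_apply, mem_range]
      omega
    · intro x _ hx
      rcases lt_or_ge x k with h1 | h1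
      · simp [Nat.choose_eq_zero_of_lt h1]
      · have h2 : k + d < x := by
          by_contra h2
          refine hx (mem_map.2 ⟨x - k, mem_range.2 (by omega), ?_⟩)
          simp only [addLeftEmbedding_apply]
          omega
        simp [Nat.choose_eq_zero_of_lt h2]
  · rw [Nat.choose_eq_zero_of_lt h, Nat.cast_zero, zero_mul]
    refine (sum_eq_zero fun a _ => ?_).symm
    rcases lt_or_ge a k with h1 | h1
    · simp [Nat.choose_eq_zero_of_lt h1]
    · simp [Nat.choose_eq_zero_of_lt (h.trans_le h1)]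

/-- Expansion around the analytic curve. -/
theorem Psi_eval (T : Fin (m + 1) → ℕ) (c : Fin (m + 1) → ℂ) (γ μ : Fin (m + 1) →₀ ℕ) (H : ℕ)
    (hγ : ∀ i : Fin m, γ i.succ ≤ H) (t z : ℂ) (ε : Fin m → ℂ) (hz : Complex.exp z = 1 + t)
    (hε : ∀ i : Fin m, c i.succ + (logP ℂ (T i.succ)).eval t = z + ε i) :
    (Psi T c γ μ).eval t = ∑ a ∈ Fintype.piFinset fun _ : Fin m => range (H + 1),
      (∏ i : Fin m, ((a i).choose (μ i.succ) : ℂ) * ε i ^ (a i - μ i.succ)) *
        (Complex.exp (γ 0 * z) * ∏ i : Fin m, ((γ i.succ).choose (a i) : ℂ) * z ^ (γ i.succ - a i)) := by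
  rw [Psi, Polynomial.eval_mul, Polynomial.eval_prod, Complex.exp_nat_mul, hz]
  simp only [Polynomial.eval_pow, Polynomial.eval_add, Polynomial.eval_one, Polynomial.eval_X,
    Polynomial.eval_mul, Polynomial.eval_C, hε]
  rw [prod_congr rfl fun i _ => coeff_aux_expand (γ i.succ) (μ i.succ) H (hγ i) z (ε i),
    prod_univ_sum, mul_sum]
  refine sum_congr rfl fun a _ => ?_
  rw [prod_mul_distrib]
  ring

theorem norm_logP_sub (T : ℕ) {t : ℂ} (hT : 1 ≤ T) (ht : ‖t‖ ≤ 1 / 2) :
    ‖(logP ℂ T).eval t - Complex.log (1 + t)‖ ≤ ‖t‖ ^ T := by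
  have h1 : (logP ℂ T).eval t = Complex.logTaylor (T + 1) t := by
    simp only [logP, Complex.logTaylor, Polynomial.eval_finset_sum, Polynomial.eval_monomial]
    refine sum_congr rfl fun k _ => ?_
    ring
  rw [h1, norm_sub_rev]
  refine (Complex.norm_log_sub_logTaylor_le T (by linarith)).trans ?_
  have h0 := norm_nonneg t
  have hT' : (1 : ℝ) ≤ T := by exact_mod_cast hT
  have h2 : (1 - ‖t‖)⁻¹ ≤ 2 := by
    rw [inv_le_comm₀ (by linarith) (by norm_num)]
    linarith
  have h3 : 0 ≤ (1 - ‖t‖)⁻¹ := inv_nonneg.2 (by linarith)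
  rw [div_le_iff₀ (by linarith), pow_succ, mul_assoc]
  refine mul_le_mul_of_nonneg_left ?_ (by positivity)
  nlinarith

theorem log_lcmUpto_le (T : ℕ) : Real.log (Nat.lcmUpto T) ≤ 6 * T := by
  rw [← Chebyshev.psi_eq_log_lcmUpto]
  refine (Chebyshev.psi_le_const_mul_self (Nat.cast_nonneg T)).trans ?_
  refine mul_le_mul_of_nonneg_right ?_ (Nat.cast_nonneg T)
  have h : Real.log 4 = 2 * Real.log 2 := by
    rw [show (4 : ℝ) = 2 ^ 2 by norm_num, Real.log_pow]; norm_num
  have := Real.log_two_lt_d9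
  linarith

end Crest.Agent.R011
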