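import Crest.Agent.R011.Abel

set_option autoImplicit false

namespace Crest.Agent.R011

open MvPolynomial Finset Filter Topology
open scoped ENNReal NNReal

variable {σ : Type} [Fintype σ] [DecidableEq σ]

omit [DecidableEq σ] in
theorem low_finite (S : Finset σ) {w : σ → ℕ} (hw : ∀ b, 1 ≤ w b) (n : ℕ) : (low S w n).Finite :=
  (Finsupp.finite_of_nat_weight_le w (fun b => by have := hw b; omega) n).subset
    fun _ h => le_of_lt h.2

omit [Fintype σ] [DecidableEq σ] in
theorem cnt_zero (S : Finset σ) (w : σ → ℕ) : cnt S w 0 = 0 := by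
  have : low S w 0 = ∅ := Set.eq_empty_of_forall_notMem fun γ h => absurd h.2 (Nat.not_lt_zero _)
  rw [cnt, this, Set.ncard_empty]

omit [Fintype σ] [DecidableEq σ] in
theorem cnt_empty_succ (w : σ → ℕ) (n : ℕ) : cnt ∅ w (n + 1) = 1 := by
  have : low ∅ w (n + 1) = {0} := by
    ext γ
    constructor
    · intro h
      exact Finsupp.support_eq_empty.1 (Finset.subset_empty.1 h.1)
    · rintro rfl
      exact ⟨by simp, by simp⟩
  rw [cnt, this, Set.ncard_singleton]

omit [DecidableEq σ] in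
theorem cnt_mono (S : Finset σ) {w : σ → ℕ} (hw : ∀ b, 1 ≤ w b) : Monotone (cnt S w) :=
  fun _ b hab => Set.ncard_le_ncard (fun _ h => ⟨h.1, h.2.trans_le hab⟩) (low_finite S hw b)

theorem cnt_insert {S : Finset σ} {i : σ} (hi : i ∉ S) {w : σ → ℕ} (hw : ∀ b, 1 ≤ w b) (n : ℕ) :
    cnt (insert i S) w n = cnt S w n + cnt (insert i S) w (n - w i) := by
  have hwt : ∀ γ : σ →₀ ℕ, Finsupp.weight w (γ + Finsupp.single i 1) = Finsupp.weight w γ + w i := by
    intro γ; rw [map_add, Finsupp.weight_single, one_smul]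
  have e : low (insert i S) w n =
      low S w n ∪ (fun γ => γ + Finsupp.single i 1) '' low (insert i S) w (n - w i) := by
    ext γ
    constructor
    · rintro ⟨h1, h2⟩
      by_cases h : γ i = 0
      · refine Or.inl ⟨fun j hj => (mem_insert.1 (h1 hj)).resolve_left ?_, h2⟩
        rintro rfl
        exact Finsupp.mem_support_iff.1 hj h
      · have hle : Finsupp.single i 1 ≤ γ := Finsupp.single_le_iff.2 (by omega)
        obtain ⟨δ, rfl⟩ := exists_add_of_le hle
        rw [add_comm] at h1 h2 ⊢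
        rw [hwt] at h2
        exact Or.inr ⟨δ, ⟨(Finsupp.support_mono (le_add_right le_rfl)).trans h1, by omega⟩, rfl⟩
    · rintro (⟨h1, h2⟩ | ⟨δ, ⟨h1, h2⟩, rfl⟩)
      · exact ⟨h1.trans (subset_insert _ _), h2⟩
      · refine ⟨Finsupp.support_add.trans (union_subset h1 ?_), by rw [hwt]; omega⟩
        exact Finsupp.support_single_subset.trans (by simp)
  rw [cnt, e, Set.ncard_union_eq _ (low_finite S hw n) ((low_finite _ hw _).image _),
    Set.ncard_image_of_injective _ (add_left_injective _)]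
  · rfl
  · rw [Set.disjoint_left]
    rintro _ ⟨h1, -⟩ ⟨δ, -, rfl⟩
    exact hi (h1 (by simp))

theorem cnt_insert_sh {S : Finset σ} {i : σ} (hi : i ∉ S) {w : σ → ℕ} (hw : ∀ b, 1 ≤ w b) (n : ℕ) :
    cnt (insert i S) w n = cnt S w n + sh (w i) (cnt (insert i S) w) n := by
  rw [cnt_insert hi hw, sh]
  split_ifs with h
  · rfl
  · rw [show n - w i = 0 by omega, cnt_zero]

theorem count_pow_le (b w k : ℕ) : (b + w) ^ (k + 1) ≤ b ^ (k + 1) + (k + 1) * w * (b + w) ^ k := by
  induction k with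
  | zero => simp
  | succ k ih =>
    have h1 : b ^ (k + 1) ≤ (b + w) ^ (k + 1) := Nat.pow_le_pow_left (by omega) _
    calc (b + w) ^ (k + 1 + 1) = (b + w) * (b + w) ^ (k + 1) := by ring
      _ ≤ (b + w) * (b ^ (k + 1) + (k + 1) * w * (b + w) ^ k) := Nat.mul_le_mul_left _ ih
      _ = b ^ (k + 1 + 1) + w * b ^ (k + 1) + (k + 1) * w * (b + w) ^ (k + 1) := by ring
      _ ≤ b ^ (k + 1 + 1) + w * (b + w) ^ (k + 1) + (k + 1) * w * (b + w) ^ (k + 1) := by gcongr
      _ = _ := by ring

theorem count_le_pow (b w k : ℕ) : b ^ (k + 1) + (k + 1) * w * b ^ k ≤ (b + w) ^ (k + 1) := by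
  induction k with
  | zero => simp
  | succ k ih =>
    calc b ^ (k + 1 + 1) + (k + 1 + 1) * w * b ^ (k + 1)
        ≤ b ^ (k + 1 + 1) + (k + 1 + 1) * w * b ^ (k + 1) + (k + 1) * w * w * b ^ k :=
          Nat.le_add_right _ _
      _ = (b + w) * (b ^ (k + 1) + (k + 1) * w * b ^ k) := by ring
      _ ≤ (b + w) * (b + w) ^ (k + 1) := Nat.mul_le_mul_left _ ih
      _ = _ := by ring

theorem cnt_lower (S : Finset σ) {w : σ → ℕ} (hw : ∀ b, 1 ≤ w b) (n : ℕ) :
    n ^ S.card ≤ S.card.factorial * (∏ b ∈ S, w b) * cnt S w (n + 1) := by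
  induction S using Finset.induction_on generalizing n with
  | empty => simp [cnt_empty_succ]
  | insert i S hi ih =>
    rw [card_insert_of_notMem hi, prod_insert hi, Nat.factorial_succ]
    induction n using Nat.strong_induction_on with
    | _ n ihn =>
      rw [cnt_insert hi hw]
      have h1 := Nat.mul_le_mul_left ((S.card + 1) * w i) (ih n)
      have hwi := hw i
      rcases le_or_gt (w i) n with h | h
      · obtain ⟨b, rfl⟩ := Nat.exists_eq_add_of_le' h
        have h2 := ihn b (by omega)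
        have h3 := count_pow_le b (w i) S.card
        rw [show b + w i + 1 - w i = b + 1 by omega]
        nlinarith
      · have h2 : n ^ (S.card + 1) ≤ (S.card + 1) * w i * n ^ S.card := by
          rw [pow_succ']
          exact Nat.mul_le_mul_right _ (by nlinarith)
        rw [show n + 1 - w i = 0 by omega, cnt_zero]
        nlinarith

theorem cnt_upper (S : Finset σ) {w : σ → ℕ} (hw : ∀ b, 1 ≤ w b) (n : ℕ) :
    S.card.factorial * (∏ b ∈ S, w b) * cnt S w (n + 1) ≤ (n + ∑ b ∈ S, w b) ^ S.card := by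
  induction S using Finset.induction_on generalizing n with
  | empty => simp [cnt_empty_succ]
  | insert i S hi ih =>
    rw [card_insert_of_notMem hi, prod_insert hi, sum_insert hi, Nat.factorial_succ]
    induction n using Nat.strong_induction_on with
    | _ n ihn =>
      rw [cnt_insert hi hw]
      have h1 := Nat.mul_le_mul_left ((S.card + 1) * w i) (ih n)
      have hwi := hw i
      have h3 := count_le_pow (n + ∑ b ∈ S, w b) (w i) S.card
      rw [show n + (w i + ∑ b ∈ S, w b) = n + ∑ b ∈ S, w b + w i by ring]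
      rcases le_or_gt (w i) n with h | h
      · obtain ⟨b, rfl⟩ := Nat.exists_eq_add_of_le' h
        have h2 := ihn b (by omega)
        rw [← add_assoc] at h2
        rw [show b + w i + 1 - w i = b + 1 by omega]
        nlinarith
      · rw [show n + 1 - w i = 0 by omega, cnt_zero]
        nlinarith [Nat.zero_le ((n + ∑ b ∈ S, w b) ^ (S.card + 1))]

theorem count_tame_pow (W k : ℕ) : Tame fun n => (n + W) ^ k := by
  intro x hx
  have h1 : Summable fun n : ℕ => (((n + W) ^ k : ℕ) : ℝ≥0) * x ^ n := by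
    rw [← NNReal.summable_coe]
    have hx0 : (0 : ℝ) ≤ x := x.2
    have hx1 : (x : ℝ) < 1 := by exact_mod_cast hx
    have hxn : ‖(x : ℝ)‖ < 1 := by rwa [Real.norm_of_nonneg hx0]
    refine Summable.of_nonneg_of_le (fun n => by positivity) (fun n => ?_)
      (((summable_pow_mul_geometric_of_norm_lt_one k hxn).add
        ((summable_geometric_of_lt_one hx0 hx1).mul_left ((W : ℝ) ^ k))).mul_left (2 ^ (k - 1)))
    push_cast
    rw [← add_mul, ← mul_assoc]
    exact mul_le_mul_of_nonneg_right (add_pow_le (by positivity) (by positivity) k) (by positivity)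
  have h2 := ENNReal.tsum_coe_ne_top_iff_summable.2 h1
  simpa [gen] using h2

theorem cnt_succ_tame (S : Finset σ) {w : σ → ℕ} (hw : ∀ b, 1 ≤ w b) :
    Tame fun n => cnt S w (n + 1) := by
  refine (count_tame_pow (∑ b ∈ S, w b) S.card).mono fun n => le_trans ?_ (cnt_upper S hw n)
  refine Nat.le_mul_of_pos_left _ (Nat.mul_pos (Nat.factorial_pos _) (prod_pos fun b _ => hw b))

theorem cnt_tame (S : Finset σ) {w : σ → ℕ} (hw : ∀ b, 1 ≤ w b) : Tame (cnt S w) :=
  (cnt_succ_tame S hw).mono fun n => cnt_mono S hw (Nat.le_succ n)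

theorem count_Dl_le_Mu (e : ℕ) (a : ℕ → ℕ) : Dl e a ≤ Mu e a := liminf_le_limsup

theorem count_Dl_le_of_sh (e N : ℕ) {a c : ℕ → ℕ} (h : ∀ n, sh N c n ≤ a n) : Dl e c ≤ Dl e a :=
  le_trans le_add_self (Dl_superadd e N (b := fun _ => 0) fun n => by simpa using h n)

theorem count_main (S : Finset σ) {w : σ → ℕ} (hw : ∀ b, 1 ≤ w b) :
    Mu (S.card + 1) (cnt S w) ≤ (((∏ b ∈ S, w b : ℕ) : ℝ≥0∞))⁻¹ ∧
      (((∏ b ∈ S, w b : ℕ) : ℝ≥0∞))⁻¹ ≤ Dl (S.card + 1) (cnt S w) := by
  induction S using Finset.induction_on with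
  | empty =>
    simp only [card_empty, zero_add, prod_empty, Nat.cast_one, inv_one]
    refine ⟨Mu_one_le fun n => ?_, (one_le_Dl_one (a := fun _ => 1) fun _ => le_rfl).trans
      (count_Dl_le_of_sh 1 1 fun n => ?_)⟩
    · cases n with
      | zero => simp [cnt_zero]
      | succ n => rw [cnt_empty_succ]
    · cases n with
      | zero => simp [sh]
      | succ n => simp [sh, cnt_empty_succ]
  | insert i S hi ih =>
    rw [card_insert_of_notMem hi, prod_insert hi]
    have h0 : ((w i : ℕ) : ℝ≥0∞) ≠ 0 := by have := hw i; exact_mod_cast (by omega : w i ≠ 0)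
    have ht : ((w i : ℕ) : ℝ≥0∞) ≠ ∞ := ENNReal.natCast_ne_top _
    have h1 := (Mu_step (S.card + 1) (w i) (cnt_tame _ hw)
      fun n => (cnt_insert_sh hi hw n).le).trans ih.1
    have h2 := ih.2.trans (Dl_step (S.card + 1) (w i) (hw i) (cnt_tame _ hw)
      fun n => (cnt_insert_sh hi hw n).ge)
    rw [Nat.cast_mul, ENNReal.mul_inv (Or.inl h0) (Or.inl ht)]
    constructor
    · calc Mu (S.card + 1 + 1) (cnt (insert i S) w)
          = (w i : ℝ≥0∞)⁻¹ * (w i * Mu (S.card + 1 + 1) (cnt (insert i S) w)) := by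
            rw [← mul_assoc, ENNReal.inv_mul_cancel h0 ht, one_mul]
        _ ≤ _ := by gcongr
    · calc _ ≤ (w i : ℝ≥0∞)⁻¹ * (w i * Dl (S.card + 1 + 1) (cnt (insert i S) w)) := by gcongr
        _ = _ := by rw [← mul_assoc, ENNReal.inv_mul_cancel h0 ht, one_mul]

theorem Mu_cnt (S : Finset σ) {w : σ → ℕ} (hw : ∀ b, 1 ≤ w b) :
    Mu (S.card + 1) (cnt S w) = (((∏ b ∈ S, w b : ℕ) : ℝ≥0∞))⁻¹ :=
  le_antisymm (count_main S hw).1 ((count_main S hw).2.trans (count_Dl_le_Mu _ _))

theorem Dl_cnt_succ (S : Finset σ) {w : σ → ℕ} (hw : ∀ b, 1 ≤ w b) :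
    Dl (S.card + 1) (fun n => cnt S w (n + 1)) = (((∏ b ∈ S, w b : ℕ) : ℝ≥0∞))⁻¹ := by
  refine le_antisymm ?_ ((count_main S hw).2.trans
    (Dl_mono _ fun n => cnt_mono S hw (Nat.le_succ n)))
  refine (count_Dl_le_of_sh _ 1 fun n => ?_).trans ((count_Dl_le_Mu _ _).trans (count_main S hw).1)
  cases n with
  | zero => simp [sh]
  | succ n => simp [sh]

end Crest.Agent.R011
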