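import Mathlib

/-!
Definitions for the irrationality exponent of `π` (row 11).

Variables are indexed by `Fin (m+1)`: index `0` is the multiplicative variable `Y`
(local coordinate `t`), index `i.succ` is the additive variable `X_i` (local coordinate `u_i`).
-/

set_option autoImplicit false

namespace Crest.Agent.R011

open MvPolynomial Finset Filter Topology
open scoped ENNReal NNReal

/-! ### Abel sums of counting sequences -/

/-- Generating function. -/
noncomputable def gen (a : ℕ → ℕ) (x : ℝ≥0) : ℝ≥0∞ := ∑' n, (a n : ℝ≥0∞) * (x : ℝ≥0∞) ^ n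

/-- Normalised generating function. -/
noncomputable def nrm (e : ℕ) (a : ℕ → ℕ) (x : ℝ≥0) : ℝ≥0∞ :=
  ((1 - x : ℝ≥0) : ℝ≥0∞) ^ e * gen a x

/-- Lower growth coefficient. -/
noncomputable def Dl (e : ℕ) (a : ℕ → ℕ) : ℝ≥0∞ := liminf (nrm e a) (𝓝[<] (1 : ℝ≥0))

/-- Upper growth coefficient. -/
noncomputable def Mu (e : ℕ) (a : ℕ → ℕ) : ℝ≥0∞ := limsup (nrm e a) (𝓝[<] (1 : ℝ≥0))

/-- Shifted sequence. -/
def sh (N : ℕ) (a : ℕ → ℕ) (n : ℕ) : ℕ := if N ≤ n then a (n - N) else 0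

/-- The generating function converges on `[0,1)`. -/
def Tame (a : ℕ → ℕ) : Prop := ∀ x : ℝ≥0, x < 1 → gen a x ≠ ∞

/-! ### Weighted exponent sets -/

/-- Exponents supported in `S` of weight `< n`. -/
def low {σ : Type} (S : Finset σ) (w : σ → ℕ) (n : ℕ) : Set (σ →₀ ℕ) :=
  {γ | γ.support ⊆ S ∧ Finsupp.weight w γ < n}

/-- Number of exponents supported in `S` of weight `< n`. -/
noncomputable def cnt {σ : Type} (S : Finset σ) (w : σ → ℕ) (n : ℕ) : ℕ := (low S w n).ncard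

theorem isUpperSet_compl_low {σ : Type} (S : Finset σ) (w : σ → ℕ) (n : ℕ) :
    IsUpperSet (low S w n)ᶜ := by
  intro a b hab ha hb
  apply ha
  refine ⟨(Finsupp.support_mono hab).trans hb.1, lt_of_le_of_lt ?_ hb.2⟩
  obtain ⟨c, rfl⟩ := exists_add_of_le hab
  rw [map_add]; exact Nat.le_add_right _ _

/-! ### Global filtration -/

/-- The polynomial ring. -/
abbrev Rg (m : ℕ) (κ : Type) [Field κ] : Type := MvPolynomial (Fin (m + 1)) κ

/-- Polynomials of weighted degree `≤ n`. -/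
noncomputable def Vdeg {m : ℕ} (w : Fin (m + 1) → ℕ) (n : ℕ) : Submodule ℂ (Rg m ℂ) :=
  restrictSupport ℂ (low univ w (n + 1))

/-- Hilbert function of `R / J` for the weighted degree. -/
noncomputable def hilb {m : ℕ} (w : Fin (m + 1) → ℕ) (J : Ideal (Rg m ℂ)) (n : ℕ) : ℕ :=
  Module.finrank ℂ ((Vdeg w n).map (Ideal.Quotient.mkₐ ℂ J).toLinearMap)

/-- The colon ideal `J : g`. -/
def col {R : Type} [CommRing R] (J : Ideal R) (g : R) : Ideal R :=
  Submodule.comap (LinearMap.mul R R g) J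

theorem mem_col {R : Type} [CommRing R] {J : Ideal R} {g x : R} : x ∈ col J g ↔ g * x ∈ J :=
  Iff.rfl

theorem col_prime {R : Type} [CommRing R] {J : Ideal R} (hJ : J.IsPrime) {g : R} (hg : g ∉ J) :
    col J g = J := by
  ext x
  rw [mem_col]
  exact ⟨fun h => (hJ.mem_or_mem h).resolve_left hg, fun h => J.mul_mem_left g h⟩

/-! ### Invariant derivations -/

/-- `D_0 = Y ∂_Y + ∑ ∂_{X_i}`, `D_i = ∂_{X_i}`. -/
noncomputable def Dop {m : ℕ} (b : Fin (m + 1)) : Derivation ℂ (Rg m ℂ) (Rg m ℂ) :=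
  if b = 0 then (X 0 : Rg m ℂ) • pderiv 0 + ∑ i : Fin m, pderiv i.succ else pderiv b

/-- Words in the derivations. -/
noncomputable def Dw {m : ℕ} (l : List (Fin (m + 1))) (f : Rg m ℂ) : Rg m ℂ :=
  l.foldr (fun b g => Dop b g) f

/-- Cost of a word. -/
def cost {m : ℕ} (v : Fin (m + 1) → ℕ) (l : List (Fin (m + 1))) : ℕ := (l.map v).sum

/-! ### Local filtration at a point -/

/-- Polynomials with no monomial supported in `B` of weight `< n`. -/
noncomputable def Ilow {m : ℕ} (κ : Type) [Field κ] (B : Finset (Fin (m + 1)))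
    (v : Fin (m + 1) → ℕ) (n : ℕ) : Ideal (Rg m κ) :=
  restrictSupportIdeal κ (low B v n)ᶜ (isUpperSet_compl_low B v n)

theorem mem_Ilow {m : ℕ} {κ : Type} [Field κ] {B : Finset (Fin (m + 1))} {v : Fin (m + 1) → ℕ}
    {n : ℕ} {g : Rg m κ} : g ∈ Ilow κ B v n ↔ ∀ γ ∈ low B v n, coeff γ g = 0 := by
  change (↑g.support : Set _) ⊆ (low B v n)ᶜ ↔ _
  constructor
  · intro h γ hγ
    by_contra hc
    exact h (mem_support_iff.2 hc) hγ
  · intro h γ hγ hl
    exact mem_support_iff.1 hγ (h γ hl)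

/-- Truncated logarithm `∑_{1 ≤ k ≤ T} (-1)^(k+1) t^k / k`. -/
noncomputable def logP (κ : Type) [Field κ] (T : ℕ) : Polynomial κ :=
  ∑ k ∈ range (T + 1), Polynomial.monomial k ((-1) ^ (k + 1) / (k : κ))

/-- Local coordinates at the point `ξ`: `Y = ξ₀ (1 + t)`, `X_i = ξ_i + log_T (1 + t) + u_i`. -/
noncomputable def phi {m : ℕ} {κ : Type} [Field κ] [Algebra ℂ κ] (T : Fin (m + 1) → ℕ)
    (ξ : Fin (m + 1) → κ) : Rg m ℂ →ₐ[ℂ] Rg m κ :=
  aeval fun b => if b = 0 then C (ξ 0) * (1 + X 0)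
    else C (ξ b) + Polynomial.aeval (X 0 : Rg m κ) (logP κ (T b)) + X b

/-- Local colength. -/
noncomputable def ell {m : ℕ} {κ : Type} [Field κ] [Algebra ℂ κ] (T : Fin (m + 1) → ℕ)
    (ξ : Fin (m + 1) → κ) (B : Finset (Fin (m + 1))) (v : Fin (m + 1) → ℕ)
    (J : Ideal (Rg m ℂ)) (n : ℕ) : ℕ :=
  Module.finrank κ (Rg m κ ⧸ (J.map (phi T ξ) ⊔ Ilow κ B v n))

/-- Span of the invariant differentials at `ξ` of the elements of `J`. -/
noncomputable def conorm {m : ℕ} {κ : Type} [Field κ] [Algebra ℂ κ] (ξ : Fin (m + 1) → κ)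
    (J : Ideal (Rg m ℂ)) : Submodule κ (Fin (m + 1) → κ) :=
  Submodule.span κ {y | ∃ g ∈ J, y = fun b => aeval ξ (Dop b g)}

/-- The projection of `N` to the coordinates in `B` is onto. -/
def Surj {m : ℕ} {κ : Type} [Field κ] (N : Submodule κ (Fin (m + 1) → κ))
    (B : Finset (Fin (m + 1))) : Prop :=
  ∀ b ∈ B, ∃ y ∈ N, ∀ b' ∈ B, y b' = if b' = b then 1 else 0

/-- Change from the invariant frame to the frame `Y ∂_Y, ∂_{X_i}`. -/
def Lm {m : ℕ} {κ : Type} [Field κ] (y : Fin (m + 1) → κ) (b : Fin (m + 1)) : κ :=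
  if b = 0 then y 0 - ∑ i : Fin m, y i.succ else y b

/-- The projection of `Lm N` to the coordinates in `A` is one-to-one. -/
def Inj {m : ℕ} {κ : Type} [Field κ] (N : Submodule κ (Fin (m + 1) → κ))
    (A : Finset (Fin (m + 1))) : Prop :=
  ∀ y ∈ N, (∀ a ∈ A, Lm y a = 0) → y = 0

/-- The truncation orders are large enough for the weights. -/
def GoodT {m : ℕ} (v T : Fin (m + 1) → ℕ) : Prop := ∀ b, 1 ≤ T b ∧ v b ≤ T b * v 0 + v 0

/-! ### The analytic side -/

/-- Coefficient of `u^μ` in the local expansion of the monomial `γ`, a polynomial in `t`. -/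
noncomputable def Psi {m : ℕ} (T : Fin (m + 1) → ℕ) (c : Fin (m + 1) → ℂ)
    (γ μ : Fin (m + 1) →₀ ℕ) : Polynomial ℂ :=
  (1 + Polynomial.X) ^ γ 0 * ∏ i : Fin m, (Polynomial.C ((γ i.succ).choose (μ i.succ) : ℂ) *
    (Polynomial.C (c i.succ) + logP ℂ (T i.succ)) ^ (γ i.succ - μ i.succ))

/-- The centres `(1, j r_1, …, j r_m)` with `r_i = 2 √(-1) p_i / q_i`. -/
noncomputable def ctr {m : ℕ} (p : Fin (m + 1) → ℤ) (q : Fin (m + 1) → ℕ) (j : ℕ)
    (b : Fin (m + 1)) : ℂ :=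
  if b = 0 then 1 else j * (2 * Complex.I * p b / q b)

end Crest.Agent.R011
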