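import Crest.Agent.R011.Count

set_option autoImplicit false

namespace Crest.Agent.R011

open MvPolynomial Finset Filter Topology
open scoped ENNReal NNReal

section linalg
variable {K R Q Q' : Type*} [Field K] [AddCommGroup R] [Module K R] [AddCommGroup Q] [Module K Q]
  [AddCommGroup Q'] [Module K Q']

theorem hb_finrank_map_add (f : R →ₗ[K] Q) (V : Submodule K R) [Module.Finite K V] :
    Module.finrank K (V.map f) + Module.finrank K ↥(V ⊓ LinearMap.ker f) = Module.finrank K V := by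
  have h := LinearMap.finrank_range_add_finrank_ker (f.domRestrict V)
  rw [LinearMap.range_domRestrict, LinearMap.ker_domRestrict,
    ← Submodule.finrank_map_subtype_eq, Submodule.map_comap_subtype] at h
  exact h

theorem hb_finrank_map_le (f : R →ₗ[K] Q) (g : R →ₗ[K] Q') (V : Submodule K R) [Module.Finite K V]
    (h : ∀ x ∈ V, f x = 0 → g x = 0) :
    Module.finrank K (V.map g) ≤ Module.finrank K (V.map f) := by
  have h1 := hb_finrank_map_add f V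
  have h2 := hb_finrank_map_add g V
  have : Module.Finite K ↥(V ⊓ LinearMap.ker g) := Submodule.finiteDimensional_inf_left _ _
  have h3 : Module.finrank K ↥(V ⊓ LinearMap.ker f) ≤ Module.finrank K ↥(V ⊓ LinearMap.ker g) :=
    Submodule.finrank_mono fun x hx => ⟨hx.1, h x hx.1 hx.2⟩
  omega

theorem hb_finrank_map_eq (f : R →ₗ[K] Q) (V : Submodule K R) [Module.Finite K V]
    (h : ∀ x ∈ V, f x = 0 → x = 0) : Module.finrank K (V.map f) = Module.finrank K V := by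
  have h1 := hb_finrank_map_add f V
  have h2 : V ⊓ LinearMap.ker f = ⊥ := eq_bot_iff.2 fun x hx => h x hx.1 hx.2
  rw [h2, finrank_bot] at h1
  exact h1

end linalg

variable {m : ℕ} {w : Fin (m + 1) → ℕ}

theorem mem_Vdeg {f : Rg m ℂ} {n : ℕ} :
    f ∈ Vdeg w n ↔ ∀ γ ∈ f.support, Finsupp.weight w γ ≤ n := by
  unfold Vdeg
  rw [mem_restrictSupport_iff]
  exact ⟨fun h γ hγ => Nat.lt_succ_iff.1 (h hγ).2,
    fun h γ hγ => ⟨subset_univ _, Nat.lt_succ_iff.2 (h γ hγ)⟩⟩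

theorem Vdeg_mono {a b : ℕ} (h : a ≤ b) : Vdeg w a ≤ Vdeg w b := fun _ hf =>
  mem_Vdeg.2 fun γ hγ => (mem_Vdeg.1 hf γ hγ).trans h

theorem mul_mem_Vdeg {f g : Rg m ℂ} {a b : ℕ} (hf : f ∈ Vdeg w a) (hg : g ∈ Vdeg w b) :
    f * g ∈ Vdeg w (a + b) := by
  refine mem_Vdeg.2 fun γ hγ => ?_
  obtain ⟨α, hα, β, hβ, rfl⟩ := Finset.mem_add.1 (support_mul f g hγ)
  rw [map_add]
  exact Nat.add_le_add (mem_Vdeg.1 hf α hα) (mem_Vdeg.1 hg β hβ)

theorem exists_Vdeg (w : Fin (m + 1) → ℕ) (f : Rg m ℂ) : ∃ N, 1 ≤ N ∧ f ∈ Vdeg w N :=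
  ⟨f.support.sup (Finsupp.weight w) + 1, Nat.le_add_left _ _,
    mem_Vdeg.2 fun _ hγ => (Finset.le_sup (f := Finsupp.weight w) hγ).trans (Nat.le_succ _)⟩

theorem hb_monomial_mem {γ : Fin (m + 1) →₀ ℕ} {n : ℕ} (h : Finsupp.weight w γ ≤ n) (c : ℂ) :
    (monomial γ c : Rg m ℂ) ∈ Vdeg w n :=
  monomial_mem_restrictSupport ℂ |>.2 (Or.inl ⟨subset_univ _, Nat.lt_succ_iff.2 h⟩)

theorem X_sub_C_mem_Vdeg (b : Fin (m + 1)) (c : ℂ) : (X b - C c : Rg m ℂ) ∈ Vdeg w (w b) := by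
  refine Submodule.sub_mem _ (hb_monomial_mem ?_ 1) (hb_monomial_mem ?_ c)
  · simp [Finsupp.weight_single]
  · simp

theorem hb_pderiv_weight {f : Rg m ℂ} {n : ℕ} (hf : f ∈ Vdeg w n) (b : Fin (m + 1))
    {γ : Fin (m + 1) →₀ ℕ} (hγ : γ ∈ (pderiv b f).support) :
    Finsupp.weight w (γ + Finsupp.single b 1) ≤ n := by
  refine mem_Vdeg.1 hf _ (mem_support_iff.2 fun h => mem_support_iff.1 hγ ?_)
  rw [coeff_pderiv, h, zero_mul]

theorem hb_pderiv_mem {f : Rg m ℂ} {n : ℕ} (hf : f ∈ Vdeg w n) (b : Fin (m + 1)) :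
    pderiv b f ∈ Vdeg w n := by
  refine mem_Vdeg.2 fun γ hγ => le_trans ?_ (hb_pderiv_weight hf b hγ)
  rw [map_add]; exact Nat.le_add_right _ _

theorem hb_X_pderiv_mem {f : Rg m ℂ} {n : ℕ} (hf : f ∈ Vdeg w n) (b : Fin (m + 1)) :
    X b * pderiv b f ∈ Vdeg w n := by
  refine mem_Vdeg.2 fun γ hγ => ?_
  rw [support_X_mul, Finset.mem_map] at hγ
  obtain ⟨α, hα, rfl⟩ := hγ
  have := hb_pderiv_weight hf b hα
  rwa [add_comm α] at this

theorem hb_Dop_mem {f : Rg m ℂ} {n : ℕ} (hf : f ∈ Vdeg w n) (b : Fin (m + 1)) :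
    Dop b f ∈ Vdeg w n := by
  unfold Dop
  split_ifs
  · rw [Derivation.add_apply, Derivation.smul_apply, smul_eq_mul]
    refine Submodule.add_mem _ (hb_X_pderiv_mem hf 0) ?_
    have : (∑ i : Fin m, pderiv i.succ : Derivation ℂ (Rg m ℂ) (Rg m ℂ)) f =
        ∑ i : Fin m, pderiv i.succ f := by
      have := map_sum (Derivation.coeFnAddMonoidHom (R := ℂ) (A := Rg m ℂ) (M := Rg m ℂ))
        (fun i : Fin m => pderiv i.succ) univ
      have h2 := congrFun this f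
      rw [Finset.sum_apply] at h2
      exact h2
    rw [this]
    exact Submodule.sum_mem _ fun i _ => hb_pderiv_mem hf _
  · exact hb_pderiv_mem hf b

theorem Dw_mem_Vdeg {f : Rg m ℂ} {n : ℕ} (hf : f ∈ Vdeg w n) (l : List (Fin (m + 1))) :
    Dw l f ∈ Vdeg w n := by
  induction l with
  | nil => exact hf
  | cons b l ih => exact hb_Dop_mem ih b

theorem hb_low_finite (hw : ∀ b, 1 ≤ w b) (U : Finset (Fin (m + 1))) (n : ℕ) :
    Module.Finite ℂ (restrictSupport ℂ (low U w n)) := by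
  have := (low_finite U hw n).to_subtype
  exact Module.Finite.of_basis (basisRestrictSupport ℂ _)

theorem hb_low_finrank (U : Finset (Fin (m + 1))) (n : ℕ) :
    Module.finrank ℂ (restrictSupport ℂ (low U w n)) = cnt U w n := by
  rw [Module.finrank_eq_nat_card_basis (basisRestrictSupport ℂ _), cnt, Nat.card_coe_set_eq]

theorem Vdeg_finite (hw : ∀ b, 1 ≤ w b) (n : ℕ) : Module.Finite ℂ (Vdeg w n) :=
  hb_low_finite hw _ _

theorem hb_mk_eq_zero {J : Ideal (Rg m ℂ)} {x : Rg m ℂ} :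
    (Ideal.Quotient.mkₐ ℂ J).toLinearMap x = 0 ↔ x ∈ J := Ideal.Quotient.eq_zero_iff_mem

theorem hilb_bot (hw : ∀ b, 1 ≤ w b) (n : ℕ) : hilb w ⊥ n = cnt univ w (n + 1) := by
  have := Vdeg_finite hw n
  rw [hilb, hb_finrank_map_eq _ _ fun x _ hx => hb_mk_eq_zero.1 hx]
  exact hb_low_finrank _ _

theorem hilb_anti (hw : ∀ b, 1 ≤ w b) {J J' : Ideal (Rg m ℂ)} (h : J ≤ J') (n : ℕ) :
    hilb w J' n ≤ hilb w J n := by
  have := Vdeg_finite hw n
  exact hb_finrank_map_le _ _ _ fun x _ hx => hb_mk_eq_zero.2 (h (hb_mk_eq_zero.1 hx))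

theorem hilb_mono (hw : ∀ b, 1 ≤ w b) (J : Ideal (Rg m ℂ)) : Monotone (hilb w J) := by
  intro a b hab
  have := Vdeg_finite hw b
  exact Submodule.finrank_mono (Submodule.map_mono (Vdeg_mono hab))

theorem hilb_step (hw : ∀ b, 1 ≤ w b) (J : Ideal (Rg m ℂ)) {g : Rg m ℂ} {N : ℕ}
    (hg : g ∈ Vdeg w N) (n : ℕ) :
    hilb w (J ⊔ Ideal.span {g}) n + sh N (hilb w (col J g)) n ≤ hilb w J n := by
  unfold sh
  split_ifs with hN
  swap
  · exact hilb_anti hw le_sup_left n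
  have := Vdeg_finite hw n
  have := Vdeg_finite hw (n - N)
  let π := (Ideal.Quotient.mkₐ ℂ J).toLinearMap
  let ρ := (Ideal.Quotient.factorₐ ℂ (le_sup_left : J ≤ J ⊔ Ideal.span {g})).toLinearMap
  have h1 := hb_finrank_map_add ρ ((Vdeg w n).map π)
  have h2 : ((Vdeg w n).map π).map ρ =
      (Vdeg w n).map (Ideal.Quotient.mkₐ ℂ (J ⊔ Ideal.span {g})).toLinearMap := by
    rw [← Submodule.map_comp]; rfl
  have : Module.Finite ℂ ↥((Vdeg w n).map π ⊓ LinearMap.ker ρ) :=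
    Submodule.finiteDimensional_inf_left _ _
  have h3 : (Vdeg w (n - N)).map (π ∘ₗ LinearMap.mulLeft ℂ g) ≤
      (Vdeg w n).map π ⊓ LinearMap.ker ρ := by
    rintro _ ⟨x, hx, rfl⟩
    refine ⟨⟨g * x, ?_, rfl⟩, ?_⟩
    · have := mul_mem_Vdeg hg hx
      rwa [Nat.add_sub_cancel' hN] at this
    · exact hb_mk_eq_zero.2 (Ideal.mem_sup_right
        (Ideal.mul_mem_right _ _ (Ideal.mem_span_singleton_self g)))
  have h4 := Submodule.finrank_mono h3
  have h5 : hilb w (col J g) (n - N) ≤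
      Module.finrank ℂ ((Vdeg w (n - N)).map (π ∘ₗ LinearMap.mulLeft ℂ g)) :=
    hb_finrank_map_le _ _ _ fun x _ hx => hb_mk_eq_zero.2 (mem_col.2 (hb_mk_eq_zero.1 hx))
  rw [h2] at h1
  change hilb w (J ⊔ Ideal.span {g}) n + _ = hilb w J n at h1
  omega

theorem one_le_hilb (hw : ∀ b, 1 ≤ w b) {J : Ideal (Rg m ℂ)} (hJ : J ≠ ⊤) (n : ℕ) :
    1 ≤ hilb w J n := by
  have := Vdeg_finite hw n
  refine Nat.one_le_iff_ne_zero.2 fun h => hJ ((Ideal.eq_top_iff_one J).2 ?_)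
  rw [hilb, Submodule.finrank_eq_zero] at h
  have h1 : (1 : Rg m ℂ) ∈ Vdeg w n := hb_monomial_mem (γ := 0) (by simp) 1
  have h2 := Submodule.mem_map_of_mem (f := (Ideal.Quotient.mkₐ ℂ J).toLinearMap) h1
  rw [h, Submodule.mem_bot] at h2
  exact hb_mk_eq_zero.1 h2

theorem cnt_le_hilb (hw : ∀ b, 1 ≤ w b) {J : Ideal (Rg m ℂ)} (U : Finset (Fin (m + 1)))
    (h : ∀ g ∈ J, g.vars ⊆ U → g = 0) (n : ℕ) : cnt U w (n + 1) ≤ hilb w J n := by
  have := Vdeg_finite hw n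
  have := hb_low_finite hw U (n + 1)
  rw [← hb_low_finrank, ← hb_finrank_map_eq (Ideal.Quotient.mkₐ ℂ J).toLinearMap]
  · refine Submodule.finrank_mono (Submodule.map_mono (restrictSupport_mono ℂ ?_))
    exact fun γ hγ => ⟨subset_univ _, hγ.2⟩
  · intro x hx hx0
    refine h x (hb_mk_eq_zero.1 hx0) fun i hi => ?_
    obtain ⟨γ, hγ, hi'⟩ := (mem_vars_iff_mem_support i).1 hi
    exact (((mem_restrictSupport_iff ℂ).1 hx) hγ).1 hi'

end Crest.Agent.R011
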