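import Crest.Agent.R011.AuxFun
import Crest.Agent.R011.Coeff
import Crest.Agent.R011.Hilb

set_option autoImplicit false

namespace Crest.Agent.R011

open MvPolynomial Finset Filter Topology

lemma ex_pow_le {x y : ℝ} (hx : 1 ≤ x) {n : ℕ} (hn : (n : ℝ) ≤ y) :
    x ^ n ≤ Real.exp (y * Real.log x) := by
  have h0 : 0 < x := by linarith
  conv_lhs => rw [← Real.exp_log h0, ← Real.exp_nat_mul]
  exact Real.exp_le_exp.2 (mul_le_mul_of_nonneg_right hn (Real.log_nonneg hx))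

lemma ex_choose_le (n k : ℕ) : (n.choose k : ℝ) ≤ 2 ^ n := by
  exact_mod_cast Nat.choose_le_two_pow n k

lemma ex_prod_choose_le {m : ℕ} (g a : Fin m → ℕ) {z : ℂ} {R : ℝ} (hR : 1 ≤ R) (hz : ‖z‖ ≤ R) :
    ‖∏ i, ((g i).choose (a i) : ℂ) * z ^ (g i - a i)‖ ≤ (2 * R) ^ (∑ i, g i) := by
  rw [norm_prod, ← Finset.prod_pow_eq_pow_sum]
  refine Finset.prod_le_prod (fun _ _ => norm_nonneg _) fun i _ => ?_
  rw [norm_mul, norm_pow, Complex.norm_natCast, mul_pow]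
  refine mul_le_mul (ex_choose_le _ _) ?_ (by positivity) (by positivity)
  exact (pow_le_pow_left₀ (norm_nonneg _) hz _).trans (pow_le_pow_right₀ hR (Nat.sub_le _ _))

lemma ex_prod_eps_le {m : ℕ} (a μ : Fin m → ℕ) (ε : Fin m → ℂ) {E ν : ℝ} (w : Fin m → ℝ)
    (hE : 1 ≤ E) (hε : ∀ i, ‖ε i‖ ≤ E * Real.exp (-(ν * w i))) :
    ‖∏ i, ((a i).choose (μ i) : ℂ) * ε i ^ (a i - μ i)‖ ≤
      (2 * E) ^ (∑ i, a i) * Real.exp (ν * (∑ i, μ i * w i) - ν * ∑ i, a i * w i) := by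
  rw [norm_prod, ← Finset.prod_pow_eq_pow_sum, Finset.mul_sum, Finset.mul_sum,
    ← Finset.sum_sub_distrib, Real.exp_sum, ← Finset.prod_mul_distrib]
  refine Finset.prod_le_prod (fun _ _ => norm_nonneg _) fun i _ => ?_
  by_cases h : μ i ≤ a i
  · rw [norm_mul, norm_pow, Complex.norm_natCast, mul_pow, mul_assoc]
    refine mul_le_mul (ex_choose_le _ _) ?_ (by positivity) (by positivity)
    refine (pow_le_pow_left₀ (norm_nonneg _) (hε i) _).trans ?_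
    rw [mul_pow, ← Real.exp_nat_mul]
    refine mul_le_mul (pow_le_pow_right₀ hE (Nat.sub_le _ _)) (le_of_eq ?_) (by positivity)
      (by positivity)
    rw [Nat.cast_sub h]; congr 1; ring
  · rw [Nat.choose_eq_zero_of_lt (not_le.1 h)]
    simp only [Nat.cast_zero, zero_mul, norm_zero]
    positivity

lemma ex_prod_eps_le' {m : ℕ} (a μ : Fin m → ℕ) (ε : Fin m → ℂ) {E : ℝ}
    (hE : 1 ≤ E) (hε : ∀ i, ‖ε i‖ ≤ E) :
    ‖∏ i, ((a i).choose (μ i) : ℂ) * ε i ^ (a i - μ i)‖ ≤ (2 * E) ^ (∑ i, a i) := by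
  have := ex_prod_eps_le a μ ε (ν := 0) (fun _ => 0) hE (by simpa using hε)
  simpa using this

lemma ex_eventually (C : ℝ) (k : ℕ) {g : ℝ} (hg : 0 < g) :
    ∀ᶠ H : ℕ in atTop, C * ((H : ℝ) + 1) ^ k * Real.exp (-(g * H)) < 1 / 2 := by
  have h1 : Tendsto (fun x : ℝ => x ^ k * Real.exp (-x)) atTop (𝓝 0) :=
    Real.tendsto_pow_mul_exp_neg_atTop_nhds_zero k
  have h2 : Tendsto (fun H : ℕ => g * ((H : ℝ) + 1)) atTop atTop :=
    (tendsto_natCast_atTop_atTop.atTop_add tendsto_const_nhds).const_mul_atTop hg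
  have h3 := (h1.comp h2).const_mul (C * Real.exp g / g ^ k)
  rw [mul_zero] at h3
  filter_upwards [h3.eventually (gt_mem_nhds (show (0 : ℝ) < 1 / 2 by norm_num))] with H hH
  simp only [Function.comp] at hH
  refine lt_of_eq_of_lt ?_ hH
  rw [show -(g * ((H : ℝ) + 1)) = -(g * H) + -g by ring, Real.exp_add, Real.exp_neg g, mul_pow]
  field_simp

lemma ex_weight {m : ℕ} (w : Fin (m + 1) → ℕ) (γ : Fin (m + 1) →₀ ℕ) :
    Finsupp.weight w γ = γ 0 * w 0 + ∑ i : Fin m, γ i.succ * w i.succ := by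
  rw [Finsupp.weight_eq_sum, Fin.sum_univ_succ]; rfl

lemma ex_mem_low {m : ℕ} {w : Fin (m + 1) → ℕ} {n : ℕ} {γ : Fin (m + 1) →₀ ℕ} :
    γ ∈ low univ w n ↔ γ 0 * w 0 + ∑ i : Fin m, γ i.succ * w i.succ < n := by
  rw [← ex_weight]
  exact ⟨fun h => h.2, fun h => ⟨subset_univ _, h⟩⟩

lemma ex_cnt_le {m : ℕ} {w : Fin (m + 1) → ℕ} (hw : ∀ b, 1 ≤ w b) (H : ℕ) :
    cnt univ w (H + 1) ≤ (H + 1) ^ (m + 1) := by
  have h : (low univ w (H + 1)).ncard ≤
      ((Fintype.piFinset fun _ : Fin (m + 1) => range (H + 1) : Finset (Fin (m + 1) → ℕ)) :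
        Set (Fin (m + 1) → ℕ)).ncard := by
    refine Set.ncard_le_ncard_of_injOn (fun γ => ⇑γ) (fun γ hγ => ?_)
      (fun _ _ _ _ h => DFunLike.coe_injective h) (Finset.finite_toSet _)
    simp only [Finset.mem_coe, Fintype.mem_piFinset, Finset.mem_range]
    intro b
    have h1 := hγ.2
    rw [Finsupp.weight_eq_sum] at h1
    have h2 := Finset.single_le_sum (f := fun b => γ b • w b) (fun _ _ => Nat.zero_le _)
      (mem_univ b)
    have h3 : γ b ≤ γ b • w b := Nat.le_mul_of_pos_right _ (hw b)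
    omega
  rw [Set.ncard_coe_finset, Fintype.card_piFinset] at h
  simpa [cnt] using h

/-- The set of exponents whose coefficients are made small. -/
noncomputable def ex_AA {m : ℕ} (w : Fin (m + 1) → ℕ) (A : ℝ) (H : ℕ) : Finset (Fin m → ℕ) := by
  classical
  exact (Fintype.piFinset fun _ : Fin m => range (H + 1)).filter
    fun a => (∑ i, (a i : ℝ) * w i.succ) < A * H

lemma ex_mem_AA {m : ℕ} {w : Fin (m + 1) → ℕ} {A : ℝ} {H : ℕ} {a : Fin m → ℕ} :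
    a ∈ ex_AA w A H ↔ a ∈ (Fintype.piFinset fun _ : Fin m => range (H + 1)) ∧
      (∑ i, (a i : ℝ) * w i.succ) < A * H := by
  simp only [ex_AA, mem_filter]

lemma ex_card_AA {m : ℕ} {w : Fin (m + 1) → ℕ} (hw : ∀ b, 1 ≤ w b) {A : ℝ} (hA : 0 ≤ A) (H : ℕ) :
    (m.factorial : ℝ) * (∏ i : Fin m, (w i.succ : ℝ)) * (ex_AA w A H).card ≤
      (A * H + ∑ i : Fin m, (w i.succ : ℝ)) ^ m := by
  have h1 := cnt_upper (univ : Finset (Fin m)) (w := fun i => w i.succ) (fun i => hw _) ⌊A * H⌋₊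
  have h2 : (ex_AA w A H).card ≤ cnt (univ : Finset (Fin m)) (fun i => w i.succ) (⌊A * H⌋₊ + 1) := by
    rw [← Set.ncard_coe_finset]
    refine Set.ncard_le_ncard_of_injOn (fun a => Finsupp.equivFunOnFinite.symm a) (fun a ha => ?_)
      (fun _ _ _ _ h => Finsupp.equivFunOnFinite.symm.injective h)
      (low_finite _ (fun i => hw _) _)
    refine ⟨subset_univ _, Nat.lt_succ_of_le (Nat.le_floor ?_)⟩
    rw [Finsupp.weight_eq_sum]
    have := (ex_mem_AA.1 ha).2.le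
    simpa using this
  rw [card_univ, Fintype.card_fin] at h1
  have h3 : ((m.factorial * (∏ i : Fin m, w i.succ) * (ex_AA w A H).card : ℕ) : ℝ) ≤
      ((⌊A * H⌋₊ + ∑ i : Fin m, w i.succ) ^ m : ℕ) := by
    exact_mod_cast (Nat.mul_le_mul_left _ h2).trans h1
  push_cast at h3
  refine h3.trans (pow_le_pow_left₀ (by positivity) ?_ _)
  have := Nat.floor_le (show 0 ≤ A * H by positivity)
  linarith

lemma ex_box {m : ℕ} {w : Fin (m + 1) → ℕ} (hw : ∀ b, 1 ≤ w b) {A δ : ℝ} (hA : 0 < A)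
    (hδ : 0 < δ) (hbox : 4000 * (m + 1) * w 0 * A ^ m < δ) :
    ∀ᶠ H : ℕ in atTop, (2 ^ (40 * H + 1)) ^ (2 * (ex_AA w A H).card * (40 * H)) <
      (⌊Real.exp (δ * H)⌋₊ + 1) ^ cnt univ w (H + 1) := by
  set s : ℝ := ∑ i : Fin m, (w i.succ : ℝ)
  have h1 : Tendsto (fun H : ℕ => 4000 * (m + 1) * w 0 * (A + s / H) ^ m) atTop
      (𝓝 (4000 * (m + 1) * w 0 * (A + 0) ^ m)) :=
    ((tendsto_const_nhds.add (tendsto_const_div_atTop_nhds_zero_nat s)).pow m).const_mul _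
  rw [add_zero] at h1
  filter_upwards [h1.eventually (gt_mem_nhds hbox), eventually_ge_atTop 1] with H hH hH1
  have hH0 : (0 : ℝ) < H := by exact_mod_cast hH1
  have hH1' : (1 : ℝ) ≤ H := by exact_mod_cast hH1
  have c1 := ex_card_AA hw hA.le H
  have c2 : ((H : ℝ)) ^ (m + 1) ≤ ((m + 1).factorial : ℝ) * ((w 0 : ℝ) * ∏ i : Fin m, (w i.succ : ℝ))
      * cnt univ w (H + 1) := by
    have := cnt_lower (univ : Finset (Fin (m + 1))) hw H
    rw [card_univ, Fintype.card_fin, Fin.prod_univ_succ] at this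
    exact_mod_cast this
  set M : ℕ := cnt univ w (H + 1)
  set a : ℕ := (ex_AA w A H).card
  set Pw : ℝ := ∏ i : Fin m, (w i.succ : ℝ)
  have hPw : 0 < Pw := Finset.prod_pos fun i _ => by exact_mod_cast hw _
  have hw0 : (0 : ℝ) < w 0 := by exact_mod_cast hw 0
  have hf : (0 : ℝ) < m.factorial := by exact_mod_cast m.factorial_pos
  have hM : 0 < M := by
    rcases Nat.eq_zero_or_pos M with h | h
    · rw [h] at c2
      have : (0 : ℝ) < (H : ℝ) ^ (m + 1) := by positivity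
      simp at c2; linarith
    · exact h
  have key : 4000 * (H : ℝ) * a ≤ δ * M := by
    have e1 : A * H + s = H * (A + s / H) := by field_simp
    rw [e1, mul_pow] at c1
    rw [Nat.factorial_succ] at c2
    push_cast at c2
    have hF : 0 < ((m : ℝ) + 1) * m.factorial * (w 0 * Pw) := by positivity
    refine le_of_mul_le_mul_left ?_ hF
    calc ((m : ℝ) + 1) * m.factorial * (w 0 * Pw) * (4000 * H * a)
        = 4000 * (m + 1) * w 0 * H * (m.factorial * Pw * a) := by ring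
      _ ≤ 4000 * (m + 1) * w 0 * H * (H ^ m * (A + s / H) ^ m) := by gcongr
      _ = (4000 * (m + 1) * w 0 * (A + s / H) ^ m) * H ^ (m + 1) := by ring
      _ ≤ δ * (((m : ℝ) + 1) * m.factorial * (w 0 * Pw) * M) := by gcongr
      _ = _ := by ring
  have h2 : (((2 ^ (40 * H + 1)) ^ (2 * a * (40 * H)) : ℕ) : ℝ) ≤ Real.exp (δ * H) ^ M := by
    push_cast
    rw [← pow_mul, ← Real.exp_nat_mul]
    refine (ex_pow_le (by norm_num) le_rfl).trans (Real.exp_le_exp.2 ?_)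
    have l2 : Real.log 2 ≤ 1 := by have := Real.log_two_lt_d9; linarith
    have ha : (0 : ℝ) ≤ a := by positivity
    push_cast
    calc (40 * (H : ℝ) + 1) * (2 * a * (40 * H)) * Real.log 2
        ≤ (41 * H) * (2 * a * (40 * H)) * 1 := by gcongr; linarith
      _ ≤ H * (4000 * H * a) := by nlinarith [mul_nonneg (mul_nonneg hH0.le hH0.le) ha]
      _ ≤ H * (δ * M) := by gcongr
      _ = _ := by ring
  have h3 : Real.exp (δ * H) ^ M < (((⌊Real.exp (δ * H)⌋₊ + 1) ^ M : ℕ) : ℝ) := by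
    push_cast
    exact pow_lt_pow_left₀ (Nat.lt_floor_add_one _) (Real.exp_pos _).le hM.ne'
  exact_mod_cast h2.trans_lt h3

/-- scaling factor of a monomial -/
noncomputable def ex_S {m : ℕ} (T q : Fin (m + 1) → ℕ) (γ : Fin (m + 1) →₀ ℕ) : ℕ :=
  ∏ i : Fin m, (q i.succ * Nat.lcmUpto (T i.succ)) ^ γ i.succ

lemma ex_S_pos {m : ℕ} (T : Fin (m + 1) → ℕ) {q : Fin (m + 1) → ℕ} (hq : ∀ b, 1 ≤ q b)
    (γ : Fin (m + 1) →₀ ℕ) : 0 < ex_S T q γ :=
  Finset.prod_pos fun _ _ => pow_pos (Nat.mul_pos (hq _) (Nat.lcmUpto_pos _)) _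

lemma ex_S_le {m : ℕ} {w T q : Fin (m + 1) → ℕ} (hq : ∀ b, 1 ≤ q b) {c : ℝ}
    (h : ∀ i : Fin m, Real.log (q i.succ) + 6 * T i.succ ≤ c * w i.succ)
    (γ : Fin (m + 1) →₀ ℕ) :
    (ex_S T q γ : ℝ) ≤ Real.exp (c * ∑ i : Fin m, (γ i.succ : ℝ) * w i.succ) := by
  rw [ex_S, Finset.mul_sum, Real.exp_sum]
  push_cast
  refine Finset.prod_le_prod (fun _ _ => by positivity) fun i _ => ?_
  have h1 : (1 : ℝ) ≤ q i.succ := by exact_mod_cast hq _
  have h2 : (1 : ℝ) ≤ Nat.lcmUpto (T i.succ) := by exact_mod_cast Nat.lcmUpto_pos _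
  refine (ex_pow_le (one_le_mul_of_one_le_of_one_le h1 h2) le_rfl).trans (Real.exp_le_exp.2 ?_)
  rw [Real.log_mul (by positivity) (by positivity), mul_left_comm]
  have := log_lcmUpto_le (T i.succ)
  have := h i
  gcongr
  linarith

lemma ex_le_S {m : ℕ} {w T q : Fin (m + 1) → ℕ} (hq : ∀ b, 1 ≤ q b) {a₀ : ℝ}
    (h : ∀ i : Fin m, (w i.succ : ℝ) - a₀ ≤ Real.log (q i.succ)) (μ : Fin (m + 1) →₀ ℕ) :
    Real.exp ((∑ i : Fin m, (μ i.succ : ℝ) * w i.succ) - a₀ * ∑ i : Fin m, (μ i.succ : ℝ)) ≤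
      ex_S T q μ := by
  rw [ex_S, Finset.mul_sum, ← Finset.sum_sub_distrib, Real.exp_sum]
  push_cast
  refine Finset.prod_le_prod (fun _ _ => by positivity) fun i _ => ?_
  have h1 : (1 : ℝ) ≤ q i.succ := by exact_mod_cast hq _
  have h2 : (1 : ℝ) ≤ Nat.lcmUpto (T i.succ) := by exact_mod_cast Nat.lcmUpto_pos _
  calc _ = Real.exp ((w i.succ : ℝ) - a₀) ^ μ i.succ := by
        rw [← Real.exp_nat_mul]; congr 1; ring
    _ ≤ (q i.succ : ℝ) ^ μ i.succ := by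
        gcongr
        exact (Real.le_log_iff_exp_le (by positivity)).1 (h i)
    _ ≤ _ := by gcongr; exact le_mul_of_one_le_right (by positivity) h2

/-- the entire functions fed to the box principle -/
noncomputable def ex_phi {m : ℕ} (T q : Fin (m + 1) → ℕ) (a : Fin m → ℕ)
    (γ : Fin (m + 1) →₀ ℕ) (z : ℂ) : ℂ :=
  (ex_S T q γ : ℂ) *
    (Complex.exp (γ 0 * z) * ∏ i : Fin m, ((γ i.succ).choose (a i) : ℂ) * z ^ (γ i.succ - a i))

lemma ex_phi_diff {m : ℕ} (T q : Fin (m + 1) → ℕ) (a : Fin m → ℕ) (γ : Fin (m + 1) →₀ ℕ) :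
    Differentiable ℂ (ex_phi T q a γ) := by
  unfold ex_phi
  fun_prop

lemma ex_phi_zero {m : ℕ} (T q : Fin (m + 1) → ℕ) {a : Fin m → ℕ} {γ : Fin (m + 1) →₀ ℕ}
    (h : ¬ ∀ i, a i ≤ γ i.succ) (z : ℂ) : ex_phi T q a γ z = 0 := by
  push Not at h
  obtain ⟨i, hi⟩ := h
  rw [ex_phi, Finset.prod_eq_zero (mem_univ i) (by rw [Nat.choose_eq_zero_of_lt hi]; simp)]
  simp

lemma ex_phi_le {m : ℕ} (T q : Fin (m + 1) → ℕ) (a : Fin m → ℕ) (γ : Fin (m + 1) →₀ ℕ) {z : ℂ}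
    {R : ℝ} (hR : 1 ≤ R) (hz : ‖z‖ ≤ R) :
    ‖ex_phi T q a γ z‖ ≤ ex_S T q γ * (Real.exp (γ 0 * z.re) * (2 * R) ^ ∑ i : Fin m, γ i.succ) := by
  rw [ex_phi, norm_mul, norm_mul, Complex.norm_natCast, Complex.norm_exp]
  have : ((γ 0 : ℂ) * z).re = γ 0 * z.re := by simp
  rw [this]
  gcongr
  exact ex_prod_choose_le (fun i => γ i.succ) a hR hz

lemma ex_gauss {g : GaussianInt} (hg : g ≠ 0) : 1 ≤ ‖(g : ℂ)‖ := by
  have h1 : 0 < g.norm := GaussianInt.norm_pos.2 hg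
  have h2 : (1 : ℝ) ≤ Complex.normSq (g : ℂ) := by
    rw [← GaussianInt.intCast_real_norm]; exact_mod_cast h1
  rw [Complex.normSq_eq_norm_sq] at h2
  by_contra h
  push Not at h
  nlinarith [norm_nonneg (g : ℂ)]

lemma ex_eps {m K : ℕ} {w T : Fin (m + 1) → ℕ} {p : Fin (m + 1) → ℤ} {q : Fin (m + 1) → ℕ}
    {ν L a₀ : ℝ} (hν : 0 < ν) (hw : ∀ b, 1 ≤ w b) (hq : ∀ b, 1 ≤ q b)
    (happ : ∀ i : Fin m, |Real.pi - (p i.succ : ℝ) / (q i.succ : ℝ)| ≤ 1 / (q i.succ : ℝ) ^ ν)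
    (hq2 : ∀ i : Fin m, (w i.succ : ℝ) - a₀ ≤ Real.log (q i.succ))
    (hT1 : ∀ i : Fin m, ν * w i.succ ≤ L * T i.succ) {j : ℕ} (hj : j < K) {t : ℂ}
    (ht : ‖t‖ = Real.exp (-L)) (ht2 : ‖t‖ ≤ 1 / 2) (i : Fin m) :
    ‖ctr p q j i.succ + (logP ℂ (T i.succ)).eval t
        - (j * (2 * Real.pi * Complex.I) + Complex.log (1 + t))‖ ≤
      (2 * K * Real.exp (ν * a₀) + 1) * Real.exp (-(ν * w i.succ)) := by
  have hw1 : (1 : ℝ) ≤ w i.succ := by exact_mod_cast hw _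
  have hq1 : (1 : ℝ) ≤ q i.succ := by exact_mod_cast hq _
  have hT : 1 ≤ T i.succ := by
    by_contra h
    have h0 : T i.succ = 0 := by omega
    have := hT1 i
    rw [h0] at this
    simp only [Nat.cast_zero, mul_zero] at this
    nlinarith
  have e : ctr p q j i.succ + (logP ℂ (T i.succ)).eval t
        - (j * (2 * Real.pi * Complex.I) + Complex.log (1 + t))
      = -(2 * j * Complex.I) * ((Real.pi - (p i.succ : ℝ) / (q i.succ : ℝ) : ℝ) : ℂ)
        + ((logP ℂ (T i.succ)).eval t - Complex.log (1 + t)) := by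
    simp only [ctr, Fin.succ_ne_zero, if_false]
    push_cast
    ring
  rw [e]
  refine (norm_add_le _ _).trans ?_
  have h1 : ‖-(2 * j * Complex.I) * ((Real.pi - (p i.succ : ℝ) / (q i.succ : ℝ) : ℝ) : ℂ)‖
      ≤ 2 * K * Real.exp (ν * a₀) * Real.exp (-(ν * w i.succ)) := by
    rw [norm_mul, norm_neg, Complex.norm_real, Real.norm_eq_abs, mul_assoc (2 * (K : ℝ))]
    have hj' : (j : ℝ) ≤ K := by exact_mod_cast hj.le
    refine mul_le_mul (by simpa using hj') ((happ i).trans ?_) (abs_nonneg _) (by positivity)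
    rw [Real.rpow_def_of_pos (by positivity), one_div, ← Real.exp_neg, ← Real.exp_add,
      Real.exp_le_exp]
    have := hq2 i
    nlinarith
  have h2 : ‖(logP ℂ (T i.succ)).eval t - Complex.log (1 + t)‖ ≤ Real.exp (-(ν * w i.succ)) := by
    refine (norm_logP_sub _ hT ht2).trans ?_
    rw [ht, ← Real.exp_nat_mul, Real.exp_le_exp]
    have := hT1 i
    linarith
  linarith

end Crest.Agent.R011
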