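import Crest.Agent.R011.AuxFun
import Crest.Agent.R011.Coeff
import Crest.Agent.R011.Hilb
import Crest.Agent.R011.ExtrapAux

set_option autoImplicit false

namespace Crest.Agent.R011

open MvPolynomial Finset Filter Topology
open scoped ENNReal NNReal

/-- The auxiliary polynomial: good approximations force vanishing to high order at all centres. -/
theorem exists_aux {m K : ℕ} (w v T : Fin (m + 1) → ℕ) (p : Fin (m + 1) → ℤ) (q : Fin (m + 1) → ℕ)
    (ν A θ lam δ L a₀ W : ℝ) (hν : 2 < ν) (hν3 : ν ≤ 3) (hA0 : 0 < A) (hA : A ≤ 1) (hθ : 0 < θ)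
    (hlam : 1 ≤ lam) (hδ : 0 < δ) (hL : 1 ≤ L) (ha₀ : 0 ≤ a₀) (hW : 1 ≤ W)
    (hw : ∀ b, 1 ≤ w b) (hv : ∀ b, 1 ≤ v b) (hK : K ≤ w 0)
    (hq : ∀ b, 1 ≤ q b)
    (happ : ∀ i : Fin m, |Real.pi - (p i.succ : ℝ) / (q i.succ : ℝ)| ≤ 1 / (q i.succ : ℝ) ^ ν)
    (hq1 : ∀ i : Fin m, Real.log (q i.succ) ≤ w i.succ)
    (hq2 : ∀ i : Fin m, (w i.succ : ℝ) - a₀ ≤ Real.log (q i.succ))
    (hWw : ∀ i : Fin m, W ≤ w i.succ)
    (hwv : ∀ i : Fin m, (w i.succ : ℝ) ≤ θ * v i.succ)
    (hT1 : ∀ i : Fin m, ν * w i.succ ≤ L * T i.succ)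
    (hT2 : ∀ i : Fin m, (T i.succ : ℝ) ≤ ν * w i.succ / L + 1)
    (hgap : 1 + δ + 6 * (ν / L + 1 / W) + 1 / w 0
      + (Real.log (8 * (2 * Real.pi * K + 1) * (2 * K * Real.exp (ν * a₀) + 1)) + a₀) / W
      + lam * L / v 0 + (ν - 1) * θ * lam < ν * A)
    (hbox : 4000 * (m + 1) * w 0 * A ^ m < δ) :
    ∃ H : ℕ, 1 ≤ H ∧ ∃ P : Rg m ℂ, P ≠ 0 ∧ P ∈ Vdeg w H ∧
      ∀ j < K, phi T (ctr p q j) P ∈ Ilow ℂ univ v ⌈lam * H⌉₊ := by
  classical
  have hK0 : (0 : ℝ) ≤ K := Nat.cast_nonneg K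
  have hpi := Real.pi_pos
  set r : ℝ := 2 * Real.pi * K + 1 with hr
  set E : ℝ := 2 * K * Real.exp (ν * a₀) + 1 with hE
  set c : ℝ := 1 + 6 * (ν / L + 1 / W) with hc
  have hr1 : 1 ≤ r := by rw [hr]; have := mul_nonneg (mul_nonneg two_pos.le hpi.le) hK0; linarith
  have hE1 : 1 ≤ E := by
    rw [hE]; have := mul_nonneg (mul_nonneg two_pos.le hK0) (Real.exp_pos (ν * a₀)).le; linarith
  set lE : ℝ := Real.log (2 * E) with hlE
  set lr : ℝ := Real.log (2 * (2 * r)) with hlr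
  have hlE0 : 0 ≤ lE := Real.log_nonneg (by linarith)
  have hlr0 : 0 ≤ lr := Real.log_nonneg (by linarith)
  have hl : Real.log (8 * r * E) = lr + lE := by
    rw [hlE, hlr, ← Real.log_mul (by positivity) (by positivity)]; congr 1; ring
  rw [hl] at hgap
  have hW0 : 0 < W := by linarith
  have hL0 : 0 < L := by linarith
  have hw0 : (1 : ℝ) ≤ w 0 := by exact_mod_cast hw 0
  have hv0 : (1 : ℝ) ≤ v 0 := by exact_mod_cast hv 0
  have hν0 : 0 < ν := by linarith
  have hc1 : 1 ≤ c := by rw [hc]; have : 0 ≤ 6 * (ν / L + 1 / W) := by positivity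
                         linarith
  set g : ℝ := ν * A - (c + δ + 1 / w 0 + (lr + lE + a₀) / W + lam * L / v 0
    + (ν - 1) * θ * lam) with hg
  have hg0 : 0 < g := by rw [hg, hc]; linarith
  have n1 : 0 ≤ 1 / (w 0 : ℝ) := by positivity
  have n2 : 0 ≤ a₀ / W := by positivity
  have n3 : 0 ≤ lam * L / v 0 := by positivity
  have n4 : 0 ≤ (ν - 1) * θ * lam := mul_nonneg (mul_nonneg (by linarith) hθ.le) (by linarith)
  have n5 : 0 ≤ lr / W := by positivity
  have n6 : 0 ≤ lE / W := by positivity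
  have n7 : (lr + lE + a₀) / W = lr / W + lE / W + a₀ / W := by ring
  have hνA : ν * A ≤ ν := mul_le_of_le_one_right hν0.le hA
  have hθl : θ * lam ≤ 1 := by
    have : (ν - 1) * (θ * lam) ≤ (ν - 1) * 1 := by rw [← mul_assoc]; linarith
    exact le_of_mul_le_mul_left this (by linarith)
  have hcw : ∀ i : Fin m, Real.log (q i.succ) + 6 * T i.succ ≤ c * w i.succ := by
    intro i
    have h1 : 1 ≤ (w i.succ : ℝ) / W := (one_le_div hW0).2 (hWw i)
    have h2 : c * w i.succ = w i.succ + 6 * (ν * w i.succ / L + w i.succ / W) := by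
      rw [hc]; ring
    have := hq1 i
    have := hT2 i
    linarith
  obtain ⟨H, ⟨⟨hB, hE1'⟩, hE2'⟩, hH1⟩ := ((((ex_box hw hA0 hδ hbox).and
    (ex_eventually 10 (m + (m + 1)) (show (0 : ℝ) < 9 by norm_num))).and
    (ex_eventually 1 (m + (m + 1)) hg0)).and (eventually_ge_atTop 1)).exists
  have hH0 : (0 : ℝ) ≤ H := Nat.cast_nonneg H
  let Λ : Finset (Fin (m + 1) →₀ ℕ) := (low_finite univ hw (H + 1)).toFinset
  have hΛ : ∀ γ : Λ, (γ : Fin (m + 1) →₀ ℕ) ∈ low univ w (H + 1) := fun γ =>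
    (Set.Finite.mem_toFinset _).1 γ.2
  have hcard : Fintype.card Λ = cnt univ w (H + 1) := by
    rw [Fintype.card_coe, cnt, Set.ncard_eq_toFinset_card _ (low_finite univ hw (H + 1))]
  have hM : (Fintype.card Λ : ℝ) ≤ ((H : ℝ) + 1) ^ (m + 1) := by
    rw [hcard]; exact_mod_cast ex_cnt_le hw H
  have hsumW : ∀ (a : Fin m → ℕ) (y : ℝ), (∑ i, (a i : ℝ) * w i.succ) ≤ y →
      ((∑ i, a i : ℕ) : ℝ) ≤ y / W := by
    intro a y h
    rw [le_div_iff₀ hW0]
    refine le_trans ?_ h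
    push_cast
    rw [Finset.sum_mul]
    exact Finset.sum_le_sum fun i _ => mul_le_mul_of_nonneg_left (hWw i) (Nat.cast_nonneg _)
  have hγ : ∀ γ : Λ, ((γ.1 0 : ℝ) * w 0 ≤ H) ∧ (∑ i : Fin m, (γ.1 i.succ : ℝ) * w i.succ) ≤ H := by
    intro γ
    have h1 := Nat.lt_succ_iff.1 (ex_mem_low.1 (hΛ γ))
    constructor
    · exact_mod_cast (Nat.le_add_right _ _).trans h1
    · exact_mod_cast (Nat.le_add_left _ _).trans h1
  have hγH : ∀ (γ : Λ) (i : Fin m), γ.1 i.succ ≤ H := by
    intro γ i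
    have h1 := Nat.lt_succ_iff.1 (ex_mem_low.1 (hΛ γ))
    have h2 := Finset.single_le_sum (f := fun i : Fin m => γ.1 i.succ * w i.succ)
      (fun _ _ => Nat.zero_le _) (mem_univ i)
    have h3 : γ.1 i.succ ≤ γ.1 i.succ * w i.succ := Nat.le_mul_of_pos_right _ (hw _)
    omega
  have hSγ : ∀ γ : Λ, (ex_S T q γ : ℝ) ≤ Real.exp (c * H) := fun γ =>
    (ex_S_le hq hcw γ.1).trans (Real.exp_le_exp.2
      (mul_le_mul_of_nonneg_left (hγ γ).2 (by linarith)))
  have hRγ : ∀ γ : Λ, (2 * (2 * r)) ^ (∑ i : Fin m, γ.1 i.succ) ≤ Real.exp (H / W * lr) := fun γ =>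
    ex_pow_le (by linarith) (hsumW (fun i => γ.1 i.succ) H (hγ γ).2)
  set N : ℕ := ⌊Real.exp (δ * H)⌋₊ with hN
  have hN' : (N : ℝ) ≤ Real.exp (δ * H) := Nat.floor_le (Real.exp_pos _).le
  obtain ⟨n, hn0, hnN, hsmall⟩ := exists_small (ι := Λ) (A := ex_AA w A H)
    (fun a γ => ex_phi T q a γ) (fun a γ => ex_phi_diff T q a γ) (r := r)
    (U := Real.exp (c * H) * (Real.exp (15 * H) * Real.exp (H / W * lr))) (by linarith)
    (by positivity) (by
      intro a γ z hz
      refine (ex_phi_le T q a γ (by linarith) hz).trans ?_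
      refine mul_le_mul (hSγ γ) (mul_le_mul ?_ (hRγ γ) (by positivity) (by positivity))
        (by positivity) (by positivity)
      rw [Real.exp_le_exp]
      have h1 : z.re ≤ 15 * w 0 := by
        have h2 : (K : ℝ) ≤ w 0 := by exact_mod_cast hK
        have h3 := Real.pi_lt_d2
        have h4 := (Complex.re_le_norm z).trans hz
        have h5 : Real.pi * K ≤ 3.15 * w 0 := mul_le_mul h3.le h2 hK0 (by norm_num)
        rw [hr] at h4
        linarith
      calc (γ.1 0 : ℝ) * z.re ≤ γ.1 0 * (15 * w 0) := by gcongr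
        _ = 15 * (γ.1 0 * w 0) := by ring
        _ ≤ 15 * H := by have := (hγ γ).1; linarith) (40 * H) N
    (by rw [Fintype.card_coe, hcard]; exact hB)
  refine ⟨H, hH1, ∑ γ : Λ, monomial γ.1 ((n γ : ℂ) * ex_S T q γ), ?_, ?_, ?_⟩
  · obtain ⟨γ₀, hγ₀⟩ := Function.ne_iff.1 hn0
    intro h0
    have := congrArg (coeff γ₀.1) h0
    rw [coeff_sum, Finset.sum_eq_single γ₀, coeff_monomial, if_pos rfl, coeff_zero] at this
    · refine mul_ne_zero ?_ ?_ this
      · exact_mod_cast hγ₀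
      · exact_mod_cast (ex_S_pos T hq _).ne'
    · intro γ _ h
      rw [coeff_monomial, if_neg fun h' => h (Subtype.ext h')]
    · intro h; exact absurd (mem_univ _) h
  · exact Submodule.sum_mem _ fun γ _ => (monomial_mem_restrictSupport ℂ).2 (Or.inl (hΛ γ))
  intro j hj
  rw [mem_Ilow]
  intro μ hμ
  have hμ1 : (μ 0 : ℝ) * v 0 + ∑ i : Fin m, (μ i.succ : ℝ) * v i.succ < lam * H := by
    have := Nat.lt_ceil.1 (ex_mem_low.1 hμ)
    exact_mod_cast this
  set wμ : ℝ := ∑ i : Fin m, (μ i.succ : ℝ) * w i.succ with hwμ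
  have hvμ : 0 ≤ ∑ i : Fin m, (μ i.succ : ℝ) * v i.succ :=
    Finset.sum_nonneg fun _ _ => by positivity
  have hμ0 : (0 : ℝ) ≤ (μ 0 : ℝ) * v 0 := by positivity
  have hwμ1 : wμ ≤ θ * lam * H := by
    calc wμ ≤ θ * ∑ i : Fin m, (μ i.succ : ℝ) * v i.succ := by
          rw [Finset.mul_sum]
          refine Finset.sum_le_sum fun i _ => ?_
          rw [mul_left_comm]
          exact mul_le_mul_of_nonneg_left (hwv i) (Nat.cast_nonneg _)
      _ ≤ θ * (lam * H) := by gcongr; linarith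
      _ = _ := by ring
  have hwμ2 : wμ ≤ H := hwμ1.trans (mul_le_of_le_one_left hH0 hθl)
  have hLμ : L * μ 0 ≤ lam * L / v 0 * H := by
    rw [div_mul_eq_mul_div, le_div_iff₀ (by linarith)]
    nlinarith
  let Q : Polynomial ℂ := ∑ γ : Λ, Polynomial.C ((n γ : ℂ) * ex_S T q γ) * Psi T (ctr p q j) γ μ
  have hQ : coeff μ (phi T (ctr p q j) (∑ γ : Λ, monomial γ.1 ((n γ : ℂ) * ex_S T q γ)))
      = Q.coeff (μ 0) := by
    rw [map_sum, coeff_sum, Polynomial.finsetSum_coeff]
    refine Finset.sum_congr rfl fun γ _ => ?_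
    rw [Polynomial.coeff_C_mul, ← coeff_phi_monomial T (by simp [ctr]), ← smul_eq_mul (_ * _ : ℂ),
      ← coeff_smul, ← map_smul, smul_monomial, smul_eq_mul, mul_one]
  rw [hQ]
  obtain ⟨G, hG⟩ : ∃ G : GaussianInt, Q.coeff (μ 0) = ex_S T q μ * (G : ℂ) := by
    choose gg hgg using fun γ : Λ => Psi_integral T p q hq j γ μ (μ 0)
    refine ⟨∑ γ : Λ, (n γ : GaussianInt) * gg γ, ?_⟩
    rw [Polynomial.finsetSum_coeff, map_sum, Finset.mul_sum]
    refine Finset.sum_congr rfl fun γ _ => ?_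
    rw [Polynomial.coeff_C_mul, mul_assoc, map_mul, map_intCast, mul_left_comm (ex_S T q μ : ℂ)]
    congr 1
    simp only [ex_S, Nat.cast_prod, Nat.cast_pow]
    exact hgg γ
  by_contra hne
  have hlow : (ex_S T q μ : ℝ) ≤ ‖Q.coeff (μ 0)‖ := by
    have hG0 : G ≠ 0 := by rintro rfl; simp [hG] at hne
    rw [hG, norm_mul, Complex.norm_natCast]
    exact le_mul_of_one_le_right (Nat.cast_nonneg _) (ex_gauss hG0)
  set b₁ : ℝ := 10 * ((H : ℝ) + 1) ^ (m + 1) *
    Real.exp ((lE / W + c + 15 + lr / W + δ - 27) * H) with hb₁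
  set b₂ : ℝ := ((H : ℝ) + 1) ^ (m + 1) *
    Real.exp ((lE / W + c + 1 / w 0 + lr / W + δ - ν * A) * H + ν * wμ) with hb₂
  have hb₁0 : 0 ≤ b₁ := by positivity
  have hb₂0 : 0 ≤ b₂ := by positivity
  have hup := norm_coeff_le Q (ρ := Real.exp (-L)) (M := ((H : ℝ) + 1) ^ m * (b₁ + b₂))
    (Real.exp_pos _) (by
    intro t ht
    have ht2 : ‖t‖ ≤ 1 / 2 := by
      rw [ht]
      have h1 : Real.exp (-L) ≤ Real.exp (-1) := Real.exp_le_exp.2 (by linarith)
      have h2 := Real.exp_neg_one_lt_d9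
      linarith
    have h1t : 1 + t ≠ 0 := by
      intro h
      have : t = -1 := by linear_combination h
      rw [this] at ht2; norm_num at ht2
    set z : ℂ := j * (2 * Real.pi * Complex.I) + Complex.log (1 + t) with hz
    have hlog : ‖Complex.log (1 + t)‖ ≤ 1 := by
      have := Complex.norm_log_one_add_half_le_self ht2
      linarith
    have hez : Complex.exp z = 1 + t := by
      rw [hz, Complex.exp_add, Complex.exp_nat_mul_two_pi_mul_I, one_mul, Complex.exp_log h1t]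
    have hzr : ‖z‖ ≤ r := by
      refine (norm_add_le _ _).trans ?_
      have hj' : (j : ℝ) ≤ K := by exact_mod_cast hj.le
      have : ‖(j : ℂ) * (2 * Real.pi * Complex.I)‖ = 2 * Real.pi * j := by
        simp [abs_of_pos hpi]; ring
      rw [this, hr]
      have : 2 * Real.pi * j ≤ 2 * Real.pi * K := by gcongr
      linarith
    have hzre : z.re ≤ 1 := by
      have : z.re = (Complex.log (1 + t)).re := by simp [hz]
      rw [this]; exact (Complex.re_le_norm _).trans hlog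
    let ε : Fin m → ℂ := fun i => ctr p q j i.succ + (logP ℂ (T i.succ)).eval t - z
    have hε : ∀ i, ‖ε i‖ ≤ E * Real.exp (-(ν * w i.succ)) := fun i =>
      ex_eps hν0 hw hq happ hq2 hT1 hj ht ht2 i
    have hε' : ∀ i, ‖ε i‖ ≤ E := fun i => (hε i).trans (mul_le_of_le_one_right (by linarith)
      (Real.exp_le_one_iff.2 (neg_nonpos.2 (by positivity))))
    have hev : Q.eval t = ∑ a ∈ Fintype.piFinset fun _ : Fin m => range (H + 1),
        (∏ i : Fin m, ((a i).choose (μ i.succ) : ℂ) * ε i ^ (a i - μ i.succ)) *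
          ∑ γ : Λ, (n γ : ℂ) * ex_phi T q a γ z := by
      simp only [Q, Polynomial.eval_finsetSum, Polynomial.eval_mul, Polynomial.eval_C,
        Finset.mul_sum]
      rw [Finset.sum_comm]
      refine Finset.sum_congr rfl fun γ _ => ?_
      rw [Psi_eval T _ γ.1 μ H (hγH γ) t z ε hez (fun i => by simp [ε]), Finset.mul_sum]
      refine Finset.sum_congr rfl fun a _ => ?_
      rw [ex_phi]; ring
    rw [hev]
    refine (norm_sum_le _ _).trans ((Finset.sum_le_card_nsmul _ _ (b₁ + b₂) fun a ha => ?_).trans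
      (le_of_eq ?_))
    swap
    · rw [Fintype.card_piFinset]; simp [mul_add]
    by_cases haA : a ∈ ex_AA w A H
    · refine le_trans ?_ (le_add_of_nonneg_right hb₂0)
      have h1 := ex_prod_eps_le' a (fun i => μ i.succ) ε hE1 hε'
      have h2 : (2 * E) ^ (∑ i, a i) ≤ Real.exp (H / W * lE) :=
        ex_pow_le (by linarith) (hsumW a H ((ex_mem_AA.1 haA).2.le.trans
          (mul_le_of_le_one_left hH0 hA)))
      have h3 := hsmall ⟨a, haA⟩ z hzr
      have h4 : Real.exp (27 * H) ≤ 2 ^ (40 * H) := by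
        rw [pow_mul, mul_comm (27 : ℝ), Real.exp_nat_mul]
        refine pow_le_pow_left₀ (Real.exp_pos _).le ?_ _
        rw [← Real.le_log_iff_exp_le (by positivity), Real.log_pow]
        have := Real.log_two_gt_d9
        push_cast; linarith
      rw [norm_mul]
      calc _ ≤ Real.exp (H / W * lE) * (10 * ((H : ℝ) + 1) ^ (m + 1) *
            (Real.exp (c * H) * (Real.exp (15 * H) * Real.exp (H / W * lr))) * Real.exp (δ * H)
              / Real.exp (27 * H)) := by
            refine mul_le_mul (h1.trans h2) (h3.trans ?_) (norm_nonneg _) (by positivity)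
            gcongr
        _ = b₁ := by
            rw [hb₁, show (lE / W + c + 15 + lr / W + δ - 27) * H = H / W * lE + (c * H
              + (15 * H + H / W * lr) + δ * H - 27 * H) by ring]
            simp only [Real.exp_add, Real.exp_sub]
            ring
    · refine le_trans ?_ (le_add_of_nonneg_left hb₁0)
      have hAa : A * H ≤ ∑ i, (a i : ℝ) * w i.succ := by
        by_contra h
        exact haA (ex_mem_AA.2 ⟨ha, not_le.1 h⟩)
      rw [Finset.mul_sum]
      refine (norm_sum_le _ _).trans ((Finset.sum_le_card_nsmul _ _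
        (Real.exp ((lE / W + c + 1 / w 0 + lr / W + δ - ν * A) * H + ν * wμ)) fun γ _ => ?_).trans ?_)
      swap
      · rw [card_univ, nsmul_eq_mul, hb₂]; gcongr
      by_cases hle : ∀ i, a i ≤ γ.1 i.succ
      swap
      · rw [ex_phi_zero T q hle]; simp; positivity
      have h1 := ex_prod_eps_le a (fun i => μ i.succ) ε (fun i => (w i.succ : ℝ)) hE1 hε
      have h2 : (2 * E) ^ (∑ i, a i) ≤ Real.exp (H / W * lE) := by
        refine ex_pow_le (by linarith) (hsumW a H (le_trans ?_ (hγ γ).2))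
        refine Finset.sum_le_sum fun i _ => ?_
        have : (a i : ℝ) ≤ γ.1 i.succ := by exact_mod_cast hle i
        gcongr
      have h3 : Real.exp (ν * wμ - ν * ∑ i, (a i : ℝ) * w i.succ) ≤
          Real.exp (ν * wμ - ν * (A * H)) := by gcongr
      have h4 : ‖(n γ : ℂ)‖ ≤ Real.exp (δ * H) := by
        rw [Complex.norm_intCast]
        refine le_trans ?_ hN'
        exact_mod_cast hnN γ
      have h5 := ex_phi_le T q a γ (z := z) (R := 2 * r) (by linarith) (by linarith)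
      have h6 : Real.exp (γ.1 0 * z.re) ≤ Real.exp (H / w 0) := by
        rw [Real.exp_le_exp, le_div_iff₀ (by linarith)]
        refine le_trans ?_ (hγ γ).1
        gcongr
        exact mul_le_of_le_one_right (Nat.cast_nonneg _) hzre
      rw [norm_mul, norm_mul]
      calc _ ≤ (Real.exp (H / W * lE) * Real.exp (ν * wμ - ν * (A * H))) * (Real.exp (δ * H) *
            (Real.exp (c * H) * (Real.exp (H / w 0) * Real.exp (H / W * lr)))) := by
            refine mul_le_mul (h1.trans (mul_le_mul h2 h3 (by positivity) (by positivity)))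
              (mul_le_mul h4 (h5.trans ?_) (norm_nonneg _) (by positivity)) (by positivity)
              (by positivity)
            exact mul_le_mul (hSγ γ) (mul_le_mul h6 (hRγ γ) (by positivity) (by positivity))
              (by positivity) (by positivity)
        _ = _ := by
            simp only [← Real.exp_add]
            congr 1; ring) (μ 0)
  have hρ : ((H : ℝ) + 1) ^ m * (b₁ + b₂) / Real.exp (-L) ^ μ 0 ≤
      ((H : ℝ) + 1) ^ m * (b₁ + b₂) * Real.exp (lam * L / v 0 * H) := by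
    rw [← Real.exp_nat_mul, div_eq_mul_inv, ← Real.exp_neg]
    gcongr
    linarith
  have hS1 : (1 : ℝ) ≤ ex_S T q μ := by exact_mod_cast ex_S_pos T hq μ
  have hS2 : Real.exp (wμ - a₀ / W * H) ≤ ex_S T q μ := by
    refine le_trans (Real.exp_le_exp.2 ?_) (ex_le_S (w := w) (T := T) hq hq2 μ)
    have := hsumW (fun i => μ i.succ) H hwμ2
    push_cast at this
    have h2 : a₀ * ∑ i : Fin m, (μ i.succ : ℝ) ≤ a₀ * (H / W) := by gcongr
    have h3 : a₀ * (H / W) = a₀ / W * H := by ring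
    linarith
  have p1 : ((H : ℝ) + 1) ^ m * b₁ * Real.exp (lam * L / v 0 * H) < 1 / 2 := by
    refine lt_of_le_of_lt ?_ hE1'
    rw [hb₁, pow_add _ m (m + 1)]
    have : Real.exp ((lE / W + c + 15 + lr / W + δ - 27) * H) * Real.exp (lam * L / v 0 * H)
        ≤ Real.exp (-(9 * H)) := by
      rw [← Real.exp_add, Real.exp_le_exp, ← add_mul, ← neg_mul]
      refine mul_le_mul_of_nonneg_right ?_ hH0
      linarith
    calc _ = 10 * (((H : ℝ) + 1) ^ m * ((H : ℝ) + 1) ^ (m + 1)) *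
          (Real.exp ((lE / W + c + 15 + lr / W + δ - 27) * H) * Real.exp (lam * L / v 0 * H)) := by
          ring
      _ ≤ _ := by gcongr
  have p2 : ((H : ℝ) + 1) ^ m * b₂ * Real.exp (lam * L / v 0 * H) ≤
      1 / 2 * Real.exp (wμ - a₀ / W * H) := by
    have : Real.exp ((lE / W + c + 1 / w 0 + lr / W + δ - ν * A) * H + ν * wμ) *
        Real.exp (lam * L / v 0 * H) ≤ Real.exp (-(g * H)) * Real.exp (wμ - a₀ / W * H) := by
      rw [← Real.exp_add, ← Real.exp_add, Real.exp_le_exp, hg, n7]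
      have : (ν - 1) * wμ ≤ (ν - 1) * (θ * lam * H) :=
        mul_le_mul_of_nonneg_left hwμ1 (by linarith)
      nlinarith
    calc _ = (((H : ℝ) + 1) ^ m * ((H : ℝ) + 1) ^ (m + 1)) *
          (Real.exp ((lE / W + c + 1 / w 0 + lr / W + δ - ν * A) * H + ν * wμ) *
            Real.exp (lam * L / v 0 * H)) := by rw [hb₂]; ring
      _ ≤ (((H : ℝ) + 1) ^ m * ((H : ℝ) + 1) ^ (m + 1)) *
          (Real.exp (-(g * H)) * Real.exp (wμ - a₀ / W * H)) := by gcongr
      _ = (1 * ((H : ℝ) + 1) ^ (m + (m + 1)) * Real.exp (-(g * H))) *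
          Real.exp (wμ - a₀ / W * H) := by rw [pow_add _ m (m + 1)]; ring
      _ ≤ _ := by gcongr
  have := hlow.trans (hup.trans hρ)
  rw [mul_add, add_mul] at this
  linarith

end Crest.Agent.R011
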