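import Crest.Agent.R011.Local

set_option autoImplicit false
set_option linter.unusedSectionVars false

namespace Crest.Agent.R011

open MvPolynomial Finset Filter Topology
open scoped ENNReal NNReal

variable {m : ℕ} {κ : Type} [Field κ] [Algebra ℂ κ] {B : Finset (Fin (m + 1))}
  {v T : Fin (m + 1) → ℕ} {ξ : Fin (m + 1) → κ}

theorem ord_sum_apply {R A ι : Type} [CommRing R] [CommRing A] [Algebra R A] (s : Finset ι)
    (D : ι → Derivation R A A) (a : A) : (∑ i ∈ s, D i) a = ∑ i ∈ s, D i a := by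
  classical
  induction s using Finset.induction_on with
  | empty => simp
  | insert i s hi ih => rw [sum_insert hi, sum_insert hi, Derivation.add_apply, ih]

theorem ord_Dop_zero (g : Rg m ℂ) :
    Dop 0 g = X 0 * pderiv 0 g + ∑ i : Fin m, pderiv i.succ g := by
  rw [Dop, if_pos rfl, Derivation.add_apply, Derivation.smul_apply, ord_sum_apply, smul_eq_mul]

theorem ord_Dop_ne {b : Fin (m + 1)} (hb : b ≠ 0) (g : Rg m ℂ) : Dop b g = pderiv b g := by
  rw [Dop, if_neg hb]

/-- The invariant derivations in local coordinates. -/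
noncomputable def ordE (κ : Type) [Field κ] (T : Fin (m + 1) → ℕ) (b : Fin (m + 1)) :
    Derivation κ (Rg m κ) (Rg m κ) :=
  if b = 0 then (1 + X 0 : Rg m κ) • pderiv 0 +
    ∑ i : Fin m, ((-X 0 : Rg m κ) ^ T i.succ) • pderiv i.succ else pderiv b

theorem ordE_zero (g : Rg m κ) : ordE κ T 0 g = (1 + X 0) * pderiv 0 g +
    ∑ i : Fin m, (-X 0) ^ T i.succ * pderiv i.succ g := by
  rw [ordE, if_pos rfl, Derivation.add_apply, Derivation.smul_apply, ord_sum_apply, smul_eq_mul]
  rfl

theorem ordE_ne {b : Fin (m + 1)} (hb : b ≠ 0) (g : Rg m κ) : ordE κ T b g = pderiv b g := by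
  rw [ordE, if_neg hb]

theorem ord_charZero (κ : Type) [Field κ] [Algebra ℂ κ] : CharZero κ :=
  charZero_of_injective_algebraMap (algebraMap ℂ κ).injective

theorem ord_logP_deriv (κ : Type) [Field κ] [CharZero κ] (t : ℕ) :
    (1 + Polynomial.X) * Polynomial.derivative (logP κ t) = 1 - (-Polynomial.X) ^ t := by
  induction t with
  | zero => simp [logP]
  | succ t ih =>
    have e : logP κ (t + 1) = logP κ t +
        Polynomial.monomial (t + 1) ((-1) ^ (t + 1 + 1) / ((t + 1 : ℕ) : κ)) := by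
      rw [logP, sum_range_succ]; rfl
    have h0 : ((t + 1 : ℕ) : κ) ≠ 0 := Nat.cast_ne_zero.2 (Nat.succ_ne_zero t)
    rw [e, Polynomial.derivative_add, mul_add, ih, Polynomial.derivative_monomial,
      div_mul_cancel₀ _ h0, ← Polynomial.C_mul_X_pow_eq_monomial, neg_pow (Polynomial.X : Polynomial κ) t,
      neg_pow (Polynomial.X : Polynomial κ) (t + 1)]
    simp only [map_pow, map_neg, map_one, Nat.add_sub_cancel]
    ring

theorem ord_phi_X_zero : phi T ξ (X 0) = C (ξ 0) * (1 + X 0) := by simp [phi]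

theorem ord_phi_X_ne {b : Fin (m + 1)} (hb : b ≠ 0) :
    phi T ξ (X b) = C (ξ b) + Polynomial.aeval (X 0 : Rg m κ) (logP κ (T b)) + X b := by
  simp [phi, hb]

theorem ord_phi_Dop (b : Fin (m + 1)) (f : Rg m ℂ) :
    phi T ξ (Dop b f) = ordE κ T b (phi T ξ f) := by
  have := ord_charZero κ
  have hX : ∀ j, phi T ξ (Dop b (X j)) = ordE κ T b (phi T ξ (X j)) := by
    intro j
    by_cases hb : b = 0
    · subst hb
      rw [ord_Dop_zero, ordE_zero]
      rcases Fin.eq_zero_or_eq_succ j with rfl | ⟨i, rfl⟩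
      · simp [ord_phi_X_zero, pderiv_X, mul_comm]
      · have h1 := congrArg (Polynomial.aeval (X 0 : Rg m κ)) (ord_logP_deriv κ (T i.succ))
        simp only [map_mul, map_add, map_one, Polynomial.aeval_X, map_sub, map_pow, map_neg] at h1
        simp [ord_phi_X_ne (Fin.succ_ne_zero i), pderiv_X, Derivation.map_aeval, Pi.single_apply,
          h1, (Fin.succ_ne_zero _).symm]
    · rw [ord_Dop_ne hb, ordE_ne hb]
      by_cases hj : j = 0
      · subst hj
        simp [ord_phi_X_zero, pderiv_X, Ne.symm hb]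
      · simp [ord_phi_X_ne hj, pderiv_X, Derivation.map_aeval, Pi.single_apply, Ne.symm hb]
  induction f using MvPolynomial.induction_on with
  | C a =>
    rw [derivation_C, map_zero, ← algebraMap_eq, AlgHom.commutes, MvPolynomial.algebraMap_apply,
      derivation_C]
  | add p q hp hq => simp only [map_add, hp, hq]
  | mul_X p j hp =>
    simp only [Derivation.leibniz, smul_eq_mul, map_add, map_mul, hp, hX]

theorem ord_pderiv_mem {g : Rg m κ} {n : ℕ} (hg : g ∈ Ilow κ univ v n) (b : Fin (m + 1)) :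
    pderiv b g ∈ Ilow κ univ v (n - v b) := by
  rw [mem_Ilow] at hg ⊢
  intro γ hγ
  rw [coeff_pderiv, hg _ ⟨subset_univ _, ?_⟩, zero_mul]
  have := hγ.2
  rw [map_add, Finsupp.weight_single, one_smul]
  omega

theorem ord_pow_mem {g : Rg m κ} {a : ℕ} (hg : g ∈ Ilow κ B v a) (k : ℕ) :
    g ^ k ∈ Ilow κ B v (k * a) := by
  induction k with
  | zero => simp [Ilow_zero]
  | succ k ih => rw [pow_succ, add_mul, one_mul]; exact mul_mem_Ilow ih hg

theorem ord_tail_mem (hT : GoodT v T) {g : Rg m κ} {n : ℕ}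
    (hg : ∀ i : Fin m, pderiv i.succ g ∈ Ilow κ univ v (n - v i.succ)) :
    ∑ i : Fin m, (-X 0) ^ T i.succ * pderiv i.succ g ∈ Ilow κ univ v (n - v 0) := by
  refine Ideal.sum_mem _ fun i _ => ?_
  refine Ilow_anti ?_ (mul_mem_Ilow (ord_pow_mem (neg_mem (X_mem_Ilow 0)) _) (hg i))
  have := (hT i.succ).2
  omega

theorem ordE_mem (hT : GoodT v T) {g : Rg m κ} {n : ℕ} (hg : g ∈ Ilow κ univ v n)
    (b : Fin (m + 1)) : ordE κ T b g ∈ Ilow κ univ v (n - v b) := by
  by_cases hb : b = 0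
  · subst hb
    rw [ordE_zero]
    exact add_mem (Ideal.mul_mem_left _ _ (ord_pderiv_mem hg 0))
      (ord_tail_mem hT fun i => ord_pderiv_mem hg _)
  · rw [ordE_ne hb]
    exact ord_pderiv_mem hg b

theorem ord_cancel (hv : ∀ b, 1 ≤ v b) {g : Rg m κ} {n : ℕ}
    (hg : (1 + X 0) * g ∈ Ilow κ B v n) : g ∈ Ilow κ B v n := by
  have h1 : (-X 0 : Rg m κ) ^ n ∈ Ilow κ B v n :=
    Ilow_anti (Nat.le_mul_of_pos_right _ (hv 0)) (ord_pow_mem (neg_mem (X_mem_Ilow 0)) n)
  have h2 := geom_sum_mul_neg (-X 0 : Rg m κ) n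
  have h3 : g = (∑ i ∈ range n, (-X 0 : Rg m κ) ^ i) * ((1 + X 0) * g) + (-X 0) ^ n * g := by
    linear_combination (-g) * h2
  rw [h3]
  exact add_mem (Ideal.mul_mem_left _ _ hg) (Ideal.mul_mem_right _ _ h1)

theorem ord_constantCoeff_ordE (hT : GoodT v T) (b : Fin (m + 1)) (g : Rg m κ) :
    constantCoeff (ordE κ T b g) = coeff (Finsupp.single b 1) g := by
  have h1 : ∀ b : Fin (m + 1), constantCoeff (pderiv b g) = coeff (Finsupp.single b 1) g := by
    intro b
    rw [constantCoeff_eq, coeff_pderiv]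
    simp
  by_cases hb : b = 0
  · subst hb
    have h2 : ∀ i : Fin m, T i.succ ≠ 0 := fun i => by have := (hT i.succ).1; omega
    simp [ordE_zero, h1, h2]
  · rw [ordE_ne hb, h1]

/-- A derivation lowers the local order by at most its weight. -/
theorem phi_Dw_mem (hT : GoodT v T) {f : Rg m ℂ} {n : ℕ} (hf : phi T ξ f ∈ Ilow κ univ v n)
    (l : List (Fin (m + 1))) : phi T ξ (Dw l f) ∈ Ilow κ univ v (n - cost v l) := by
  induction l with
  | nil => simpa [Dw, cost] using hf
  | cons b l ih =>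
    have e : n - cost v (b :: l) = n - cost v l - v b := by
      simp only [cost, List.map_cons, List.sum_cons]; omega
    change phi T ξ (Dop b (Dw l f)) ∈ _
    rw [ord_phi_Dop, e]
    exact ordE_mem hT ih b

/-- Vanishing of all cheap derivatives gives the local order. -/
theorem phi_mem_of_Dw (hv : ∀ b, 1 ≤ v b) (hT : GoodT v T) {f : Rg m ℂ} {n : ℕ}
    (h : ∀ l, cost v l < n → aeval ξ (Dw l f) = 0) : phi T ξ f ∈ Ilow κ univ v n := by
  have := ord_charZero κ
  induction n using Nat.strong_induction_on generalizing f with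
  | _ n ih =>
  rcases Nat.eq_zero_or_pos n with rfl | hn
  · simp [Ilow_zero]
  have h1 : ∀ b, ordE κ T b (phi T ξ f) ∈ Ilow κ univ v (n - v b) := fun b => by
    rw [← ord_phi_Dop]
    refine ih _ (by have := hv b; omega) fun l hl => ?_
    have := h (l ++ [b]) (by
      simp only [cost, List.map_append, List.sum_append, List.map_cons, List.map_nil,
        List.sum_cons, List.sum_nil] at hl ⊢
      omega)
    simpa [Dw] using this
  have h2 : ∀ i : Fin m, pderiv i.succ (phi T ξ f) ∈ Ilow κ univ v (n - v i.succ) := fun i => by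
    rw [← ordE_ne (T := T) (Fin.succ_ne_zero i)]
    exact h1 _
  have h3 : ∀ b, pderiv b (phi T ξ f) ∈ Ilow κ univ v (n - v b) := fun b => by
    rcases Fin.eq_zero_or_eq_succ b with rfl | ⟨i, rfl⟩
    · refine ord_cancel hv ?_
      have h4 := h1 0
      rw [ordE_zero] at h4
      exact (Ideal.add_mem_iff_left _ (ord_tail_mem hT h2)).1 h4
    · exact h2 i
  rw [mem_Ilow]
  intro γ hγ
  by_cases h0 : γ = 0
  · subst h0
    rw [← constantCoeff_eq, constantCoeff_phi]
    simpa [Dw] using h [] (by simpa [cost] using hn)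
  · obtain ⟨b, hb⟩ : ∃ b, γ b ≠ 0 := by
      by_contra hc
      push Not at hc
      exact h0 (Finsupp.ext hc)
    obtain ⟨δ, rfl⟩ : ∃ δ, γ = δ + Finsupp.single b 1 :=
      ⟨γ - Finsupp.single b 1, (Finsupp.sub_add_single_one_cancel hb).symm⟩
    have h5 := mem_Ilow.1 (h3 b) δ ⟨subset_univ _, by
      have := hγ.2
      rw [map_add, Finsupp.weight_single, one_smul] at this
      omega⟩
    rw [coeff_pderiv] at h5
    exact (mul_eq_zero.1 h5).resolve_right (Nat.cast_add_one_ne_zero _)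

/-- If the differentials of `J` fill the `B`-directions, the colength is at most one. -/
theorem ell_le_one (hv : ∀ b, 1 ≤ v b) (hT : GoodT v T) {J : Ideal (Rg m ℂ)}
    (hJ : ∀ g ∈ J, aeval ξ g = 0) (hB : Surj (conorm ξ J) B) (n : ℕ) : ell T ξ B v J n ≤ 1 := by
  classical
  set a := J.map (phi T ξ) ⊔ Ilow κ B v n with ha
  have h1 : ∀ y ∈ conorm ξ J, ∃ G ∈ J.map (phi T ξ), constantCoeff G = 0 ∧
      ∀ b, coeff (Finsupp.single b 1) G = y b := by
    intro y hy
    induction hy using Submodule.span_induction with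
    | mem y hy =>
      obtain ⟨g, hg, rfl⟩ := hy
      exact ⟨phi T ξ g, Ideal.mem_map_of_mem _ hg, by rw [constantCoeff_phi, hJ g hg], fun b => by
        rw [← ord_constantCoeff_ordE hT, ← ord_phi_Dop, constantCoeff_phi]⟩
    | zero => exact ⟨0, zero_mem _, by simp, by simp⟩
    | add x y _ _ hx hy =>
      obtain ⟨G, hG, h1, h2⟩ := hx
      obtain ⟨G', hG', h1', h2'⟩ := hy
      exact ⟨G + G', add_mem hG hG', by simp [h1, h1'], fun b => by simp [h2, h2']⟩
    | smul c x _ hx =>
      obtain ⟨G, hG, h1, h2⟩ := hx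
      exact ⟨C c * G, Ideal.mul_mem_left _ _ hG, by simp [h1], fun b => by simp [h2]⟩
  have h2 : ∀ b ∉ B, (X b : Rg m κ) ∈ a := fun b hb => by
    refine Ideal.mem_sup_right (mem_Ilow.2 fun γ hγ => ?_)
    rw [coeff_X, if_neg]
    rintro rfl
    exact hb (hγ.1 (by simp))
  have h3 : idealOfVars (Fin (m + 1)) κ ≤ a ⊔ idealOfVars (Fin (m + 1)) κ ^ 2 := by
    rw [idealOfVars, Ideal.span_le]
    rintro _ ⟨b, rfl⟩
    by_cases hb : b ∈ B
    swap
    · exact Ideal.mem_sup_left (h2 b hb)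
    obtain ⟨y, hy, hyB⟩ := hB b hb
    obtain ⟨G, hG, hG0, hG1⟩ := h1 y hy
    have h4 : G - ∑ b', C (y b') * X b' ∈ idealOfVars (Fin (m + 1)) κ ^ 2 := by
      rw [mem_pow_idealOfVars_iff']
      intro γ hγ
      by_cases h0 : γ = 0
      · subst h0
        rw [← constantCoeff_eq]
        simp [hG0]
      · have hd : γ.degree = 1 := by
          have : γ.degree ≠ 0 := fun h => h0 ((Finsupp.degree_eq_zero_iff _).1 h)
          omega
        obtain ⟨j, rfl⟩ : γ ∈ Set.range fun j : Fin (m + 1) => Finsupp.single j 1 := by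
          rw [Finsupp.range_single_one]; exact hd
        simp [coeff_sum, coeff_X, hG1, Finsupp.single_left_inj]
    have h5 : (∑ b', C (y b') * X b' : Rg m κ) - X b ∈ a := by
      rw [← Finset.add_sum_erase _ _ (mem_univ b), hyB b hb, if_pos rfl, map_one, one_mul,
        add_sub_cancel_left]
      refine Ideal.sum_mem _ fun b' hb' => ?_
      by_cases hb2 : b' ∈ B
      · rw [hyB b' hb2, if_neg (mem_erase.1 hb').1, map_zero, zero_mul]
        exact zero_mem _
      · exact Ideal.mul_mem_left _ _ (h2 b' hb2)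
    have e : (X b : Rg m κ) = (G - (∑ b', C (y b') * X b' - X b)) - (G - ∑ b', C (y b') * X b') := by
      ring
    change (X b : Rg m κ) ∈ _
    rw [e]
    exact sub_mem (Ideal.mem_sup_left (sub_mem (Ideal.mem_sup_left hG) h5)) (Ideal.mem_sup_right h4)
  have h6 : ∀ k, idealOfVars (Fin (m + 1)) κ ≤ a ⊔ idealOfVars (Fin (m + 1)) κ ^ (k + 1) := by
    intro k
    induction k with
    | zero => simp
    | succ k ih =>
      refine ih.trans (sup_le le_sup_left ?_)
      calc idealOfVars (Fin (m + 1)) κ ^ (k + 1)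
          ≤ idealOfVars (Fin (m + 1)) κ ^ k * (a ⊔ idealOfVars (Fin (m + 1)) κ ^ 2) := by
            rw [pow_succ]; exact Ideal.mul_mono_right h3
        _ ≤ _ := by
            rw [Ideal.mul_sup, ← pow_add]
            exact sup_le_sup_right Ideal.mul_le_right _
  have h7 : idealOfVars (Fin (m + 1)) κ ^ (n + 1) ≤ a := by
    intro g hg
    refine Ideal.mem_sup_right (mem_Ilow.2 fun γ hγ => ?_)
    refine (mem_pow_idealOfVars_iff' _ _).1 hg γ ?_
    have h8 : γ.degree ≤ Finsupp.weight v γ := by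
      rw [Finsupp.degree_eq_sum, Finsupp.weight_eq_sum]
      exact sum_le_sum fun i _ => Nat.le_mul_of_pos_right _ (hv i)
    have := hγ.2
    omega
  have h9 : idealOfVars (Fin (m + 1)) κ ≤ a := (h6 n).trans (sup_le le_rfl h7)
  refine finrank_le_one (1 : Rg m κ ⧸ a) fun w => ?_
  obtain ⟨g, rfl⟩ := Ideal.Quotient.mk_surjective w
  refine ⟨constantCoeff g, ?_⟩
  rw [← Algebra.algebraMap_eq_smul_one, ← Ideal.Quotient.mk_algebraMap, Ideal.Quotient.eq]
  apply h9
  rw [← pow_one (idealOfVars _ _), mem_pow_idealOfVars_iff']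
  intro γ hγ
  obtain rfl : γ = 0 := (Finsupp.degree_eq_zero_iff _).1 (by omega)
  rw [← constantCoeff_eq]
  simp

/-- On `Y = 1` the coordinate `X_i - c_i` has order `v_i`. -/
theorem phi_X_sub_mem {c : Fin (m + 1) → ℂ} (hc : c 0 = 1) {J : Ideal (Rg m ℂ)}
    (hJ : (X 0 - 1 : Rg m ℂ) ∈ J) {i : Fin (m + 1)} (hi : i ≠ 0) :
    phi T c (X i - C (c i)) ∈ J.map (phi T c) ⊔ Ilow ℂ B v (v i) := by
  have h1 : (X 0 : Rg m ℂ) ∈ J.map (phi T c) := by
    have := Ideal.mem_map_of_mem (phi T c) hJ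
    simpa [ord_phi_X_zero, hc] using this
  have h2 : Polynomial.aeval (X 0 : Rg m ℂ) (logP ℂ (T i)) ∈ J.map (phi T c) := by
    rw [logP, map_sum]
    refine Ideal.sum_mem _ fun k _ => ?_
    rw [Polynomial.aeval_monomial]
    rcases k with _ | k
    · simp
    · exact Ideal.mul_mem_left _ _ (Ideal.pow_mem_of_mem _ h1 _ (Nat.succ_pos k))
  have e : phi T c (X i - C (c i)) = Polynomial.aeval (X 0 : Rg m ℂ) (logP ℂ (T i)) + X i := by
    rw [map_sub, ord_phi_X_ne hi, ← algebraMap_eq, AlgHom.commutes]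
    ring
  rw [e]
  exact add_mem (Ideal.mem_sup_left h2) (Ideal.mem_sup_right (X_mem_Ilow i))

/-- At a complex point the maximal ideal has full conormal space. -/
theorem surj_point {c : Fin (m + 1) → ℂ} (hc : c 0 = 1) {J : Ideal (Rg m ℂ)}
    (hJ : ∀ g, aeval c g = 0 → g ∈ J) : Surj (conorm c J) univ := by
  intro b _
  rcases Fin.eq_zero_or_eq_succ b with rfl | ⟨i, rfl⟩
  · refine ⟨_, Submodule.subset_span ⟨X 0 - 1, hJ _ (by simp [hc]), rfl⟩, fun b' _ => ?_⟩
    by_cases hb : b' = 0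
    · subst hb
      simp [ord_Dop_zero, hc, pderiv_X]
    · simp [ord_Dop_ne hb, hb, pderiv_X, Ne.symm hb]
  · refine ⟨_, Submodule.subset_span ⟨X i.succ - C (c i.succ) - (X 0 - 1), hJ _ (by simp [hc]), rfl⟩,
      fun b' _ => ?_⟩
    by_cases hb : b' = 0
    · subst hb
      simp [ord_Dop_zero, hc, pderiv_X, Pi.single_apply, (Fin.succ_ne_zero _).symm]
    · simp [ord_Dop_ne hb, pderiv_X, Pi.single_apply, Ne.symm hb, eq_comm]

end Crest.Agent.R011
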