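import Crest.Agent.R011.Hilb
import Crest.Agent.R011.Order

set_option autoImplicit false

namespace Crest.Agent.R011

open MvPolynomial Finset Filter Topology
open scoped ENNReal NNReal

variable {m : ℕ} {w : Fin (m + 1) → ℕ}

/-- An abstract system of local colengths. -/
structure LocSys (m : ℕ) where
  l : Ideal (Rg m ℂ) → ℕ → ℕ
  Ord : Ideal (Rg m ℂ) → Rg m ℂ → ℕ → Prop
  tame : ∀ J, Tame (l J)
  step : ∀ J g k, Ord J g k → ∀ n, l J n ≤ l (J ⊔ Ideal.span {g}) n + sh k (l (col J g)) n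
  ord0 : ∀ J g, Ord J g 0
  top : ∀ n, l ⊤ n = 0

theorem hilb_tame (hw : ∀ b, 1 ≤ w b) (J : Ideal (Rg m ℂ)) : Tame (hilb w J) :=
  (cnt_succ_tame univ hw).mono fun n => (hilb_anti hw bot_le n).trans (hilb_bot hw n).le

theorem LocSys.ind (S : LocSys m) (hw : ∀ b, 1 ≤ w b) (e e' : ℕ) (c c' : ℝ≥0∞)
    (h : ∀ p : Ideal (Rg m ℂ), p.IsPrime → c * Mu e' (S.l p) ≤ c' * Dl e (hilb w p))
    (J : Ideal (Rg m ℂ)) : c * Mu e' (S.l J) ≤ c' * Dl e (hilb w J) := by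
  induction J using IsNoetherian.induction with
  | hgt J ih =>
    by_cases hJ : Ideal.IsPrime J
    · exact h J hJ
    rcases eq_or_ne J ⊤ with rfl | hne
    · rw [Mu_eq_zero e' S.top, mul_zero]; exact zero_le
    obtain ⟨a, ha, b, hb, hab⟩ := (Ideal.not_isPrime_iff.1 hJ).resolve_left hne
    have h1 : J < J ⊔ Ideal.span {a} := by
      refine lt_of_le_of_ne le_sup_left fun e => ha ?_
      rw [e]; exact Ideal.mem_sup_right (Ideal.mem_span_singleton_self a)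
    have h2 : J < col J a := by
      refine lt_of_le_of_ne (fun x hx => mem_col.2 (Ideal.mul_mem_left J a hx)) fun e => hb ?_
      rw [e]; exact mem_col.2 hab
    obtain ⟨N, -, hN⟩ := exists_Vdeg w a
    have k1 : Mu e' (S.l J) ≤ Mu e' (S.l (J ⊔ Ideal.span {a})) + Mu e' (S.l (col J a)) :=
      Mu_subadd e' fun n => by simpa [sh] using S.step J a 0 (S.ord0 J a) n
    have k2 := Dl_superadd e N (hilb_step hw J hN)
    calc c * Mu e' (S.l J) ≤ c * Mu e' (S.l (J ⊔ Ideal.span {a})) + c * Mu e' (S.l (col J a)) := by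
          rw [← mul_add]; gcongr
      _ ≤ c' * Dl e (hilb w (J ⊔ Ideal.span {a})) + c' * Dl e (hilb w (col J a)) :=
          add_le_add (ih _ h1) (ih _ h2)
      _ ≤ c' * Dl e (hilb w J) := by rw [← mul_add]; gcongr

theorem Dl_cut (hw : ∀ b, 1 ≤ w b) (e : ℕ) {p : Ideal (Rg m ℂ)} (hp : p.IsPrime) {f : Rg m ℂ}
    (hf : f ∉ p) {N : ℕ} (hN : 1 ≤ N) (hfN : f ∈ Vdeg w N) :
    Dl e (hilb w (p ⊔ Ideal.span {f})) ≤ N * Dl (e + 1) (hilb w p) := by
  refine Dl_step e N hN (hilb_tame hw p) fun n => ?_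
  have := hilb_step hw p hfN n
  rwa [col_prime hp hf] at this

theorem LocSys.cut (S : LocSys m) (hw : ∀ b, 1 ≤ w b) (e e' : ℕ) (c c' : ℝ≥0∞)
    (h : ∀ J : Ideal (Rg m ℂ), c * Mu e' (S.l J) ≤ c' * Dl e (hilb w J))
    {p : Ideal (Rg m ℂ)} (hp : p.IsPrime) {f : Rg m ℂ} (hf : f ∉ p) {N k : ℕ} (hN : 1 ≤ N)
    (hfN : f ∈ Vdeg w N) (hk : S.Ord p f k) :
    c * k * Mu (e' + 1) (S.l p) ≤ c' * N * Dl (e + 1) (hilb w p) := by
  have k1 : k * Mu (e' + 1) (S.l p) ≤ Mu e' (S.l (p ⊔ Ideal.span {f})) := by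
    refine Mu_step e' k (S.tame p) fun n => ?_
    have := S.step p f k hk n
    rwa [col_prime hp hf] at this
  calc c * k * Mu (e' + 1) (S.l p) ≤ c * Mu e' (S.l (p ⊔ Ideal.span {f})) := by
        rw [mul_assoc]; gcongr
    _ ≤ c' * Dl e (hilb w (p ⊔ Ideal.span {f})) := h _
    _ ≤ c' * N * Dl (e + 1) (hilb w p) := by
        rw [mul_assoc]; gcongr; exact Dl_cut hw e hp hf hN hfN

theorem Dl_drop (hw : ∀ b, 1 ≤ w b) (e : ℕ) {p q : Ideal (Rg m ℂ)} (hp : p.IsPrime) (h : p < q)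
    (hD : Dl (e + 1) (hilb w p) ≠ ∞) : Dl e (hilb w q) ≠ ∞ := by
  obtain ⟨f, hfq, hfp⟩ := SetLike.exists_of_lt h
  obtain ⟨N, hN, hfN⟩ := exists_Vdeg w f
  have h1 : p ⊔ Ideal.span {f} ≤ q :=
    sup_le h.le ((Ideal.span_singleton_le_iff_mem _).2 hfq)
  refine ne_top_of_le_ne_top ?_ ((Dl_mono e (hilb_anti hw h1)).trans (Dl_cut hw e hp hfp hN hfN))
  exact ENNReal.mul_ne_top (ENNReal.natCast_ne_top N) hD

theorem Dl_bot (hw : ∀ b, 1 ≤ w b) :
    Dl (m + 2) (hilb w ⊥) = (((∏ b, w b : ℕ) : ℝ≥0∞))⁻¹ := by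
  have := Dl_cnt_succ univ hw
  rw [card_univ, Fintype.card_fin] at this
  rw [← this]
  congr 1
  funext n
  exact hilb_bot hw n

/-- The system of one point. -/
noncomputable def ptSys {κ : Type} [Field κ] [Algebra ℂ κ] (T : Fin (m + 1) → ℕ)
    (ξ : Fin (m + 1) → κ) (B : Finset (Fin (m + 1))) {v : Fin (m + 1) → ℕ} (hv : ∀ b, 1 ≤ v b) :
    LocSys m where
  l := ell T ξ B v
  Ord J g k := phi T ξ g ∈ J.map (phi T ξ) ⊔ Ilow κ B v k
  tame J := (cnt_tame B hv).mono (ell_le_cnt hv J)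
  step J _ _ h n := ell_step hv J h n
  ord0 J g := by rw [Ilow_zero]; simp
  top n := ell_eq_zero hv (g := 1) Submodule.mem_top (by simp) n

/-- The system of the `K` centres. -/
noncomputable def ctrSys (T : Fin (m + 1) → ℕ) (c : ℕ → Fin (m + 1) → ℂ) (K : ℕ)
    {v : Fin (m + 1) → ℕ} (hv : ∀ b, 1 ≤ v b) : LocSys m where
  l J n := ∑ j ∈ range K, ell T (c j) univ v J n
  Ord J g k := ∀ j < K, phi T (c j) g ∈ J.map (phi T (c j)) ⊔ Ilow ℂ univ v k
  tame J := ((cnt_tame univ hv).const_mul K).mono fun n => by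
    simpa using sum_le_card_nsmul (range K) _ _ fun j _ => ell_le_cnt (ξ := c j) (T := T) hv J n
  step J g k h n := by
    have : sh k (fun n => ∑ j ∈ range K, ell T (c j) univ v (col J g) n) n =
        ∑ j ∈ range K, sh k (ell T (c j) univ v (col J g)) n := by
      unfold sh; split_ifs <;> simp
    rw [this, ← sum_add_distrib]
    exact sum_le_sum fun j hj => ell_step hv J (h j (mem_range.1 hj)) n
  ord0 J g j _ := by rw [Ilow_zero]; simp
  top n := sum_eq_zero fun j _ => ell_eq_zero hv (g := 1) Submodule.mem_top (by simp) n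

theorem exists_section (hw : ∀ b, 1 ≤ w b) (T : Fin (m + 1) → ℕ) (c : ℕ → Fin (m + 1) → ℂ) (K : ℕ)
    {v : Fin (m + 1) → ℕ} (hv : ∀ b, 1 ≤ v b) (J : Ideal (Rg m ℂ)) (N n : ℕ)
    (h : (ctrSys T c K hv).l J n < hilb w J N) :
    ∃ f ∈ Vdeg w N, f ∉ J ∧ (ctrSys T c K hv).Ord J f n := by
  by_contra hc
  push Not at hc
  haveI := Vdeg_finite hw N
  haveI : ∀ j : Fin K, Module.Finite ℂ (Rg m ℂ ⧸ (J.map (phi T (c j)) ⊔ Ilow ℂ univ v n)) :=
    fun j => finite_quot_Ilow hv _ n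
  let ψ : Vdeg w N →ₗ[ℂ] ((j : Fin K) → Rg m ℂ ⧸ (J.map (phi T (c j)) ⊔ Ilow ℂ univ v n)) :=
    LinearMap.pi fun j => (Ideal.Quotient.mkₐ ℂ _).toLinearMap ∘ₗ (phi T (c j)).toLinearMap ∘ₗ
      (Vdeg w N).subtype
  let π : Vdeg w N →ₗ[ℂ] Rg m ℂ ⧸ J := (Ideal.Quotient.mkₐ ℂ J).toLinearMap ∘ₗ (Vdeg w N).subtype
  have hker : LinearMap.ker ψ ≤ LinearMap.ker π := by
    intro f hf
    by_contra hn
    refine hc f f.2 (fun hJ => hn ?_) fun j hj => ?_
    · exact Ideal.Quotient.eq_zero_iff_mem.2 hJ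
    · exact Ideal.Quotient.eq_zero_iff_mem.1 (congrFun (LinearMap.mem_ker.1 hf) ⟨j, hj⟩)
  have e1 := LinearMap.finrank_range_add_finrank_ker ψ
  have e2 := LinearMap.finrank_range_add_finrank_ker π
  have e3 := Submodule.finrank_mono hker
  have e4 : Module.finrank ℂ (LinearMap.range π) = hilb w J N := by
    unfold hilb
    rw [LinearMap.range_comp, Submodule.range_subtype]
  have e5 : Module.finrank ℂ (LinearMap.range ψ) ≤ (ctrSys T c K hv).l J n := by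
    refine (Submodule.finrank_le _).trans (le_of_eq ?_)
    rw [Module.finrank_pi_fintype]
    exact Fin.sum_univ_eq_sum_range (fun j => ell T (c j) univ v J n) K
  omega

/-- Existence of sections by a dimension count. -/
theorem exists_section' (hw : ∀ b, 1 ≤ w b) (T : Fin (m + 1) → ℕ) (c : ℕ → Fin (m + 1) → ℂ) (K : ℕ)
    {v : Fin (m + 1) → ℕ} (hv : ∀ b, 1 ≤ v b) (J : Ideal (Rg m ℂ)) (e α β : ℕ) (hα : 0 < α)
    (hβ : 0 < β)
    (h : (α : ℝ≥0∞) ^ e * Mu (e + 1) ((ctrSys T c K hv).l J) < (β : ℝ≥0∞) ^ e * Dl (e + 1) (hilb w J)) :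
    ∃ k, 1 ≤ k ∧ ∃ f ∈ Vdeg w (β * k), f ∉ J ∧ (ctrSys T c K hv).Ord J f (α * k) := by
  by_contra hc
  refine absurd h (not_lt.2 (Dl_scale e α β hα hβ (hilb_mono hw J) ?_ fun k hk => ?_))
  · intro a b hab
    exact sum_le_sum (s := range K) fun j _ => ell_mono (ξ := c j) (T := T) (B := univ) hv J hab
  · by_contra hlt
    exact hc ⟨k, hk, exists_section hw T c K hv J _ _ (not_le.1 hlt)⟩

end Crest.Agent.R011
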