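import Crest.Agent.R011.Count

set_option autoImplicit false

namespace Crest.Agent.R011

open MvPolynomial Finset Filter Topology
open scoped ENNReal NNReal

/-- If `f` kills the kernel of the surjection `g`, its range is no bigger than the target of `g`. -/
theorem local_finrank_range_le {κ A V W : Type} [Field κ] [AddCommGroup A] [Module κ A]
    [AddCommGroup V] [Module κ V] [AddCommGroup W] [Module κ W] [Module.Finite κ W]
    (f : A →ₗ[κ] V) (g : A →ₗ[κ] W) (hg : Function.Surjective g) (h : ∀ x, g x = 0 → f x = 0) :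
    Module.finrank κ (LinearMap.range f) ≤ Module.finrank κ W := by
  obtain ⟨s, hs⟩ := g.exists_rightInverse_of_surjective (LinearMap.range_eq_top.2 hg)
  have e : LinearMap.range f = LinearMap.range (f ∘ₗ s) := by
    refine le_antisymm ?_ (LinearMap.range_comp_le_range _ _)
    rintro _ ⟨x, rfl⟩
    refine ⟨g x, ?_⟩
    have h1 : g (s (g x)) = g x := LinearMap.congr_fun hs (g x)
    have h2 := h (s (g x) - x) (by rw [map_sub, h1, sub_self])
    rw [map_sub, sub_eq_zero] at h2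
    exact h2
  rw [e]
  exact LinearMap.finrank_range_le _

variable {m : ℕ} {κ : Type} [Field κ] {B : Finset (Fin (m + 1))} {v : Fin (m + 1) → ℕ}

theorem Ilow_zero : Ilow κ B v 0 = ⊤ := by
  rw [eq_top_iff]
  intro g _
  exact mem_Ilow.2 fun γ hγ => absurd hγ.2 (Nat.not_lt_zero _)

theorem Ilow_anti {a b : ℕ} (h : a ≤ b) : Ilow κ B v b ≤ Ilow κ B v a := by
  intro g hg
  exact mem_Ilow.2 fun γ hγ => mem_Ilow.1 hg γ ⟨hγ.1, lt_of_lt_of_le hγ.2 h⟩

theorem Ilow_univ_le (n : ℕ) : Ilow κ univ v n ≤ Ilow κ B v n := by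
  intro g hg
  exact mem_Ilow.2 fun γ hγ => mem_Ilow.1 hg γ ⟨subset_univ _, hγ.2⟩

theorem mul_mem_Ilow {f g : Rg m κ} {a b : ℕ} (hf : f ∈ Ilow κ B v a) (hg : g ∈ Ilow κ B v b) :
    f * g ∈ Ilow κ B v (a + b) := by
  refine mem_Ilow.2 fun γ hγ => ?_
  rw [coeff_mul]
  refine Finset.sum_eq_zero fun x hx => ?_
  have hx' : x.1 + x.2 = γ := Finset.HasAntidiagonal.mem_antidiagonal.1 hx
  have hw : Finsupp.weight v x.1 + Finsupp.weight v x.2 < a + b := by
    rw [← map_add, hx']; exact hγ.2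
  have s1 : x.1.support ⊆ B := (Finsupp.support_mono (hx' ▸ le_self_add)).trans hγ.1
  have s2 : x.2.support ⊆ B := (Finsupp.support_mono (hx' ▸ le_add_self)).trans hγ.1
  by_cases h1 : Finsupp.weight v x.1 < a
  · rw [mem_Ilow.1 hf x.1 ⟨s1, h1⟩, zero_mul]
  · rw [mem_Ilow.1 hg x.2 ⟨s2, by omega⟩, mul_zero]

theorem X_mem_Ilow (b : Fin (m + 1)) : (X b : Rg m κ) ∈ Ilow κ B v (v b) := by
  refine mem_Ilow.2 fun γ hγ => ?_
  rw [coeff_X]
  split_ifs with h
  · have := hγ.2
    rw [← h, Finsupp.weight_single] at this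
    simp at this
  · rfl

theorem mem_Ilow_one (hv : ∀ b, 1 ≤ v b) {g : Rg m κ} (hg : constantCoeff g = 0) :
    g ∈ Ilow κ B v 1 := by
  refine mem_Ilow.2 fun γ hγ => ?_
  have h0 : γ = 0 := by
    ext b
    have h1 := Finsupp.le_weight v (s := b) (by have := hv b; omega) γ
    have h2 := hγ.2
    simp only [Finsupp.coe_zero, Pi.zero_apply]
    omega
  rw [h0]
  exact hg

/-- The coefficient map onto the low exponents. -/
noncomputable def local_coeffMap (κ : Type) [Field κ] (B : Finset (Fin (m + 1)))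
    (v : Fin (m + 1) → ℕ) (n : ℕ) : Rg m κ →ₗ[κ] (low B v n → κ) :=
  LinearMap.pi fun γ => lcoeff κ γ.1

theorem local_coeffMap_surj (hv : ∀ b, 1 ≤ v b) (n : ℕ) :
    Function.Surjective (local_coeffMap κ B v n) := by
  classical
  intro y
  have := (low_finite B hv n).fintype
  refine ⟨∑ γ : low B v n, monomial γ.1 (y γ), ?_⟩
  funext γ
  simp only [local_coeffMap, LinearMap.pi_apply, lcoeff_apply, coeff_sum, coeff_monomial]
  rw [Finset.sum_eq_single γ]
  · simp
  · intro δ _ hδ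
    rw [if_neg fun h => hδ (Subtype.ext h)]
  · simp

theorem local_coeffMap_eq_zero {n : ℕ} {g : Rg m κ} :
    local_coeffMap κ B v n g = 0 ↔ g ∈ Ilow κ B v n := by
  rw [mem_Ilow]
  constructor
  · intro h γ hγ
    exact congrFun h ⟨γ, hγ⟩
  · intro h
    funext γ
    exact h γ.1 γ.2

/-- The quotient by `Ilow` is the space of low coefficients. -/
noncomputable def local_quotEquiv (hv : ∀ b, 1 ≤ v b) (n : ℕ) :
    (Rg m κ ⧸ Ilow κ B v n) ≃ₗ[κ] (low B v n → κ) :=
  (Submodule.Quotient.restrictScalarsEquiv κ (Ilow κ B v n)).symm ≪≫ₗ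
    Submodule.quotEquivOfEq _ _ (by
      ext g
      rw [LinearMap.mem_ker, local_coeffMap_eq_zero]
      rfl) ≪≫ₗ
    (local_coeffMap κ B v n).quotKerEquivOfSurjective (local_coeffMap_surj hv n)

theorem finrank_quot_Ilow (hv : ∀ b, 1 ≤ v b) (n : ℕ) :
    Module.finrank κ (Rg m κ ⧸ Ilow κ B v n) = cnt B v n := by
  have := (low_finite B hv n).fintype
  rw [(local_quotEquiv hv n).finrank_eq, Module.finrank_fintype_fun_eq_card, cnt,
    ← Nat.card_coe_set_eq, Nat.card_eq_fintype_card]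

theorem local_finite_quot (hv : ∀ b, 1 ≤ v b) (n : ℕ) :
    Module.Finite κ (Rg m κ ⧸ Ilow κ B v n) := by
  have := (low_finite B hv n).fintype
  exact Module.Finite.equiv (local_quotEquiv hv n).symm

theorem local_factor_surj {I I' : Ideal (Rg m κ)} (h : I ≤ I') :
    Function.Surjective (Ideal.Quotient.factorₐ κ h).toLinearMap := by
  intro y
  obtain ⟨x, rfl⟩ := Ideal.Quotient.mk_surjective y
  exact ⟨Ideal.Quotient.mk _ x, rfl⟩

theorem finite_quot_Ilow (hv : ∀ b, 1 ≤ v b) (I : Ideal (Rg m κ)) (n : ℕ) :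
    Module.Finite κ (Rg m κ ⧸ (I ⊔ Ilow κ B v n)) := by
  have := local_finite_quot (κ := κ) (B := B) hv n
  exact Module.Finite.of_surjective _ (local_factor_surj (le_sup_right : _ ≤ I ⊔ Ilow κ B v n))

theorem local_finrank_anti {I I' : Ideal (Rg m κ)} (h : I ≤ I') [Module.Finite κ (Rg m κ ⧸ I)] :
    Module.finrank κ (Rg m κ ⧸ I') ≤ Module.finrank κ (Rg m κ ⧸ I) :=
  LinearMap.finrank_le_finrank_of_surjective (local_factor_surj h)

variable [Algebra ℂ κ] {T : Fin (m + 1) → ℕ} {ξ : Fin (m + 1) → κ}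

omit [Algebra ℂ κ] in
theorem local_constantCoeff_logP (N : ℕ) :
    constantCoeff (Polynomial.aeval (X 0 : Rg m κ) (logP κ N)) = 0 := by
  unfold logP
  rw [map_sum, map_sum]
  refine Finset.sum_eq_zero fun k _ => ?_
  rw [Polynomial.aeval_monomial, map_mul, map_pow, constantCoeff_X]
  rcases k with _ | k
  · simp
  · simp

theorem constantCoeff_phi (f : Rg m ℂ) : constantCoeff (phi T ξ f) = aeval ξ f := by
  induction f using MvPolynomial.induction_on with
  | C a =>
    rw [algHom_C, algHom_C]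
    exact constantCoeff_C _ _
  | add p q hp hq => rw [map_add, map_add, map_add, hp, hq]
  | mul_X p b hp =>
    rw [map_mul, map_mul, map_mul, hp]
    congr 1
    unfold phi
    rw [aeval_X, aeval_X]
    split_ifs with h
    · subst h; simp
    · rw [map_add, map_add, local_constantCoeff_logP]; simp

theorem ell_mono (hv : ∀ b, 1 ≤ v b) (J : Ideal (Rg m ℂ)) : Monotone (ell T ξ B v J) := by
  intro a b hab
  have := finite_quot_Ilow (B := B) hv (J.map (phi T ξ)) b
  exact local_finrank_anti (sup_le_sup_left (Ilow_anti hab) _)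

theorem ell_bot (hv : ∀ b, 1 ≤ v b) (n : ℕ) : ell T ξ B v ⊥ n = cnt B v n := by
  unfold ell
  rw [Ideal.map_bot, bot_sup_eq]
  exact finrank_quot_Ilow hv n

theorem ell_le_cnt (hv : ∀ b, 1 ≤ v b) (J : Ideal (Rg m ℂ)) (n : ℕ) :
    ell T ξ B v J n ≤ cnt B v n := by
  have := local_finite_quot (κ := κ) (B := B) hv n
  rw [← finrank_quot_Ilow (κ := κ) hv n]
  exact local_finrank_anti le_sup_right

theorem ell_step (hv : ∀ b, 1 ≤ v b) (J : Ideal (Rg m ℂ)) {g : Rg m ℂ} {k : ℕ}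
    (hg : phi T ξ g ∈ J.map (phi T ξ) ⊔ Ilow κ B v k) (n : ℕ) :
    ell T ξ B v J n ≤ ell T ξ B v (J ⊔ Ideal.span {g}) n + sh k (ell T ξ B v (col J g)) n := by
  set I₁ : Ideal (Rg m κ) := J.map (phi T ξ) ⊔ Ilow κ B v n with hI₁
  set I₂ : Ideal (Rg m κ) := (J ⊔ Ideal.span {g}).map (phi T ξ) ⊔ Ilow κ B v n with hI₂
  have h12 : I₁ ≤ I₂ := sup_le_sup_right (Ideal.map_mono le_sup_left) _
  have fin1 : Module.Finite κ (Rg m κ ⧸ I₁) := finite_quot_Ilow hv _ n
  let π := (Ideal.Quotient.factorₐ κ h12).toLinearMap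
  let f : Rg m κ →ₗ[κ] Rg m κ ⧸ I₁ :=
    (Ideal.Quotient.mkₐ κ I₁).toLinearMap ∘ₗ LinearMap.mulLeft κ (phi T ξ g)
  have hf : ∀ x, f x = Ideal.Quotient.mk I₁ (phi T ξ g * x) := fun x => rfl
  have hrank := LinearMap.finrank_range_add_finrank_ker π
  rw [LinearMap.range_eq_top.2 (local_factor_surj h12), finrank_top] at hrank
  have hker : LinearMap.ker π ≤ LinearMap.range f := by
    intro y hy
    obtain ⟨x, rfl⟩ := Ideal.Quotient.mk_surjective y
    have hx : x ∈ I₂ := Ideal.Quotient.eq_zero_iff_mem.1 hy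
    have e : I₂ = I₁ ⊔ Ideal.span {phi T ξ g} := by
      rw [hI₂, hI₁, Ideal.map_sup, Ideal.map_span, Set.image_singleton, sup_right_comm]
    rw [e] at hx
    obtain ⟨a, ha, b, hb, rfl⟩ := Submodule.mem_sup.1 hx
    obtain ⟨z, rfl⟩ := Ideal.mem_span_singleton'.1 hb
    refine ⟨z, ?_⟩
    rw [hf, map_add, Ideal.Quotient.eq_zero_iff_mem.2 ha, zero_add, mul_comm]
  have h1 := Submodule.finrank_mono hker
  have h2 : Module.finrank κ (LinearMap.range f) ≤ sh k (ell T ξ B v (col J g)) n := by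
    unfold sh
    split_ifs with hk
    · have := finite_quot_Ilow (B := B) hv ((col J g).map (phi T ξ)) (n - k)
      refine local_finrank_range_le f
        (Ideal.Quotient.mkₐ κ ((col J g).map (phi T ξ) ⊔ Ilow κ B v (n - k))).toLinearMap
        Ideal.Quotient.mk_surjective fun x hx => ?_
      have hx' : x ∈ (col J g).map (phi T ξ) ⊔ Ilow κ B v (n - k) :=
        Ideal.Quotient.eq_zero_iff_mem.1 hx
      rw [hf, Ideal.Quotient.eq_zero_iff_mem, ← mem_col]
      refine (sup_le ?_ ?_ : _ ≤ col I₁ (phi T ξ g)) hx'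
      · rw [Ideal.map_le_iff_le_comap]
        intro y hy
        rw [Ideal.mem_comap, mem_col, ← map_mul]
        exact Ideal.mem_sup_left (Ideal.mem_map_of_mem _ (mem_col.1 hy))
      · intro y hy
        obtain ⟨a, ha, b, hb, hab⟩ := Submodule.mem_sup.1 hg
        rw [mem_col, ← hab, add_mul]
        refine add_mem (Ideal.mem_sup_left (Ideal.mul_mem_right _ _ ha)) (Ideal.mem_sup_right ?_)
        have := mul_mem_Ilow hb hy
        rwa [Nat.add_sub_cancel' hk] at this
    · have hg' : phi T ξ g ∈ I₁ := sup_le_sup_left (Ilow_anti (by omega : n ≤ k)) _ hg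
      have e : f = 0 := by
        refine LinearMap.ext fun x => ?_
        rw [hf, LinearMap.zero_apply, Ideal.Quotient.eq_zero_iff_mem]
        exact Ideal.mul_mem_right _ _ hg'
      rw [e, LinearMap.range_zero, finrank_bot]
  change Module.finrank κ (Rg m κ ⧸ I₁) ≤ Module.finrank κ (Rg m κ ⧸ I₂) + _
  omega

theorem sup_Ilow_eq_top (hv : ∀ b, 1 ≤ v b) {J : Ideal (Rg m ℂ)} {g : Rg m ℂ} (hg : g ∈ J)
    (h : aeval ξ g ≠ 0) (n : ℕ) : J.map (phi T ξ) ⊔ Ilow κ B v n = ⊤ := by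
  set u : Rg m κ := 1 - C (aeval ξ g)⁻¹ * phi T ξ g with hu
  have h1 : u ∈ Ilow κ B v 1 := by
    refine mem_Ilow_one hv ?_
    rw [hu, map_sub, map_mul, constantCoeff_C, constantCoeff_phi, inv_mul_cancel₀ h, map_one,
      sub_self]
  have h2 : ∀ n, u ^ n ∈ Ilow κ B v n := by
    intro n
    induction n with
    | zero => rw [Ilow_zero]; trivial
    | succ n ih => rw [pow_succ]; exact mul_mem_Ilow ih h1
  have h3 : 1 - u ∈ J.map (phi T ξ) := by
    rw [hu, sub_sub_cancel]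
    exact Ideal.mul_mem_left _ _ (Ideal.mem_map_of_mem _ hg)
  have h4 : 1 - u ^ n ∈ J.map (phi T ξ) := by
    rw [← mul_neg_geom_sum]
    exact Ideal.mul_mem_right _ _ h3
  rw [Ideal.eq_top_iff_one, ← sub_add_cancel 1 (u ^ n)]
  exact add_mem (Ideal.mem_sup_left h4) (Ideal.mem_sup_right (h2 n))

theorem ell_eq_zero (hv : ∀ b, 1 ≤ v b) {J : Ideal (Rg m ℂ)} {g : Rg m ℂ} (hg : g ∈ J)
    (h : aeval ξ g ≠ 0) (n : ℕ) : ell T ξ B v J n = 0 := by
  unfold ell
  have : Subsingleton (Rg m κ ⧸ (J.map (phi T ξ) ⊔ Ilow κ B v n)) :=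
    Ideal.Quotient.subsingleton_iff.2 (sup_Ilow_eq_top hv hg h n)
  exact Module.finrank_zero_of_subsingleton

end Crest.Agent.R011
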