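import Mathlib

/-!
Row 11: the numerical choice of parameters.
-/

set_option autoImplicit false

namespace Crest.Agent.R011

open Filter Topology

theorem mainp_dims {θ A lam δ ε : ℝ} (v0 : ℕ) (hv0 : 1 ≤ v0) (hA0 : 0 < A) (hθA : θ < A)
    (hA1 : A ≤ 1) (hAθ : A ^ 2 < θ) (hlam : 1 < lam) (hδ : 0 < δ) (hε : 0 < ε) :
    ∃ β m K w0 : ℕ, 0 < β ∧ 1 ≤ m ∧ 1 ≤ w0 ∧ K ≤ w0 ∧
      (K : ℝ) * (β + 1) ^ (m + 1) * (w0 * θ ^ m) < β ^ (m + 1) * v0 ∧
      (v0 : ℝ) < lam * K * (w0 * θ ^ m) ∧ m * β * v0 < w0 ∧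
      4000 * (m + 1) * w0 * A ^ m < δ ∧ 1 / (w0 : ℝ) < ε := by
  have hθ0 : 0 < θ := lt_of_le_of_lt (sq_nonneg A) hAθ
  have hθ1 : θ < 1 := lt_of_lt_of_le hθA hA1
  have hs : A < Real.sqrt θ := Real.lt_sqrt_of_sq_lt hAθ
  have hs0 : 0 < Real.sqrt θ := hA0.trans hs
  obtain ⟨τ, hτ1, hτ2⟩ := exists_between (one_div_lt_one_div_of_lt hA0 hs)
  have hτ0 : 0 < τ := lt_trans (by positivity) hτ1
  have h1 : 1 < τ * Real.sqrt θ := by rwa [div_lt_iff₀ hs0] at hτ1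
  have h2 : 1 < τ ^ 2 * θ := by
    have : τ ^ 2 * θ = (τ * Real.sqrt θ) ^ 2 := by rw [mul_pow, Real.sq_sqrt hθ0.le]
    rw [this]; nlinarith
  have h3 : τ * A < 1 := by rwa [lt_div_iff₀ hA0] at hτ2
  have h4 : 1 < τ := by
    by_contra h
    push Not at h
    have : τ ^ 2 ≤ 1 := pow_le_one₀ hτ0.le h
    nlinarith
  have h5 : τ * θ < 1 := by nlinarith
  -- the constant `β₀`
  set l' := (1 + lam) / 2 with hl'
  have hl1 : 1 < l' := by rw [hl']; linarith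
  have hl2 : l' < lam := by rw [hl']; linarith
  obtain ⟨β₀, hβ₀⟩ := exists_nat_gt (1 / Real.log l')
  have hlog : 0 < Real.log l' := Real.log_pos hl1
  have hβ₀0 : (0 : ℝ) < β₀ := lt_trans (by positivity) hβ₀
  have hexp : Real.exp (1 / β₀) ≤ l' := by
    rw [← Real.le_log_iff_exp_le (by linarith), div_le_iff₀ hβ₀0]
    rw [div_lt_iff₀ hlog] at hβ₀
    linarith
  have hv0' : (1 : ℝ) ≤ v0 := by exact_mod_cast hv0
  -- the limits
  have e1 : ∀ᶠ m : ℕ in atTop, 2 * (v0 : ℝ) ≤ (τ ^ 2 * θ) ^ m :=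
    (tendsto_pow_atTop_atTop_of_one_lt h2).eventually_ge_atTop _
  have e2 : ∀ᶠ m : ℕ in atTop, (m : ℝ) ^ 2 * (1 / τ) ^ m < 1 / (2 * β₀ * v0) :=
    (tendsto_pow_const_mul_const_pow_of_abs_lt_one 2 (r := 1 / τ) (by
      rw [abs_of_pos (by positivity), div_lt_one hτ0]; exact h4)).eventually
      (gt_mem_nhds (by positivity))
  have e3 : ∀ᶠ m : ℕ in atTop, (m : ℝ) ^ 1 * (τ * A) ^ m < δ / 16000 :=
    (tendsto_pow_const_mul_const_pow_of_abs_lt_one 1 (r := τ * A) (by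
      rw [abs_of_pos (by positivity)]; exact h3)).eventually (gt_mem_nhds (by positivity))
  have e4 : ∀ᶠ m : ℕ in atTop, 1 / ε + 1 ≤ τ ^ m :=
    (tendsto_pow_atTop_atTop_of_one_lt h4).eventually_ge_atTop _
  have e5 : ∀ᶠ m : ℕ in atTop, (τ * θ) ^ m < (1 - l' / lam) / (2 * l') :=
    (tendsto_pow_atTop_nhds_zero_of_lt_one (by positivity) h5).eventually
      (gt_mem_nhds (by
        have : l' / lam < 1 := by rw [div_lt_one (by linarith)]; exact hl2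
        have : 0 < 1 - l' / lam := by linarith
        positivity))
  obtain ⟨m, ⟨⟨⟨⟨⟨f1, f2⟩, f3⟩, f4⟩, f5⟩, hm⟩⟩ :=
    (((((e1.and e2).and e3).and e4).and e5).and (eventually_ge_atTop 1)).exists
  have hm' : (1 : ℝ) ≤ m := by exact_mod_cast hm
  have hτm : 1 ≤ τ ^ m := one_le_pow₀ h4.le
  set w0 := ⌈τ ^ m⌉₊ with hw0
  have g1 : τ ^ m ≤ w0 := Nat.le_ceil _
  have g2 : (w0 : ℝ) ≤ 2 * τ ^ m := by
    have := Nat.ceil_lt_add_one (a := τ ^ m) (by positivity)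
    linarith
  have hθm : 0 < θ ^ m := by positivity
  have hw0' : (0 : ℝ) < w0 := by linarith
  set D := (w0 : ℝ) * θ ^ m with hD
  have hD0 : 0 < D := by positivity
  have hD1 : (τ * θ) ^ m ≤ D := by rw [mul_pow]; exact mul_le_mul_of_nonneg_right g1 hθm.le
  have hD2 : D ≤ 2 * (τ * θ) ^ m := by rw [mul_pow, hD]; nlinarith
  set K := ⌊v0 / (lam * D)⌋₊ + 1 with hK
  have k1 : v0 / (lam * D) < K := by rw [hK]; push_cast; exact Nat.lt_floor_add_one _
  have k2 : (K : ℝ) ≤ v0 / (lam * D) + 1 := by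
    rw [hK]; push_cast
    have := Nat.floor_le (a := v0 / (lam * D)) (by positivity)
    linarith
  have htθ : 0 < (τ * θ) ^ m := by positivity
  have htθ1 : (τ * θ) ^ m ≤ 1 := pow_le_one₀ (by positivity) h5.le
  refine ⟨β₀ * (m + 1), m, K, w0, ?_, hm, ?_, ?_, ?_, ?_, ?_, ?_, ?_⟩
  · have : 0 < β₀ := by exact_mod_cast hβ₀0
    positivity
  · exact_mod_cast (show (1 : ℝ) ≤ w0 by linarith)
  · have a1 : (v0 : ℝ) / (lam * D) ≤ v0 / (τ * θ) ^ m :=
      div_le_div_of_nonneg_left (by positivity) htθ (by nlinarith)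
    have a2 : (1 : ℝ) ≤ v0 / (τ * θ) ^ m := by rw [le_div_iff₀ htθ]; linarith
    have a3 : 2 * (v0 / (τ * θ) ^ m) ≤ τ ^ m := by
      rw [← mul_div_assoc, div_le_iff₀ htθ, ← mul_pow]
      calc _ ≤ _ := f1
        _ = _ := by congr 1; ring
    exact_mod_cast (show (K : ℝ) ≤ w0 by linarith)
  · have hb : (0 : ℝ) < ((β₀ * (m + 1) : ℕ) : ℝ) := by push_cast; positivity
    set β : ℝ := ((β₀ * (m + 1) : ℕ) : ℝ) with hβ
    have b1 : (β + 1) ^ (m + 1) ≤ β ^ (m + 1) * l' := by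
      have : β + 1 = β * (1 / β + 1) := by field_simp; ring
      rw [this, mul_pow]
      refine mul_le_mul_of_nonneg_left (le_trans ?_ hexp) (by positivity)
      calc (1 / β + 1) ^ (m + 1) ≤ Real.exp (1 / β) ^ (m + 1) :=
            pow_le_pow_left₀ (by positivity) (Real.add_one_le_exp _) _
        _ = Real.exp (1 / β₀) := by
            rw [← Real.exp_nat_mul]; congr 1; rw [hβ]; push_cast; field_simp
    have b2 : (K : ℝ) * l' * D < v0 := by
      have c1 : (K : ℝ) * D ≤ v0 / lam + D := by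
        have := mul_le_mul_of_nonneg_right k2 hD0.le
        rwa [add_mul, one_mul, show v0 / (lam * D) * D = v0 / lam by field_simp] at this
      have c2 : D * l' < 1 - l' / lam := by
        rw [lt_div_iff₀ (by positivity)] at f5
        nlinarith
      have c3 : l' / lam < 1 := by rw [div_lt_one (by linarith)]; exact hl2
      calc (K : ℝ) * l' * D = K * D * l' := by ring
        _ ≤ (v0 / lam + D) * l' := mul_le_mul_of_nonneg_right c1 (by linarith)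
        _ = v0 * (l' / lam) + D * l' := by ring
        _ < v0 * (l' / lam) + v0 * (1 - l' / lam) := by nlinarith
        _ = v0 := by ring
    calc (K : ℝ) * (β + 1) ^ (m + 1) * D ≤ K * (β ^ (m + 1) * l') * D := by gcongr
      _ = β ^ (m + 1) * (K * l' * D) := by ring
      _ < β ^ (m + 1) * v0 := mul_lt_mul_of_pos_left b2 (by positivity)
  · rw [div_lt_iff₀ (by positivity)] at k1
    linarith
  · have c1 : (m : ℝ) ^ 2 * (2 * β₀ * v0) < τ ^ m := by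
      rw [one_div_pow, mul_one_div, div_lt_div_iff₀ (by positivity) (by positivity)] at f2
      linarith
    have c2 : (m : ℝ) * (β₀ * (m + 1)) * v0 ≤ m ^ 2 * (2 * β₀ * v0) := by
      have : (m : ℝ) * (m + 1) ≤ m ^ 2 * 2 := by nlinarith
      calc (m : ℝ) * (β₀ * (m + 1)) * v0 = m * (m + 1) * (β₀ * v0) := by ring
        _ ≤ m ^ 2 * 2 * (β₀ * v0) := by gcongr
        _ = _ := by ring
    exact_mod_cast (show (m : ℝ) * (β₀ * (m + 1)) * v0 < w0 by linarith)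
  · have hAm : 0 < A ^ m := by positivity
    calc 4000 * ((m : ℝ) + 1) * w0 * A ^ m ≤ 4000 * (2 * m) * (2 * τ ^ m) * A ^ m := by
          gcongr; linarith
      _ = 16000 * (m ^ 1 * (τ * A) ^ m) := by rw [mul_pow]; ring
      _ < δ := by linarith
  · rw [div_lt_iff₀ hw0']
    have : 1 / ε < w0 := by linarith
    rw [div_lt_iff₀ hε] at this
    linarith

theorem mainp_params {ν : ℝ} (hν : 2 < ν) (hν3 : ν ≤ 3) :
    ∃ (a b v0 β m K w0 : ℕ) (A lam δ L : ℝ), 1 ≤ a ∧ a ≤ b ∧ 0 < A ∧ A ≤ 1 ∧ 1 ≤ lam ∧ 0 < δ ∧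
      1 ≤ L ∧ 1 ≤ v0 ∧ 0 < β ∧ 1 ≤ m ∧ 1 ≤ w0 ∧ K ≤ w0 ∧ L * b ≤ ν * a * v0 ∧
      K * (β + 1) ^ (m + 1) * (w0 * a ^ m) < β ^ (m + 1) * (v0 * b ^ m) ∧
      (v0 * b ^ m : ℝ) < lam * K * (w0 * a ^ m) ∧ m * β * v0 < w0 ∧
      4000 * (m + 1) * w0 * A ^ m < δ ∧
      1 + δ + 6 * (ν / L) + 1 / w0 + lam * L / v0 + (ν - 1) * (a / b) * lam < ν * A := by
  obtain ⟨k, hk⟩ := exists_nat_gt (4 / (ν - 2))
  have hk' : 4 < k * (ν - 2) := by rwa [div_lt_iff₀ (by linarith)] at hk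
  have hk4 : (4 : ℝ) < k := by nlinarith [Nat.cast_nonneg (α := ℝ) k]
  -- `n = k + 1`, `a = k ^ 2 + 1`, `b = (k + 1) ^ 2`
  set θ : ℝ := ((k ^ 2 + 1 : ℕ) : ℝ) / (((k + 1) ^ 2 : ℕ) : ℝ) with hθ
  have hθ' : θ = (k ^ 2 + 1) / (k + 1) ^ 2 := by rw [hθ]; push_cast; ring
  set A : ℝ := k / (k + 1) with hA
  have hA0 : 0 < A := by positivity
  have hA1 : A ≤ 1 := by rw [hA, div_le_one (by positivity)]; linarith
  have hθA : θ < A := by
    rw [hθ', hA, div_lt_div_iff₀ (by positivity) (by positivity)]; nlinarith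
  have hAθ : A ^ 2 < θ := by
    rw [hθ', hA, div_pow]; gcongr; linarith
  have hθ0 : 0 < θ := lt_of_le_of_lt (sq_nonneg A) hAθ
  set g := ν * A - 1 - (ν - 1) * θ with hg
  have hg0 : 0 < g := by
    have : g = (k * (ν - 2) - ν) / (k + 1) ^ 2 := by
      rw [hg, hθ', hA]; field_simp; ring
    rw [this]
    exact div_pos (by linarith) (by positivity)
  set lam := 1 + g / 4 with hlam
  set L := 1 + 360 / g with hL
  have hL1 : 1 ≤ L := by rw [hL]; have : 0 < 360 / g := by positivity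
                         linarith
  have hlam1 : 1 < lam := by rw [hlam]; linarith
  obtain ⟨v0, hv0⟩ := exists_nat_gt (1 + L / (ν * θ) + 20 * lam * L / g)
  have p1 : 0 < L / (ν * θ) := by positivity
  have p2 : 0 < 20 * lam * L / g := by positivity
  have hv1 : (1 : ℝ) < v0 := by linarith
  obtain ⟨β, m, K, w0, h1, h2, h3, h4, h5, h6, h7, h8, h9⟩ := mainp_dims (θ := θ) (A := A)
    (lam := lam) (δ := g / 20) (ε := g / 20) v0 (by exact_mod_cast hv1.le) hA0 hθA hA1 hAθ hlam1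
    (by positivity) (by positivity)
  have hb : (0 : ℝ) < (((k + 1) ^ 2 : ℕ) : ℝ) := by positivity
  refine ⟨k ^ 2 + 1, (k + 1) ^ 2, v0, β, m, K, w0, A, lam, g / 20, L, by omega,
    by rw [add_sq]; omega, hA0,
    hA1, hlam1.le, by positivity, hL1, by exact_mod_cast hv1.le, h1, h2, h3, h4, ?_, ?_, ?_, h7,
    h8, ?_⟩
  · have c1 : L / (ν * θ) < v0 := by linarith
    rw [div_lt_iff₀ (by positivity), hθ] at c1
    have := mul_lt_mul_of_pos_right c1 hb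
    rw [show (v0 : ℝ) * (ν * (((k ^ 2 + 1 : ℕ) : ℝ) / (((k + 1) ^ 2 : ℕ) : ℝ))) *
      (((k + 1) ^ 2 : ℕ) : ℝ) = ν * ((k ^ 2 + 1 : ℕ) : ℝ) * v0 by field_simp] at this
    exact this.le
  · have := mul_lt_mul_of_pos_right h5 (pow_pos hb m)
    rw [hθ, div_pow, show (K : ℝ) * (β + 1) ^ (m + 1) * (w0 * (((k ^ 2 + 1 : ℕ) : ℝ) ^ m /
      (((k + 1) ^ 2 : ℕ) : ℝ) ^ m)) * (((k + 1) ^ 2 : ℕ) : ℝ) ^ m =
      K * (β + 1) ^ (m + 1) * (w0 * ((k ^ 2 + 1 : ℕ) : ℝ) ^ m) by field_simp,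
      mul_assoc ((β : ℝ) ^ (m + 1))] at this
    exact_mod_cast this
  · have := mul_lt_mul_of_pos_right h6 (pow_pos hb m)
    rw [hθ, div_pow, show lam * K * (w0 * (((k ^ 2 + 1 : ℕ) : ℝ) ^ m /
      (((k + 1) ^ 2 : ℕ) : ℝ) ^ m)) * (((k + 1) ^ 2 : ℕ) : ℝ) ^ m =
      lam * K * (w0 * ((k ^ 2 + 1 : ℕ) : ℝ) ^ m) by field_simp] at this
    exact this
  · rw [← hθ]
    have c1 : 6 * (ν / L) ≤ g / 20 := by
      rw [← mul_div_assoc, div_le_iff₀ (by linarith), hL]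
      have : g / 20 * (1 + 360 / g) = g / 20 + 18 := by field_simp; ring
      rw [this]; linarith
    have c2 : lam * L / v0 ≤ g / 20 := by
      have : 20 * lam * L / g < v0 := by linarith
      rw [div_lt_iff₀ hg0] at this
      rw [div_le_iff₀ (by linarith)]; linarith
    have c3 : (ν - 1) * θ * lam ≤ (ν - 1) * θ + g / 2 := by
      have : (ν - 1) * θ ≤ 2 := by nlinarith
      rw [hlam]; nlinarith
    linarith

end Crest.Agent.R011
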