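import Crest.Agent.R011.Bezout

set_option autoImplicit false

namespace Crest.Agent.R011

open MvPolynomial Finset Filter Topology
open scoped ENNReal NNReal

theorem ze_choose_rat {D μ : ℝ≥0∞} (hD0 : D ≠ 0) (hμ : μ ≠ ∞) (h : D < μ) {e : ℕ} (he : 2 ≤ e) :
    ∃ α β : ℕ, 0 < α ∧ 0 < β ∧ (α : ℝ≥0∞) ^ e * μ < (β : ℝ≥0∞) ^ e * D ∧ β * D < α * μ := by
  lift μ to ℝ≥0 using hμ
  lift D to ℝ≥0 using h.ne_top
  have h1 : (D : ℝ) < μ := by exact_mod_cast h
  have h2 : (0 : ℝ) < D := by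
    have : D ≠ 0 := by simpa using hD0
    positivity
  have h3 : (0 : ℝ) < μ := h2.trans h1
  set ρ : ℝ := D / μ with hρ
  have hρ0 : 0 < ρ := by positivity
  have hρ1 : ρ < 1 := (div_lt_one h3).2 h1
  have h4 : ρ < √ρ := by
    rw [Real.lt_sqrt hρ0.le]; nlinarith
  obtain ⟨r, hr1, hr2⟩ := exists_rat_btwn h4
  have hr0 : (0 : ℝ) < r := hρ0.trans hr1
  have hr3 : (r : ℝ) ^ 2 < ρ := (Real.lt_sqrt hr0.le).1 hr2
  have hr4 : (r : ℝ) ≤ 1 := by nlinarith
  have hr5 : (r : ℝ) ^ e < ρ := (pow_le_pow_of_le_one hr0.le hr4 he).trans_lt hr3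
  have hr0' : 0 < r := by exact_mod_cast hr0
  have hn : 0 < r.num := Rat.num_pos.2 hr0'
  have hd : (0 : ℝ) < r.den := by exact_mod_cast r.pos
  have hcast : (r : ℝ) = (r.num.toNat : ℝ) / r.den := by
    rw [Rat.cast_def]
    congr 1
    have : ((r.num.toNat : ℤ) : ℝ) = r.num := by rw [Int.toNat_of_nonneg hn.le]
    exact_mod_cast this.symm
  refine ⟨r.num.toNat, r.den, by omega, r.pos, ?_, ?_⟩
  · have : (r.num.toNat : ℝ) ^ e * μ < (r.den : ℝ) ^ e * D := by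
      rw [hcast, div_pow, hρ, div_lt_div_iff₀ (by positivity) h3] at hr5
      linarith
    exact_mod_cast this
  · have : (r.den : ℝ) * D < (r.num.toNat : ℝ) * μ := by
      rw [hcast, hρ, div_lt_div_iff₀ h3 hd] at hr1
      linarith
    exact_mod_cast this

theorem ze_inv_lt {a b x y : ℕ} (hx : x ≠ 0) (hy : y ≠ 0) (h : a * y < b * x) :
    (a : ℝ≥0∞) * (x : ℝ≥0∞)⁻¹ < (b : ℝ≥0∞) * (y : ℝ≥0∞)⁻¹ := by
  have hx' : (x : ℝ≥0) ≠ 0 := by exact_mod_cast hx
  have hy' : (y : ℝ≥0) ≠ 0 := by exact_mod_cast hy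
  have : (a : ℝ≥0) * (x : ℝ≥0)⁻¹ < (b : ℝ≥0) * (y : ℝ≥0)⁻¹ := by
    rw [← div_eq_mul_inv, ← div_eq_mul_inv, div_lt_div_iff₀ (by positivity) (by positivity)]
    exact_mod_cast h
  have h2 := ENNReal.coe_lt_coe.2 this
  simpa [ENNReal.coe_inv hx', ENNReal.coe_inv hy'] using h2

theorem Dw_append {m : ℕ} (l l' : List (Fin (m + 1))) (f : Rg m ℂ) :
    Dw (l ++ l') f = Dw l (Dw l' f) := by
  simp [Dw, List.foldr_append]

theorem cost_append {m : ℕ} (v : Fin (m + 1) → ℕ) (l l' : List (Fin (m + 1))) :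
    cost v (l ++ l') = cost v l + cost v l' := by
  simp [cost]

/-- A chain of derivative ideals has a persistent component. -/
theorem ze_chain {m : ℕ} {w v : Fin (m + 1) → ℕ} (hw : ∀ b, 1 ≤ w b) {F : Rg m ℂ} (hF0 : F ≠ 0)
    {N : ℕ} (hF : F ∈ Vdeg w N) (E : ℕ) (i : ℕ) : ∀ d, i + d = m → ∀ p : Ideal (Rg m ℂ), p.IsPrime →
      (∀ l, cost v l ≤ i * E → Dw l F ∈ p) →
      (∃ q ≤ p, q ≠ ⊥ ∧ Persist w v q N (E + 1)) ∨ Dl (d + 1) (hilb w p) ≠ ∞ := by
  induction i with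
  | zero =>
    intro d hd p hp h
    right
    have hFp : F ∈ p := h [] (by simp [cost])
    have hlt : ⊥ < p := bot_lt_iff_ne_bot.2 fun e => hF0 (by simpa [e] using hFp)
    refine Dl_drop hw _ Ideal.isPrime_bot hlt ?_
    rw [show d + 1 + 1 = m + 2 by omega, Dl_bot hw]
    exact ENNReal.inv_ne_top.2 (prod_ne_zero' hw _)
  | succ i ih =>
    intro d hd p hp h
    let G : Set (Rg m ℂ) := {f | ∃ l, cost v l ≤ i * E ∧ f = Dw l F}
    have hG : Ideal.span G ≤ p := Ideal.span_le.2 (by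
      rintro _ ⟨l, hl, rfl⟩
      exact h l (hl.trans (Nat.mul_le_mul_right _ (Nat.le_succ i))))
    obtain ⟨q, hq, hqp⟩ := Ideal.exists_minimalPrimes_le hG
    have hGq : ∀ l, cost v l ≤ i * E → Dw l F ∈ q := fun l hl =>
      hq.1.2 (Ideal.subset_span ⟨l, hl, rfl⟩)
    rcases hqp.eq_or_lt with rfl | hlt
    · left
      refine ⟨q, le_rfl, fun e => hF0 ?_, hp, G, fun p' hp' hGp' hp'q => ?_, ?_⟩
      · have := hGq [] (by simp [cost])
        rw [e] at this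
        simpa [Dw] using this
      · exact le_antisymm hp'q (hq.2 ⟨hp', Ideal.span_le.2 hGp'⟩ hp'q)
      · rintro _ ⟨l, hl, rfl⟩
        refine ⟨Dw_mem_Vdeg hF l, fun l' hl' => ?_⟩
        rw [← Dw_append]
        apply h
        rw [cost_append, add_mul]
        omega
    · rcases ih (d + 1) (by omega) q hq.1.1 hGq with ⟨q', h1, h2⟩ | h1
      · exact Or.inl ⟨q', h1.trans hqp, h2⟩
      · exact Or.inr (Dl_drop hw _ hq.1.1 hlt h1)

/-- The maximal ideal of a point. -/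
noncomputable def mx {m : ℕ} (c : Fin (m + 1) → ℂ) : Ideal (Rg m ℂ) :=
  RingHom.ker (aeval c : Rg m ℂ →ₐ[ℂ] ℂ)

theorem mem_mx {m : ℕ} {c : Fin (m + 1) → ℂ} {g : Rg m ℂ} : g ∈ mx c ↔ aeval c g = 0 := Iff.rfl

theorem mx_ne_top {m : ℕ} (c : Fin (m + 1) → ℂ) : mx c ≠ ⊤ := by
  rw [Ideal.ne_top_iff_one, mem_mx]; simp

theorem ze_Dl_one {m : ℕ} {w : Fin (m + 1) → ℕ} (hw : ∀ b, 1 ≤ w b) {p : Ideal (Rg m ℂ)}
    (hp : p.IsPrime) {c : Fin (m + 1) → ℂ} (h : p < mx c) : Dl 1 (hilb w p) = ∞ := by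
  by_contra hc
  have h1 := Dl_succ_eq_zero (Dl_drop hw 0 hp h hc)
  have h2 := one_le_Dl_one (one_le_hilb hw (mx_ne_top c))
  rw [zero_add] at h1
  rw [h1] at h2
  simp at h2

/-- Weighted zero estimate for logarithmic jets at `K` points of `Y = 1`. -/
theorem zero_estimate {m K : ℕ} (hm : 1 ≤ m) (w v T : Fin (m + 1) → ℕ) (hw : ∀ b, 1 ≤ w b)
    (hv : ∀ b, 1 ≤ v b) (hT : GoodT v T) (c : ℕ → Fin (m + 1) → ℂ) (hc0 : ∀ j, c j 0 = 1)
    (hc : ∀ j l, j ≠ l → ∀ a ≠ 0, c j a ≠ c l a) (β : ℕ) (hβ : 0 < β)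
    (hvol : K * (β + 1) ^ (m + 1) * ∏ b, w b < β ^ (m + 1) * ∏ b, v b)
    (Θ : ℝ) (hΘ1 : 1 ≤ Θ) (hΘ : ∀ b, (v b : ℝ) ≤ Θ * w b) (hwv : ∀ b ≠ 0, w b ≤ v b)
    (h0 : m * β * v 0 < w 0)
    (hsep : ∀ a b : Fin (m + 1), b < a → (Θ * (m * β)) ^ (m + 1) * w b < w a)
    {H n : ℕ} {P : Rg m ℂ} (hP : P ≠ 0) (hPH : P ∈ Vdeg w H) (hH : 1 ≤ H)
    (hPn : ∀ j < K, phi T (c j) P ∈ Ilow ℂ univ v n) :
    n * K * ∏ b, w b ≤ H * ∏ b, v b := by
  set S := ctrSys T c K hv with hS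
  have hw0 : ∏ b, w b ≠ 0 := (prod_pos fun b _ => hw b).ne'
  have hv0 : ∏ b, v b ≠ 0 := (prod_pos fun b _ => hv b).ne'
  have hout : ∀ (p : Ideal (Rg m ℂ)), (∀ j < K, ¬ p ≤ mx (c j)) → ∀ e, Mu e (S.l p) = 0 := by
    intro p h e
    refine Mu_eq_zero e fun n => sum_eq_zero (s := range K) fun j hj => ?_
    obtain ⟨g, hg, hgq⟩ := SetLike.not_le_iff_exists.1 (h j (mem_range.1 hj))
    exact ell_eq_zero hv hg hgq n
  have hsepc : ∀ j l a, j ≠ l → a ≠ 0 → aeval (c l) (X a - C (c j a) : Rg m ℂ) ≠ 0 := by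
    intro j l a hjl ha
    simpa [sub_eq_zero] using hc l j hjl.symm a ha
  have hone : ∀ j < K, ∀ n, S.l (mx (c j)) n ≤ 1 := by
    intro j hj n
    change ∑ l ∈ range K, ell T (c l) univ v (mx (c j)) n ≤ 1
    rw [sum_eq_single j]
    · exact ell_le_one hv hT (fun g hg => hg) (surj_point (hc0 j) fun g hg => hg) n
    · intro l _ hl
      have ha : (Fin.last m) ≠ 0 := by
        intro h; have := congrArg Fin.val h; simp at this; omega
      exact ell_eq_zero hv (g := X (Fin.last m) - C (c j (Fin.last m))) (by simp [mem_mx])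
        (hsepc j l _ hl.symm ha) n
    · intro h; exact absurd (mem_range.2 hj) h
  have hbot : Mu (m + 2) (S.l ⊥) = K * (((∏ b, v b : ℕ) : ℝ≥0∞))⁻¹ := by
    have h1 := Mu_cnt univ hv
    rw [card_univ, Fintype.card_fin] at h1
    rw [← h1, ← Mu_const_mul]
    congr 1
    funext n
    change ∑ l ∈ range K, ell T (c l) univ v ⊥ n = _
    simp [ell_bot hv]
  have hind : ∀ e, (∀ p : Ideal (Rg m ℂ), p.IsPrime → Mu e (S.l p) ≤ Dl e (hilb w p)) →
      ∀ J, Mu e (S.l J) ≤ Dl e (hilb w J) := fun e h J => by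
    simpa using S.ind hw e e 1 1 (by simpa using h) J
  have hcut : ∀ e, (∀ J, Mu e (S.l J) ≤ Dl e (hilb w J)) → ∀ p : Ideal (Rg m ℂ), p.IsPrime →
      ∀ f ∉ p, ∀ N k, 1 ≤ N → f ∈ Vdeg w N → S.Ord p f k →
      k * Mu (e + 1) (S.l p) ≤ N * Dl (e + 1) (hilb w p) := fun e h p hp f hf N k hN hfN hk => by
    simpa using S.cut hw e e 1 1 (by simpa using h) hp hf hN hfN hk
  have L1 : ∀ J, Mu 1 (S.l J) ≤ Dl 1 (hilb w J) := by
    refine hind 1 fun p hp => ?_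
    by_cases h : ∀ j < K, ¬ p ≤ mx (c j)
    · rw [hout p h]; exact zero_le
    push Not at h
    obtain ⟨j, hj, hpj⟩ := h
    rcases hpj.eq_or_lt with rfl | hlt
    · exact (Mu_one_le (hone j hj)).trans (one_le_Dl_one (one_le_hilb hw (mx_ne_top _)))
    · rw [ze_Dl_one hw hp hlt]; exact le_top
  have L2 : ∀ J, Mu 2 (S.l J) ≤ Dl 2 (hilb w J) := by
    refine hind 2 fun p hp => ?_
    by_cases hex : ∃ N, 1 ≤ N ∧ ∃ f ∈ Vdeg w N, f ∉ p ∧ S.Ord p f N
    · obtain ⟨N, hN, f, hfN, hfp, hord⟩ := hex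
      have := hcut 1 L1 p hp f hfp N N hN hfN hord
      exact (ENNReal.mul_le_mul_iff_right (by exact_mod_cast (by omega : N ≠ 0))
        (ENNReal.natCast_ne_top N)).1 this
    by_cases h : ∀ j < K, ¬ p ≤ mx (c j)
    · rw [hout p h]; exact zero_le
    push Not at h
    obtain ⟨j, hj, hpj⟩ := h
    rcases hpj.eq_or_lt with rfl | hlt
    · rw [Mu_add_two (hone j hj) 0]; exact zero_le
    exfalso
    obtain ⟨k, hk, F, hFV, hF0, hFo⟩ := exists_section' hw T c K hv ⊥ (m + 1) (β + 1) β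
      (by omega) hβ (by
        rw [← hS, hbot, Dl_bot hw, ← mul_assoc]
        have := ze_inv_lt hv0 hw0 (a := (β + 1) ^ (m + 1) * K) (b := β ^ (m + 1))
          (by rwa [mul_comm _ K])
        exact_mod_cast this)
    have hN : 1 ≤ β * k := Nat.mul_pos hβ hk
    have hin : ∀ l, cost v l ≤ m * (k / m) → Dw l F ∈ p := fun l hl => by
      by_contra hn
      refine hex ⟨β * k, hN, Dw l F, Dw_mem_Vdeg hFV l, hn, fun j hj => Ideal.mem_sup_right ?_⟩
      have h1 := hFo j hj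
      rw [Ideal.map_bot, bot_sup_eq] at h1
      refine Ilow_anti ?_ (phi_Dw_mem hT h1 l)
      have := Nat.mul_div_le k m
      rw [add_mul]
      omega
    rcases ze_chain (v := v) hw (by simpa using hF0) hFV (k / m) m 0 rfl p hp hin with
      ⟨q, hqp, hq0, hq⟩ | h1
    swap
    · exact h1 (ze_Dl_one hw hp hlt)
    obtain ⟨hY, a, ha, hXa⟩ := product_thm hw hv hT hq0 hN (Nat.le_add_left 1 _) hq (hc0 j)
      (fun g hg => hpj (hqp hg)) (Γ := m * β) (Nat.mul_pos hm hβ)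
      (by
        have := Nat.lt_mul_div_succ k hm
        calc β * k ≤ β * (m * (k / m + 1)) := Nat.mul_le_mul_left _ this.le
          _ = m * β * (k / m + 1) := by ring)
      hΘ1 hΘ h0 (by simpa using hsep)
    have : ∃ i, (X i - C (c j i) : Rg m ℂ) ∉ p := by
      by_contra hcon
      push Not at hcon
      exact hlt.not_ge fun g hg => mem_of_coords hcon g hg
    obtain ⟨i, hi⟩ := this
    have hi0 : i ≠ 0 := by
      rintro rfl
      exact hi (by simpa [hc0] using hqp hY)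
    refine hex ⟨w i, hw i, _, X_sub_C_mem_Vdeg i _, hi, fun l _ => ?_⟩
    rcases eq_or_ne j l with rfl | hjl
    · exact sup_le_sup_left (Ilow_anti (hwv i hi0)) _ (phi_X_sub_mem (hc0 j) (hqp hY) hi0)
    · rw [sup_Ilow_eq_top hv (hqp hXa) (hsepc j l a hjl ha)]; trivial
  have L3 : ∀ e, ∀ J, Mu (e + 2) (S.l J) ≤ Dl (e + 2) (hilb w J) := by
    intro e
    induction e with
    | zero => exact L2
    | succ e ih =>
      refine hind _ fun p hp => ?_
      by_contra hlt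
      rw [not_le] at hlt
      by_cases h : ∃ j < K, mx (c j) ≤ p
      · obtain ⟨j, hj, hjp⟩ := h
        have : p = mx (c j) := by
          refine le_antisymm (fun g hg => ?_) hjp
          by_contra hg0
          have h1 : g - C (aeval (c j) g) ∈ p := hjp (by simp [mem_mx])
          have h2 : (C (aeval (c j) g) : Rg m ℂ) ∈ p := by simpa using p.sub_mem hg h1
          exact hp.ne_top (Ideal.eq_top_of_isUnit_mem _ h2
            ((isUnit_iff_ne_zero.2 hg0).map (C : ℂ →+* Rg m ℂ)))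
        rw [this, Mu_add_two (hone j hj) (e + 1)] at hlt
        simp at hlt
      push Not at h
      have h' : ∀ j : Fin K, ∃ g, g ∈ mx (c j) ∧ g ∉ p := fun j =>
        SetLike.not_le_iff_exists.1 (h j j.2)
      choose g hg1 hg2 using h'
      have hf : ∏ j, g j ∉ p := fun hm => by
        obtain ⟨j, -, hj⟩ := (Ideal.IsPrime.prod_mem_iff (hp := hp)).1 hm
        exact hg2 j hj
      obtain ⟨N, hN, hfN⟩ := exists_Vdeg w (∏ j, g j)
      have h1 := hcut (e + 2) ih p hp _ hf N 1 hN hfN fun j hj =>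
        Ideal.mem_sup_right (mem_Ilow_one hv (by
          rw [constantCoeff_phi, map_prod]
          exact prod_eq_zero (mem_univ (⟨j, hj⟩ : Fin K)) (mem_mx.1 (hg1 ⟨j, hj⟩))))
      rw [Nat.cast_one, one_mul] at h1
      have hD0 : Dl (e + 2 + 1) (hilb w p) ≠ 0 := fun h0 => by
        rw [h0, mul_zero] at h1
        exact absurd (h1.trans zero_le) hlt.not_ge
      have hμ : Mu (e + 2 + 1) (S.l p) ≠ ∞ :=
        ne_top_of_le_ne_top (ENNReal.mul_ne_top (ENNReal.natCast_ne_top N) hlt.ne_top) h1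
      obtain ⟨α, β', hα, hβ', k1, k2⟩ := ze_choose_rat hD0 hμ hlt (e := e + 2) (by omega)
      obtain ⟨k, hk, f, hfV, hfp, hfo⟩ := exists_section' hw T c K hv p (e + 2) α β' hα hβ' k1
      have h2 := hcut (e + 2) ih p hp f hfp _ _ (Nat.mul_pos hβ' hk) hfV hfo
      rw [Nat.cast_mul, Nat.cast_mul, mul_comm (α : ℝ≥0∞), mul_comm (β' : ℝ≥0∞), mul_assoc,
        mul_assoc] at h2
      exact k2.not_ge ((ENNReal.mul_le_mul_iff_right (by exact_mod_cast (by omega : k ≠ 0))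
        (ENNReal.natCast_ne_top k)).1 h2)
  have hfin := hcut (m + 1) (by
    obtain ⟨e, rfl⟩ : ∃ e, m = e + 1 := ⟨m - 1, by omega⟩
    exact L3 e) ⊥ Ideal.isPrime_bot P (by simpa using hP) H n hH hPH
    fun j hj => Ideal.mem_sup_right (hPn j hj)
  rw [hbot, Dl_bot hw, ← mul_assoc] at hfin
  by_contra hcon
  have := ze_inv_lt hw0 hv0 (not_le.1 hcon)
  rw [Nat.cast_mul] at this
  exact this.not_ge hfin

end Crest.Agent.R011
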