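import Crest.Agent.R011.Extrap
import Crest.Agent.R011.Zero
import Crest.Agent.R011.MainParams

set_option autoImplicit false

namespace Crest.Agent.R011

open MvPolynomial Finset Filter Topology
open scoped ENNReal NNReal

theorem mainp_approx {ν : ℝ} (hν : 2 < ν) {a : ℕ} (ha : 1 ≤ a)
    (h : ∀ Q : ℕ, ∃ (p : ℤ) (q : ℕ), Q ≤ q ∧ |Real.pi - (p : ℝ) / (q : ℝ)| < 1 / (q : ℝ) ^ ν)
    (X : ℝ) : ∃ (p : ℤ) (q ω : ℕ), 1 ≤ q ∧ p ≠ 0 ∧ 1 ≤ ω ∧
      |Real.pi - (p : ℝ) / (q : ℝ)| ≤ 1 / (q : ℝ) ^ ν ∧ Real.log q ≤ (a * ω : ℕ) ∧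
      ((a * ω : ℕ) : ℝ) - a ≤ Real.log q ∧ X < (a * ω : ℕ) := by
  obtain ⟨p, q, hq, hpq⟩ := h (⌈Real.exp (max X 0)⌉₊ + 1)
  have ha' : (0 : ℝ) < a := by exact_mod_cast ha
  have hq1 : Real.exp (max X 0) < q := by
    have h1 := Nat.le_ceil (Real.exp (max X 0))
    have h2 : ((⌈Real.exp (max X 0)⌉₊ + 1 : ℕ) : ℝ) ≤ q := by exact_mod_cast hq
    push_cast at h2; linarith
  have hq0 : (1 : ℝ) ≤ q := le_trans (Real.one_le_exp (le_max_right _ _)) hq1.le
  have hlog : max X 0 < Real.log q := by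
    rw [Real.lt_log_iff_exp_lt (by linarith)]; exact hq1
  have hl0 : 0 < Real.log q := lt_of_le_of_lt (le_max_right _ _) hlog
  have c1 : Real.log q ≤ (a * ⌈Real.log q / a⌉₊ : ℕ) := by
    have := Nat.le_ceil (Real.log q / a)
    rw [div_le_iff₀ ha'] at this
    push_cast; linarith
  refine ⟨p, q, ⌈Real.log q / a⌉₊, by exact_mod_cast hq0, ?_, ?_, hpq.le, c1, ?_, ?_⟩
  · rintro rfl
    have h1 : 1 / (q : ℝ) ^ ν ≤ 1 := by
      rw [div_le_one (by positivity)]; exact Real.one_le_rpow hq0 (by linarith)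
    rw [Int.cast_zero, zero_div, sub_zero, abs_of_pos Real.pi_pos] at hpq
    linarith [Real.pi_gt_three]
  · exact Nat.ceil_pos.2 (by positivity)
  · have := (Nat.ceil_lt_add_one (a := Real.log q / a) (by positivity)).le
    have h2 := mul_le_mul_of_nonneg_left this ha'.le
    rw [mul_add, mul_div_cancel₀ _ ha'.ne'] at h2
    push_cast; linarith
  · exact lt_of_le_of_lt (le_max_left _ _) (lt_of_lt_of_le hlog c1)

theorem pi_exponent_le_three (ν : ℝ) (hν : 2 < ν) (hν3 : ν ≤ 3) :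
    ∃ Q : ℕ, ∀ (p : ℤ) (q : ℕ), Q ≤ q → 1 / (q : ℝ) ^ ν ≤ |Real.pi - (p : ℝ) / (q : ℝ)| := by
  by_contra hcon
  push Not at hcon
  obtain ⟨a, b, v0, β, m, K, w0, A, lam, δ, L, ha, hab, hA0, hA1, hlam, hδ, hL, hv0, hβ, hm, hw0,
    hK, hLb, hvol, hR, h0, hbox, hgap⟩ := mainp_params hν hν3
  have ha' : (0 : ℝ) < a := by exact_mod_cast ha
  have hb' : (0 : ℝ) < b := by exact_mod_cast le_trans ha hab
  have hab' : (a : ℝ) ≤ b := by exact_mod_cast hab
  -- the constant `W`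
  set C := Real.log (8 * (2 * Real.pi * K + 1) * (2 * K * Real.exp (ν * a) + 1)) + a with hC
  set G := ν * A - (1 + δ + 6 * (ν / L) + 1 / w0 + lam * L / v0 + (ν - 1) * (a / b) * lam)
    with hG
  have hG0 : 0 < G := by rw [hG]; linarith
  set W := 1 + (6 + |C|) / G with hW
  have hW1 : 1 ≤ W := by
    have : 0 ≤ (6 + |C|) / G := by positivity
    rw [hW]; linarith
  have hW2 : 6 * (1 / W) + C / W < G := by
    have h1 : 6 * (1 / W) + C / W = (6 + C) / W := by ring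
    rw [h1, div_lt_iff₀ (by linarith), hW, mul_add, mul_div_cancel₀ _ hG0.ne']
    linarith [le_abs_self C]
  set Γ : ℝ := ((b : ℝ) / a * (m * β)) ^ (m + 1) with hΓ
  have hΘ : (1 : ℝ) ≤ b / a := by rw [le_div_iff₀ ha']; linarith
  have hΓ1 : 1 ≤ Γ := by
    refine one_le_pow₀ ?_
    have : (1 : ℝ) ≤ m * β := by exact_mod_cast Nat.mul_pos hm hβ
    nlinarith
  choose P Q Ω hQ hP hΩ happ hl1 hl2 hX using mainp_approx hν ha hcon
  -- the weights
  let u : ℕ → ℕ := fun i => Nat.rec (motive := fun _ => ℕ) w0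
    (fun _ (x : ℕ) => a * Ω (max W (Γ * (x : ℝ)))) i
  let X : ℕ → ℝ := fun i => max W (Γ * ((u i : ℕ) : ℝ))
  have hu : ∀ i, u (i + 1) = a * Ω (X i) := fun _ => rfl
  have hu1 : ∀ i, Γ * (u i : ℝ) < u (i + 1) := fun i => lt_of_le_of_lt (le_max_right _ _) (hX (X i))
  have hu2 : StrictMono u := strictMono_nat_of_lt_succ fun i => by
    have h1 := hu1 i
    have h2 : (u i : ℝ) ≤ Γ * u i := le_mul_of_one_le_left (Nat.cast_nonneg _) hΓ1
    exact_mod_cast lt_of_le_of_lt h2 h1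
  let w : Fin (m + 1) → ℕ := Fin.cons w0 fun i : Fin m => a * Ω (X i)
  let v : Fin (m + 1) → ℕ := Fin.cons v0 fun i : Fin m => b * Ω (X i)
  let T : Fin (m + 1) → ℕ := Fin.cons 1 fun i : Fin m => ⌈ν * (a * Ω (X i) : ℕ) / L⌉₊
  let p : Fin (m + 1) → ℤ := Fin.cons 1 fun i : Fin m => P (X i)
  let q : Fin (m + 1) → ℕ := Fin.cons 1 fun i : Fin m => Q (X i)
  have hwu : ∀ j, w j = u j := fun j => by
    refine Fin.cases ?_ (fun i => ?_) j
    · rfl
    · exact (hu i).symm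
  have hw : ∀ j, 1 ≤ w j := fun j => by
    refine Fin.cases hw0 (fun i => ?_) j
    exact Nat.mul_pos ha (hΩ _)
  have hv : ∀ j, 1 ≤ v j := fun j => by
    refine Fin.cases hv0 (fun i => ?_) j
    exact Nat.mul_pos (le_trans ha hab) (hΩ _)
  have hL0 : 0 < L := by linarith
  have hT1 : ∀ i : Fin m, ν * w i.succ ≤ L * T i.succ := fun i => by
    have := Nat.le_ceil (ν * (a * Ω (X i) : ℕ) / L)
    rw [div_le_iff₀ hL0] at this
    simp only [w, T, Fin.cons_succ]; linarith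
  obtain ⟨H, hH, F, hF0, hFH, hFn⟩ := exists_aux (K := K) w v T p q ν A (a / b) lam δ L a W hν hν3
    hA0 hA1 (by positivity) hlam hδ hL ha'.le hW1 hw hv hK
    (fun j => Fin.cases le_rfl (fun i => hQ _) j) (fun i => happ _) (fun i => hl1 _)
    (fun i => hl2 _) (fun i => le_trans (le_max_left _ _) (hX (X i)).le)
    (fun i => by
      simp only [w, v, Fin.cons_succ]; push_cast
      exact le_of_eq (by field_simp)) hT1
    (fun i => by
      simp only [w, T, Fin.cons_succ]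
      exact (Nat.ceil_lt_add_one (by positivity)).le)
    (by
      simp only [w, v, Fin.cons_zero]
      rw [← hC]
      rw [hG] at hW2
      linarith)
    (by simpa only [w, Fin.cons_zero] using hbox)
  have hpw : ∏ j, w j = w0 * a ^ m * ∏ i : Fin m, Ω (X i) := by
    simp only [w, Fin.prod_univ_succ, Fin.cons_zero, Fin.cons_succ, Finset.prod_mul_distrib,
      Finset.prod_const, Finset.card_univ, Fintype.card_fin, mul_assoc]
  have hpv : ∏ j, v j = v0 * b ^ m * ∏ i : Fin m, Ω (X i) := by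
    simp only [v, Fin.prod_univ_succ, Fin.cons_zero, Fin.cons_succ, Finset.prod_mul_distrib,
      Finset.prod_const, Finset.card_univ, Fintype.card_fin, mul_assoc]
  have hΩ0 : 0 < ∏ i : Fin m, Ω (X i) := Finset.prod_pos fun i _ => hΩ _
  have hv0w0 : v0 ≤ w0 := by
    have : 1 * v0 ≤ m * β * v0 := Nat.mul_le_mul_right _ (Nat.mul_pos hm hβ)
    omega
  have key := zero_estimate (K := K) hm w v T hw hv
    (fun j => by
      refine Fin.cases ⟨le_rfl, by simp [v, T]⟩ (fun i => ⟨?_, ?_⟩) j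
      · simp only [T, Fin.cons_succ]
        have : (0 : ℝ) < (a * Ω (X i) : ℕ) := by exact_mod_cast Nat.mul_pos ha (hΩ _)
        exact Nat.ceil_pos.2 (by positivity)
      · have h1 := hT1 i
        simp only [w, v, Fin.cons_succ, Fin.cons_zero] at h1 ⊢
        have h2 : L * ((b * Ω (X i) : ℕ) : ℝ) ≤ L * (T i.succ * v0) := by
          push_cast at h1 ⊢
          calc L * (b * Ω (X i)) = L * b * Ω (X i) := by ring
            _ ≤ ν * a * v0 * Ω (X i) := by gcongr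
            _ = ν * (a * Ω (X i)) * v0 := by ring
            _ ≤ L * T i.succ * v0 := by gcongr
            _ = _ := by ring
        have h3 : b * Ω (X i) ≤ T i.succ * v0 := by
          exact_mod_cast le_of_mul_le_mul_left h2 hL0
        omega)
    (ctr p q) (fun j => by simp [ctr])
    (fun j l hjl c hc => by
      obtain ⟨i, rfl⟩ := Fin.exists_succ_eq.2 hc
      have h1 : (P (X i) : ℂ) ≠ 0 := by exact_mod_cast hP (X i)
      have h2 : (Q (X i) : ℂ) ≠ 0 := by
        have := hQ (X i)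
        exact_mod_cast (show Q (X i) ≠ 0 by omega)
      simp only [ctr, if_neg hc, p, q, Fin.cons_succ]
      intro h
      have h3 : (2 * Complex.I * P (X i) / Q (X i) : ℂ) ≠ 0 :=
        div_ne_zero (mul_ne_zero (mul_ne_zero two_ne_zero Complex.I_ne_zero) h1) h2
      exact hjl (by exact_mod_cast mul_right_cancel₀ h3 h))
    β hβ
    (by
      rw [hpw, hpv, ← mul_assoc, ← mul_assoc (β ^ (m + 1))]
      exact Nat.mul_lt_mul_of_pos_right hvol hΩ0)
    (b / a) hΘ
    (fun j => by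
      refine Fin.cases ?_ (fun i => ?_) j
      · simp only [w, v, Fin.cons_zero]
        have : (v0 : ℝ) ≤ w0 := by exact_mod_cast hv0w0
        exact this.trans (le_mul_of_one_le_left (Nat.cast_nonneg _) hΘ)
      · simp only [w, v, Fin.cons_succ]; push_cast
        exact le_of_eq (by field_simp))
    (fun j hj => by
      obtain ⟨i, rfl⟩ := Fin.exists_succ_eq.2 hj
      simp only [w, v, Fin.cons_succ]
      exact Nat.mul_le_mul_right _ hab)
    (by simpa only [w, v, Fin.cons_zero] using h0)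
    (fun c d hdc => by
      rw [hwu, hwu, ← hΓ]
      have h1 : (d : ℕ) + 1 ≤ c := hdc
      have h2 : (u (d + 1) : ℝ) ≤ u c := by exact_mod_cast hu2.monotone h1
      exact lt_of_lt_of_le (hu1 d) h2)
    hF0 hFH hH hFn
  rw [hpw, hpv, ← mul_assoc, ← mul_assoc H] at key
  have k1 := Nat.le_of_mul_le_mul_right key hΩ0
  have k2 : ((⌈lam * H⌉₊ : ℕ) : ℝ) * K * (w0 * a ^ m) ≤ H * (v0 * b ^ m) := by exact_mod_cast k1
  have k3 : lam * H ≤ ⌈lam * H⌉₊ := Nat.le_ceil _
  have hH' : (0 : ℝ) < H := by exact_mod_cast hH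
  have k4 : lam * H * K * (w0 * a ^ m) ≤ ((⌈lam * H⌉₊ : ℕ) : ℝ) * K * (w0 * a ^ m) := by gcongr
  have k5 := mul_lt_mul_of_pos_left hR hH'
  nlinarith

theorem pi_exponent (ν : ℝ) (hν : 2 < ν) :
    ∃ Q : ℕ, ∀ (p : ℤ) (q : ℕ), Q ≤ q → 1 / (q : ℝ) ^ ν ≤ |Real.pi - (p : ℝ) / (q : ℝ)| := by
  obtain ⟨Q, hQ⟩ := pi_exponent_le_three (min ν 3) (lt_min hν (by norm_num)) (min_le_right _ _)
  refine ⟨Q + 1, fun p q hq => le_trans ?_ (hQ p q (by omega))⟩
  have hq1 : (1 : ℝ) ≤ q := by exact_mod_cast (show 1 ≤ q by omega)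
  exact one_div_le_one_div_of_le (by positivity)
    (Real.rpow_le_rpow_of_exponent_le hq1 (min_le_left _ _))

end Crest.Agent.R011
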